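import Vale.Agent.P087.Interfaces

/-!
# P087: the lower bound `χ > -∞` for the concrete tuple

GUE matrices give microstates; fixing the latent matrices makes the tuple affine in the noise.
-/

set_option linter.unusedSectionVars false

open scoped InnerProductSpace ENNReal NNReal
open MeasureTheory Filter

namespace Vale.Agent.P087

namespace Lower

noncomputable section

section Wick

variable {ι A : Type} [DecidableEq ι] [Ring A]

theorem wickOf_map {R B : Type} [CommRing R] [Algebra R A] [Ring B] [Algebra R B] (f : A →ₐ[R] B)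
    (s : ι → A) : ∀ w : List ι, f (wickOf s w) = wickOf (fun a => f (s a)) w
  | [] => by simp [wickOf]
  | [a] => by simp [wickOf]
  | a :: b :: w => by
    simp only [wickOf, map_sub, map_mul, wickOf_map f s (b :: w)]
    split_ifs
    · rw [wickOf_map f s w]
    · simp

theorem wickOf_concat (s : ι → A) : ∀ (w : List ι) (a b : ι),
    wickOf s (w ++ [a, b]) = wickOf s (w ++ [a]) * s b - if a = b then wickOf s w else 0
  | [], a, b => by simp [wickOf]
  | [c], a, b => by
    simp only [List.cons_append, List.nil_append, wickOf]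
    split_ifs <;> simp_all [mul_sub, sub_mul, mul_assoc]
  | c :: d :: w, a, b => by
    simp only [List.cons_append, wickOf]
    have h1 := wickOf_concat s (d :: w) a b
    have h2 := wickOf_concat s w a b
    simp only [List.cons_append] at h1
    rw [h1, h2]
    split_ifs <;> simp [mul_sub, sub_mul, mul_assoc] <;> abel

theorem wickOf_star [StarRing A] (s : ι → A) (hs : ∀ a, star (s a) = s a) :
    ∀ w : List ι, star (wickOf s w) = wickOf s w.reverse
  | [] => by simp [wickOf]
  | [a] => by simp [wickOf, hs]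
  | a :: b :: w => by
    rw [wickOf, star_sub, star_mul, hs, wickOf_star s hs (b :: w), List.reverse_cons,
      List.reverse_cons]
    rw [List.reverse_cons, List.append_assoc]
    rw [show [b] ++ [a] = [b, a] from rfl, wickOf_concat]
    split_ifs with h h' h'
    · rw [wickOf_star s hs w]
    · exact absurd h.symm h'
    · exact absurd h'.symm h
    · simp

end Wick

section Tuple

variable {L : ℕ}

theorem tuple_map {A B : Type} [Ring A] [Algebra ℂ A] [Ring B] [Algebra ℂ B]
    (f : A →ₐ[ℂ] B) (s : Letter L → A) (ε : ℂ) (i : Idx L) :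
    f (tuple s ε i) = tuple (fun a => f (s a)) ε i := by
  cases i <;> simp [tuple, wickOf_map]

theorem palindrome_reverse (w : Code L) : (palindrome w).reverse = palindrome w := by
  simp [palindrome, List.reverse_append]

theorem tuple_isHermitian {k : ℕ} (s : Letter L → Matrix (Fin k) (Fin k) ℂ)
    (hs : ∀ a, (s a).IsHermitian) (ε : ℝ) (i : Idx L) : (tuple s (ε : ℂ) i).IsHermitian := by
  cases i with
  | inl i =>
    refine (hs _).add ?_
    show star ((ε : ℂ) • s _) = _
    rw [star_smul, Complex.star_def, Complex.conj_ofReal]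
    exact congrArg _ (hs _)
  | inr w =>
    refine Matrix.IsHermitian.add ?_ (hs _)
    show star (wickOf _ (palindrome w)) = _
    rw [wickOf_star _ (fun a => hs _), palindrome_reverse]

end Tuple

section Coordinates

variable {k : ℕ}

/-- Coordinates of a self-adjoint matrix. -/
def coords (P : Matrix (Fin k) (Fin k) ℂ) : Fin k → Fin k → ℝ := fun a b =>
  if a = b then (P a b).re else if a < b then Real.sqrt 2 * (P a b).re
    else Real.sqrt 2 * (P b a).im

theorem hermitian_isHermitian (x : Fin k → Fin k → ℝ) : (hermitian x).IsHermitian := by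
  ext a b
  simp only [Matrix.conjTranspose_apply, hermitian, Complex.star_def]
  rcases lt_trichotomy a b with h | h | h
  · rw [if_neg h.ne', if_neg h.asymm, if_neg h.ne, if_pos h]
    simp only [map_div₀, map_sub, map_mul, Complex.conj_ofReal, Complex.conj_I]
    ring
  · subst h; simp
  · rw [if_neg h.ne, if_pos h, if_neg h.ne', if_neg h.asymm]
    simp only [map_div₀, map_add, map_mul, Complex.conj_ofReal, Complex.conj_I]
    ring

theorem hermitian_coords {P : Matrix (Fin k) (Fin k) ℂ} (hP : P.IsHermitian) :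
    hermitian (coords P) = P := by
  ext a b
  have h2 : ((Real.sqrt 2 : ℝ) : ℂ) ≠ 0 := by
    simp
  simp only [hermitian, coords]
  rcases lt_trichotomy a b with h | h | h
  · simp only [if_neg h.ne, if_pos h, if_neg h.ne', if_neg h.asymm]
    rw [div_eq_iff h2]
    apply Complex.ext <;> simp <;> ring
  · subst h
    simp only [if_true]
    exact Complex.conj_eq_iff_re.1 (hP.apply a a)
  · simp only [if_neg h.ne', if_neg h.asymm, if_neg h.ne, if_pos h]
    rw [div_eq_iff h2, ← hP.apply a b]
    apply Complex.ext <;> simp <;> ring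

theorem hermitian_add_smul (x y : Fin k → Fin k → ℝ) (c : ℝ) :
    hermitian (fun a b => x a b + c * y a b) = hermitian x + (c : ℂ) • hermitian y := by
  ext a b
  simp only [hermitian, Matrix.add_apply, Matrix.smul_apply, smul_eq_mul]
  split_ifs <;> push_cast <;> ring

theorem continuous_hermitian : Continuous (hermitian : (Fin k → Fin k → ℝ) → _) := by
  refine continuous_matrix fun a b => ?_
  unfold hermitian
  split_ifs <;> fun_prop

end Coordinates

section Polynomials

variable {Λ : Type}

/-- The monomials in the free algebra. -/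
def word' (w : List Λ) : FreeAlgebra ℂ Λ := (w.map (FreeAlgebra.ι ℂ)).prod

theorem lift_word' {A : Type} [Ring A] [Algebra ℂ A] (f : Λ → A) (w : List Λ) :
    FreeAlgebra.lift ℂ f (word' w) = (w.map f).prod := by
  rw [word', map_list_prod, List.map_map]
  congr 1
  exact List.map_congr_left fun a _ => by simp

theorem span_word' : Submodule.span ℂ (Set.range (word' : List Λ → FreeAlgebra ℂ Λ)) = ⊤ := by
  refine eq_top_iff.2 fun p _ => ?_
  have hp : p ∈ Subalgebra.toSubmodule
      (Algebra.adjoin ℂ (Set.range (FreeAlgebra.ι ℂ : Λ → FreeAlgebra ℂ Λ))) := by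
    simp [FreeAlgebra.adjoin_range_ι]
  rw [Algebra.adjoin_eq_span] at hp
  refine Submodule.span_mono ?_ hp
  intro q hq
  induction hq using Submonoid.closure_induction with
  | mem q hq =>
    obtain ⟨a, rfl⟩ := hq
    exact ⟨[a], by simp [word']⟩
  | one => exact ⟨[], by simp [word']⟩
  | mul q r _ _ h1 h2 =>
    obtain ⟨u, rfl⟩ := h1
    obtain ⟨v, rfl⟩ := h2
    exact ⟨u ++ v, by simp [word']⟩

variable {H : Type} [NormedAddCommGroup H] [InnerProductSpace ℂ H] [CompleteSpace H]

/-- Closeness of the moments of the letters gives closeness for every polynomial. -/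
theorem exists_trace_close (Ω : H) (s : Λ → H →L[ℂ] H) (p : FreeAlgebra ℂ Λ) :
    ∃ (K : ℝ) (D : ℕ), 0 ≤ K ∧ ∀ (k : ℕ) (A : Λ → Matrix (Fin k) (Fin k) ℂ) (δ : ℝ),
      (∀ w : List Λ, w.length ≤ D →
        ‖(k : ℂ)⁻¹ * (w.map A).prod.trace - trace Ω (w.map s).prod‖ ≤ δ) →
      ‖(k : ℂ)⁻¹ * (FreeAlgebra.lift ℂ A p).trace - trace Ω (FreeAlgebra.lift ℂ s p)‖ ≤ K * δ := by
  have hp : p ∈ Submodule.span ℂ (Set.range (word' : List Λ → FreeAlgebra ℂ Λ)) := by
    rw [span_word']; trivial
  induction hp using Submodule.span_induction with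
  | mem q hq =>
    obtain ⟨u, rfl⟩ := hq
    refine ⟨1, u.length, zero_le_one, fun k A δ h => ?_⟩
    rw [lift_word', lift_word', one_mul]
    exact h u le_rfl
  | zero =>
    exact ⟨0, 0, le_rfl, fun k A δ _ => by simp [trace]⟩
  | add q r _ _ hq hr =>
    obtain ⟨K₁, D₁, hK₁, h₁⟩ := hq
    obtain ⟨K₂, D₂, hK₂, h₂⟩ := hr
    refine ⟨K₁ + K₂, max D₁ D₂, add_nonneg hK₁ hK₂, fun k A δ h => ?_⟩
    have e1 := h₁ k A δ fun w hw => h w (hw.trans (le_max_left _ _))
    have e2 := h₂ k A δ fun w hw => h w (hw.trans (le_max_right _ _))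
    refine le_trans (le_trans (le_of_eq ?_) (norm_add_le _ _)) (add_mul K₁ K₂ δ ▸ add_le_add e1 e2)
    simp only [map_add, Matrix.trace_add, trace, ContinuousLinearMap.add_apply, inner_add_right]
    congr 1
    ring
  | smul c q _ hq =>
    obtain ⟨K, D, hK, h'⟩ := hq
    refine ⟨‖c‖ * K, D, mul_nonneg (norm_nonneg _) hK, fun k A δ h => ?_⟩
    rw [mul_assoc]
    refine le_trans (le_of_eq ?_) (mul_le_mul_of_nonneg_left (h' k A δ h) (norm_nonneg c))
    rw [← norm_mul]
    simp only [map_smul, Matrix.trace_smul, trace, smul_eq_mul, ContinuousLinearMap.smul_apply,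
      inner_smul_right]
    congr 1
    ring

/-- Bounded letters give bounded polynomials. -/
theorem exists_norm_le (R : ℝ) (p : FreeAlgebra ℂ Λ) :
    ∃ R' : ℝ, 0 ≤ R' ∧ ∀ (k : ℕ) (A : Λ → Matrix (Fin k) (Fin k) ℂ),
      (∀ a, ‖Matrix.toEuclideanCLM (𝕜 := ℂ) (A a)‖ ≤ R) →
      ‖Matrix.toEuclideanCLM (𝕜 := ℂ) (FreeAlgebra.lift ℂ A p)‖ ≤ R' := by
  induction p using FreeAlgebra.induction with
  | grade0 c =>
    refine ⟨‖c‖, norm_nonneg c, fun k A _ => ?_⟩
    rw [AlgHom.commutes, Algebra.algebraMap_eq_smul_one, map_smul, map_one, norm_smul]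
    exact mul_le_of_le_one_right (norm_nonneg c) ContinuousLinearMap.norm_id_le
  | grade1 a =>
    refine ⟨|R|, abs_nonneg R, fun k A h => ?_⟩
    rw [FreeAlgebra.lift_ι_apply]
    exact (h a).trans (le_abs_self R)
  | mul q r hq hr =>
    obtain ⟨R₁, h₁0, h₁⟩ := hq
    obtain ⟨R₂, h₂0, h₂⟩ := hr
    refine ⟨R₁ * R₂, mul_nonneg h₁0 h₂0, fun k A h => ?_⟩
    rw [map_mul, map_mul]
    exact (norm_mul_le _ _).trans (mul_le_mul (h₁ k A h) (h₂ k A h) (norm_nonneg _) h₁0)
  | add q r hq hr =>
    obtain ⟨R₁, h₁0, h₁⟩ := hq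
    obtain ⟨R₂, h₂0, h₂⟩ := hr
    refine ⟨R₁ + R₂, add_nonneg h₁0 h₂0, fun k A h => ?_⟩
    rw [map_add, map_add]
    exact (norm_add_le _ _).trans (add_le_add (h₁ k A h) (h₂ k A h))

end Polynomials

section Measures

theorem pi_le_pow_smul {ι α : Type} [Fintype ι] [MeasurableSpace α] (μ : Measure α) [SigmaFinite μ]
    (ν : ι → Measure α) [∀ i, SigmaFinite (ν i)] {c : ℝ≥0∞} (hc : c ≠ 0) (hc' : c ≠ ∞)
    (h : ∀ i, ν i ≤ c • μ) :
    Measure.pi ν ≤ c ^ Fintype.card ι • Measure.pi fun _ => μ := by
  have h0 : c ^ Fintype.card ι ≠ 0 := pow_ne_zero _ hc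
  have h1 : c ^ Fintype.card ι ≠ ∞ := ENNReal.pow_ne_top hc'
  have key : ((c ^ Fintype.card ι)⁻¹ • Measure.pi ν).toOuterMeasure ≤
      OuterMeasure.pi fun _ : ι => μ.toOuterMeasure := by
    rw [OuterMeasure.le_pi]
    intro t _
    change ((c ^ Fintype.card ι)⁻¹ • Measure.pi ν) (Set.univ.pi t) ≤ ∏ i, μ (t i)
    rw [Measure.smul_apply, Measure.pi_pi, smul_eq_mul]
    calc (c ^ Fintype.card ι)⁻¹ * ∏ i, ν i (t i)
        ≤ (c ^ Fintype.card ι)⁻¹ * ∏ i, c * μ (t i) := by
          refine mul_le_mul le_rfl (Finset.prod_le_prod' fun i _ => ?_) bot_le bot_le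
          exact (Measure.le_iff'.1 (h i) (t i))
      _ = ∏ i, μ (t i) := by
          rw [Finset.prod_mul_distrib, Finset.prod_const, Finset.card_univ, ← mul_assoc,
            ENNReal.inv_mul_cancel h0 h1, one_mul]
  refine Measure.le_iff.2 fun t ht => ?_
  have ht' : ((c ^ Fintype.card ι)⁻¹ • Measure.pi ν) t ≤ Measure.pi (fun _ : ι => μ) t := by
    have e : Measure.pi (fun _ : ι => μ) t = OuterMeasure.pi (fun _ : ι => μ.toOuterMeasure) t := by
      rw [Measure.pi_def]
      exact toMeasure_apply _ _ ht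
    rw [e]
    exact key t
  rw [Measure.smul_apply, smul_eq_mul] at ht'
  calc Measure.pi ν t = c ^ Fintype.card ι * ((c ^ Fintype.card ι)⁻¹ * Measure.pi ν t) := by
        rw [← mul_assoc, ENNReal.mul_inv_cancel h0 h1, one_mul]
    _ ≤ c ^ Fintype.card ι * Measure.pi (fun _ : ι => μ) t := mul_le_mul le_rfl ht' bot_le bot_le
    _ = (c ^ Fintype.card ι • Measure.pi fun _ : ι => μ) t := by simp

theorem gaussianReal_le_smul_volume (z : ℝ) (v : ℝ≥0) (hv : v ≠ 0) {b : ℝ} (hb : 0 < b)
    (hbv : b ≤ (v : ℝ)) :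
    ProbabilityTheory.gaussianReal z v ≤
      ENNReal.ofReal (Real.sqrt (2 * Real.pi * b))⁻¹ • volume := by
  refine Measure.le_iff.2 fun t _ => ?_
  rw [ProbabilityTheory.gaussianReal_apply z hv t, Measure.smul_apply, smul_eq_mul,
    ← setLIntegral_const]
  refine lintegral_mono fun x => ENNReal.ofReal_le_ofReal ?_
  rw [ProbabilityTheory.gaussianPDFReal_def]
  calc (Real.sqrt (2 * Real.pi * v))⁻¹ * Real.exp (-(x - z) ^ 2 / (2 * v))
      ≤ (Real.sqrt (2 * Real.pi * v))⁻¹ * 1 := by
        refine mul_le_mul_of_nonneg_left (Real.exp_le_one_iff.2 ?_) (by positivity)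
        exact div_nonpos_of_nonpos_of_nonneg (neg_nonpos.2 (sq_nonneg _)) (by positivity)
    _ ≤ _ := by
        rw [mul_one]
        gcongr

/-- One section of a set of probability at least `1/2` has probability at least `1/4`. -/
theorem exists_section {α β : Type} [MeasurableSpace α] [MeasurableSpace β] (μ : Measure α)
    [IsProbabilityMeasure μ] (ν : Measure β) [SFinite ν] {s : Set (α × β)} (hs : MeasurableSet s)
    {c : ℝ≥0∞} (h : c ≤ μ.prod ν s) : ∃ a, c ≤ ν (Prod.mk a ⁻¹' s) + c / 2 := by
  by_contra hne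
  push Not at hne
  rw [Measure.prod_apply hs] at h
  have hb : ∀ a, ν (Prod.mk a ⁻¹' s) + c / 2 ≤ c := fun a => (hne a).le
  obtain ⟨a⟩ : Nonempty α := nonempty_of_isProbabilityMeasure μ
  have h2 : ∫⁻ a, ν (Prod.mk a ⁻¹' s) ∂μ + c / 2 ≤ c := by
    have := lintegral_mono (μ := μ) hb
    rw [lintegral_add_right _ measurable_const] at this
    simpa using this
  have h3 : c + c / 2 ≤ c := le_trans (by gcongr) h2
  have h4 := hne a
  have hc : c ≠ ∞ := by
    intro hc
    rw [hc, ENNReal.top_div_of_ne_top (by simp)] at h4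
    simp at h4
  have h5 : c / 2 = 0 := le_antisymm ((ENNReal.add_le_add_iff_left hc).1 (by simpa using h3)) bot_le
  simp only [ENNReal.div_eq_zero_iff, ENNReal.ofNat_ne_top, or_false] at h5
  simp [h5] at h4

end Measures

section Main

variable {H : Type} [NormedAddCommGroup H] [InnerProductSpace ℂ H] [CompleteSpace H]

/-- The part of the tuple that does not involve its own noise letter. -/
def shiftPart {A : Type} [Ring A] [Algebra ℂ A] {L : ℕ} (s : Letter L → A) : Idx L → A
  | Sum.inl i => s (latent i)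
  | Sum.inr w => wickOf (fun i => s (latent i)) (palindrome w)

/-- The coefficient of the own noise letter. -/
def noiseCoef {L : ℕ} (ε : ℝ) : Idx L → ℝ
  | Sum.inl _ => ε
  | Sum.inr _ => 1

theorem tuple_eq_shift_add {A : Type} [Ring A] [Algebra ℂ A] {L : ℕ} (s : Letter L → A) (ε : ℝ)
    (i : Idx L) : tuple s (ε : ℂ) i = shiftPart s i + (noiseCoef ε i : ℂ) • s (noise i) := by
  cases i <;> simp [tuple, shiftPart, noiseCoef]

theorem shiftPart_isHermitian {L k : ℕ} (s : Letter L → Matrix (Fin k) (Fin k) ℂ)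
    (hs : ∀ a, (s a).IsHermitian) (i : Idx L) : (shiftPart s i).IsHermitian := by
  cases i with
  | inl i => exact hs _
  | inr w =>
    show star (wickOf _ (palindrome w)) = _
    rw [wickOf_star _ (fun a => hs _), palindrome_reverse]
    rfl

/-- The affine image of a Gaussian product measure is below a multiple of Lebesgue measure. -/
theorem map_affine_le {n k : ℕ} (z : Fin n → Fin k → Fin k → ℝ) (c : Fin n → ℝ) (v : ℝ≥0)
    (hv : v ≠ 0) {b : ℝ} (hb : 0 < b) (hbv : ∀ j, b ≤ c j ^ 2 * (v : ℝ)) :
    Measure.map (fun g j a b => z j a b + c j * g j a b)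
        (Measure.pi fun _ : Fin n => Measure.pi fun _ : Fin k => Measure.pi fun _ : Fin k =>
          ProbabilityTheory.gaussianReal 0 v) ≤
      ((ENNReal.ofReal (Real.sqrt (2 * Real.pi * b))⁻¹ ^ k) ^ k) ^ n •
        (volume : Measure (Fin n → Fin k → Fin k → ℝ)) := by
  set C := ENNReal.ofReal (Real.sqrt (2 * Real.pi * b))⁻¹ with hC
  have hC0 : C ≠ 0 := by
    simp only [hC, ne_eq, ENNReal.ofReal_eq_zero, not_le]
    positivity
  have hC1 : C ≠ ∞ := ENNReal.ofReal_ne_top
  have h1 : ∀ j a b', Measure.map (fun x => z j a b' + c j * x)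
      (ProbabilityTheory.gaussianReal 0 v) =
        ProbabilityTheory.gaussianReal (z j a b') (⟨c j ^ 2, sq_nonneg _⟩ * v) := by
    intro j a b'
    have e1 : (fun x => z j a b' + c j * x) = (fun x => z j a b' + x) ∘ (fun x => c j * x) := rfl
    rw [e1, ← Measure.map_map (measurable_const_add _) (measurable_const_mul _),
      ProbabilityTheory.gaussianReal_map_const_mul, ProbabilityTheory.gaussianReal_map_const_add]
    simp
    rfl
  have hm : ∀ j a b', Measurable fun x : ℝ => z j a b' + c j * x := fun j a b' =>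
    (measurable_const_mul _).const_add _
  have hP : ∀ j a b', IsProbabilityMeasure
      (Measure.map (fun x => z j a b' + c j * x) (ProbabilityTheory.gaussianReal 0 v)) :=
    fun j a b' => Measure.isProbabilityMeasure_map (hm j a b').aemeasurable
  have e2 : ∀ j a, Measure.map (fun x b' => z j a b' + c j * x b')
      (Measure.pi fun _ : Fin k => ProbabilityTheory.gaussianReal 0 v) =
        Measure.pi fun b' => ProbabilityTheory.gaussianReal (z j a b') (⟨c j ^ 2, sq_nonneg _⟩ * v) := by
    intro j a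
    haveI := hP j a
    rw [Measure.pi_map_pi fun b' => (hm j a b').aemeasurable]
    simp only [h1]
  have m2 : ∀ j a, Measurable fun (x : Fin k → ℝ) b' => z j a b' + c j * x b' := fun j a =>
    measurable_pi_lambda _ fun b' => (hm j a b').comp (measurable_pi_apply b')
  have e3 : ∀ j, Measure.map (fun x a b' => z j a b' + c j * x a b')
      (Measure.pi fun _ : Fin k => Measure.pi fun _ : Fin k =>
        ProbabilityTheory.gaussianReal 0 v) =
        Measure.pi fun a => Measure.pi fun b' =>
          ProbabilityTheory.gaussianReal (z j a b') (⟨c j ^ 2, sq_nonneg _⟩ * v) := by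
    intro j
    haveI : ∀ a, IsProbabilityMeasure (Measure.map (fun x b' => z j a b' + c j * x b')
        (Measure.pi fun _ : Fin k => ProbabilityTheory.gaussianReal 0 v)) :=
      fun a => Measure.isProbabilityMeasure_map (m2 j a).aemeasurable
    rw [Measure.pi_map_pi fun a => (m2 j a).aemeasurable]
    simp only [e2]
  have m3 : ∀ j, Measurable fun (x : Fin k → Fin k → ℝ) a b' => z j a b' + c j * x a b' :=
    fun j => measurable_pi_lambda _ fun a => (m2 j a).comp (measurable_pi_apply a)
  haveI : ∀ j, IsProbabilityMeasure (Measure.map (fun x a b' => z j a b' + c j * x a b')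
      (Measure.pi fun _ : Fin k => Measure.pi fun _ : Fin k =>
        ProbabilityTheory.gaussianReal 0 v)) :=
    fun j => Measure.isProbabilityMeasure_map (m3 j).aemeasurable
  rw [Measure.pi_map_pi fun j => (m3 j).aemeasurable]
  simp only [e3]
  have hv2 : ∀ j, (⟨c j ^ 2, sq_nonneg _⟩ * v : ℝ≥0) ≠ 0 := by
    intro j h
    have h' : c j ^ 2 * (v : ℝ) = 0 := congrArg (fun r : ℝ≥0 => (r : ℝ)) h
    linarith [hbv j]
  have s1 : ∀ j a, Measure.pi (fun b' => ProbabilityTheory.gaussianReal (z j a b')
      (⟨c j ^ 2, sq_nonneg _⟩ * v)) ≤ C ^ k • Measure.pi (fun _ : Fin k => volume) := by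
    intro j a
    have := pi_le_pow_smul volume
      (fun b' => ProbabilityTheory.gaussianReal (z j a b') (⟨c j ^ 2, sq_nonneg _⟩ * v)) hC0 hC1
      fun b' => gaussianReal_le_smul_volume _ _ (hv2 j) hb (hbv j)
    simpa using this
  have s2 : ∀ j, Measure.pi (fun a => Measure.pi fun b' => ProbabilityTheory.gaussianReal (z j a b')
      (⟨c j ^ 2, sq_nonneg _⟩ * v)) ≤
        (C ^ k) ^ k • Measure.pi (fun _ : Fin k => Measure.pi fun _ : Fin k => volume) := by
    intro j
    have := pi_le_pow_smul (Measure.pi fun _ : Fin k => (volume : Measure ℝ))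
      (fun a => Measure.pi fun b' => ProbabilityTheory.gaussianReal (z j a b')
        (⟨c j ^ 2, sq_nonneg _⟩ * v)) (pow_ne_zero _ hC0) (ENNReal.pow_ne_top hC1) (s1 j)
    simpa using this
  have := pi_le_pow_smul (Measure.pi fun _ : Fin k => Measure.pi fun _ : Fin k =>
    (volume : Measure ℝ)) (fun j => Measure.pi fun a => Measure.pi fun b' =>
      ProbabilityTheory.gaussianReal (z j a b') (⟨c j ^ 2, sq_nonneg _⟩ * v))
      (pow_ne_zero _ (pow_ne_zero _ hC0)) (ENNReal.pow_ne_top (ENNReal.pow_ne_top hC1)) s2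
  rw [Fintype.card_fin] at this
  simpa only [volume_pi] using this

/-- GUE asymptotic freeness gives `χ > -∞` for the concrete tuple. -/
theorem lower (hG : GUEStatement) : LowerStatement := by
  intro H _ _ _ Ω L n s e ε hs hε
  classical
  obtain ⟨R, hR, hGUE⟩ := hG (Letter L)
  let q : Fin n → FreeAlgebra ℂ (Letter L) := fun j =>
    tuple (FreeAlgebra.ι ℂ) (ε : ℂ) (e j)
  have hq : ∀ {A : Type} [Ring A] [Algebra ℂ A] (f : Letter L → A) (j : Fin n),
      FreeAlgebra.lift ℂ f (q j) = tuple f (ε : ℂ) (e j) := by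
    intro A _ _ f j
    simp only [q, tuple_map, FreeAlgebra.lift_ι_apply]
  choose Rj hRj0 hRj using fun j => exists_norm_le R (q j)
  set R' := 1 + ∑ j, Rj j with hR'
  have hR'pos : 0 < R' := by
    have := Finset.sum_nonneg fun j (_ : j ∈ Finset.univ) => hRj0 j
    linarith
  set ε₀ := min ε 1 with hε₀
  have hε₀pos : 0 < ε₀ := lt_min hε one_pos
  let Cst : ℝ := -Real.log 4 - Real.log 2 + (n : ℝ) * Real.log ε₀ + (n : ℝ) / 2 * Real.log (2 * Real.pi)
  suffices h : (Cst : EReal) ≤ chiR Ω (fun j => tuple s (ε : ℂ) (e j)) R' from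
    lt_of_lt_of_le (lt_of_lt_of_le (EReal.bot_lt_coe Cst) h)
      (le_iSup₂ (f := fun R (_ : 0 < R) => chiR Ω (fun j => tuple s (ε : ℂ) (e j)) R) R' hR'pos)
  refine le_iInf fun m => le_iInf₂ fun δ hδ => ?_
  -- a common degree and precision for the letters
  choose K D hK hKD using fun w : List (Fin n) => exists_trace_close Ω s ((w.map q).prod)
  set W := (List.finite_length_le (Fin n) m).toFinset with hW
  set m' := W.sup D with hm'
  set δ' := δ / (2 * (1 + ∑ w ∈ W, K w)) with hδ'
  have hsum0 : 0 ≤ ∑ w ∈ W, K w := Finset.sum_nonneg fun w _ => hK w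
  have hδ'pos : 0 < δ' := by positivity
  apply le_limsup_of_frequently_le'
  apply Eventually.frequently
  filter_upwards [hGUE m' δ' hδ'pos, eventually_ge_atTop 1] with k hk hk1
  have hk0 : (0 : ℝ) < k := by exact_mod_cast hk1
  set G : Set (Letter L → Fin k → Fin k → ℝ) :=
    {x | (∀ a, ‖Matrix.toEuclideanCLM (𝕜 := ℂ) (hermitian (x a))‖ ≤ R) ∧
      ∀ w : List (Letter L), w.length ≤ m' →
        ‖(k : ℂ)⁻¹ * ((w.map fun a => hermitian (x a)).prod).trace -
          ((vacState (opProd semi w) : ℝ) : ℂ)‖ < δ'} with hGdef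
  have hGmeas : MeasurableSet G := by
    have hcont : ∀ a : Letter L,
        Continuous fun x : Letter L → Fin k → Fin k → ℝ => hermitian (x a) :=
      fun a => continuous_hermitian.comp (continuous_apply a)
    rw [hGdef, Set.setOf_and]
    refine MeasurableSet.inter ?_ ?_
    · rw [Set.setOf_forall]
      refine MeasurableSet.iInter fun a => (isClosed_le ?_ continuous_const).measurableSet
      exact continuous_norm.comp
        ((LinearMap.continuous_of_finiteDimensional
          (Matrix.toEuclideanCLM (𝕜 := ℂ) (n := Fin k)).toAlgEquiv.toLinearMap).comp (hcont a))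
    · rw [Set.setOf_forall]
      refine MeasurableSet.iInter fun w => ?_
      rw [Set.setOf_forall]
      refine MeasurableSet.iInter fun _ => (isOpen_lt ?_ continuous_const).measurableSet
      have : Continuous fun x : Letter L → Fin k → Fin k → ℝ =>
          (w.map fun a => hermitian (x a)).prod :=
        continuous_list_prod w fun a _ => hcont a
      exact continuous_norm.comp ((continuous_const.mul this.matrix_trace).sub continuous_const)
  -- condition on the latent and heat letters
  let μ1 : Measure (Fin k → Fin k → ℝ) := Measure.pi fun _ : Fin k => Measure.pi fun _ : Fin k =>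
    ProbabilityTheory.gaussianReal 0 ((k : ℝ≥0))⁻¹
  have hsplit := measurePreserving_sumPiEquivProdPi_symm (fun _ : Letter L => μ1)
  have hsplit2 := measurePreserving_sumPiEquivProdPi_symm (fun _ : Idx L ⊕ Idx L => μ1)
  have hG1 : (2 : ℝ≥0∞)⁻¹ ≤ Measure.pi (fun _ : Letter L => μ1) G := hk
  rw [← hsplit.measure_preimage hGmeas.nullMeasurableSet] at hG1
  obtain ⟨la, hla⟩ := exists_section (Measure.pi fun _ : Fin 2 => μ1)
    (Measure.pi fun _ : Idx L ⊕ Idx L => μ1) (hsplit.measurable hGmeas) hG1
  have hS1 : MeasurableSet (Prod.mk la ⁻¹' ((MeasurableEquiv.sumPiEquivProdPi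
      (fun _ : Letter L => Fin k → Fin k → ℝ)).symm ⁻¹' G)) :=
    measurable_prodMk_left (hsplit.measurable hGmeas)
  rw [← hsplit2.measure_preimage hS1.nullMeasurableSet] at hla
  set c4 : ℝ≥0∞ := (4 : ℝ≥0∞)⁻¹ with hc4
  have hhalf : (2 : ℝ≥0∞)⁻¹ / 2 = c4 := by
    rw [hc4, div_eq_mul_inv, ← ENNReal.mul_inv (by simp) (by simp)]
    norm_num
  have hla' : c4 ≤ (Measure.pi fun _ : Idx L => μ1).prod (Measure.pi fun _ : Idx L => μ1)
      (Prod.swap ⁻¹' ((MeasurableEquiv.sumPiEquivProdPi
        (fun _ : Idx L ⊕ Idx L => Fin k → Fin k → ℝ)).symm ⁻¹' (Prod.mk la ⁻¹'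
          ((MeasurableEquiv.sumPiEquivProdPi (fun _ : Letter L => Fin k → Fin k → ℝ)).symm ⁻¹' G)))) := by
    rw [← Measure.map_apply measurable_swap (hsplit2.measurable hS1), Measure.prod_swap, ← hhalf]
    refine (ENNReal.add_le_add_iff_right (a := (2 : ℝ≥0∞)⁻¹ / 2) ?_).1 ?_
    · simp [hhalf, hc4]
    · rw [ENNReal.add_halves]
      exact hla
  obtain ⟨hh, hhh⟩ := exists_section (Measure.pi fun _ : Idx L => μ1)
    (Measure.pi fun _ : Idx L => μ1) (measurable_swap (hsplit2.measurable hS1)) hla'
  set S : Set (Idx L → Fin k → Fin k → ℝ) := {g | (Sum.elim la (Sum.elim g hh)) ∈ G} with hSdef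
  have hSeq : Prod.mk hh ⁻¹' (Prod.swap ⁻¹' ((MeasurableEquiv.sumPiEquivProdPi
        (fun _ : Idx L ⊕ Idx L => Fin k → Fin k → ℝ)).symm ⁻¹' (Prod.mk la ⁻¹'
          ((MeasurableEquiv.sumPiEquivProdPi (fun _ : Letter L => Fin k → Fin k → ℝ)).symm ⁻¹' G))))
      = S := by
    ext g
    simp only [Set.mem_preimage, hSdef, Set.mem_setOf_eq, Prod.swap_prod_mk]
    refine iff_of_eq (congrArg (fun f => f ∈ G) ?_)
    funext a
    rcases a with i | i | i <;> rfl
  rw [hSeq] at hhh
  -- the affine map from the noise to the coordinates of the tuple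
  let base : Letter L → Matrix (Fin k) (Fin k) ℂ := fun a =>
    hermitian (Sum.elim la (Sum.elim (fun _ => 0) hh) a)
  let z : Fin n → Fin k → Fin k → ℝ := fun j => coords (shiftPart base (e j))
  let c : Fin n → ℝ := fun j => noiseCoef ε (e j)
  let Φ : (Fin n → Fin k → Fin k → ℝ) → Fin n → Fin k → Fin k → ℝ := fun g j a b =>
    z j a b + c j * g j a b
  have hmem : ∀ g, g ∈ S → Φ (fun j => g (e j)) ∈
      microstates Ω (fun j => tuple s (ε : ℂ) (e j)) R' m k δ := by
    intro g hg
    obtain ⟨hgn, hgm⟩ := hg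
    set A : Letter L → Matrix (Fin k) (Fin k) ℂ := fun a =>
      hermitian (Sum.elim la (Sum.elim g hh) a) with hA
    have htup : ∀ j, hermitian (Φ (fun j => g (e j)) j) = tuple A (ε : ℂ) (e j) := by
      intro j
      have hsh : shiftPart A (e j) = shiftPart base (e j) := by
        cases e j <;> rfl
      show hermitian (fun a b => z j a b + c j * g (e j) a b) = _
      rw [hermitian_add_smul, hermitian_coords (shiftPart_isHermitian base
        (fun a => hermitian_isHermitian _) (e j)), tuple_eq_shift_add, hsh]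
      rfl
    refine ⟨fun j => ?_, fun w hw1 hwm => ?_⟩
    · rw [htup, ← hq]
      refine (hRj j k A hgn).trans ?_
      have := Finset.single_le_sum (fun j _ => hRj0 j) (Finset.mem_univ j)
      linarith
    · have hwW : w ∈ W := by simp [hW, hwm]
      have h := hKD w k A δ' fun u hu => by
        have hu' := hgm u (hu.trans (Finset.le_sup hwW))
        rw [← hs u] at hu'
        exact hu'.le
      have e1 : (w.map fun j => hermitian (Φ (fun j => g (e j)) j)).prod =
          FreeAlgebra.lift ℂ A (w.map q).prod := by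
        rw [map_list_prod, List.map_map]
        exact congrArg List.prod (List.map_congr_left fun j _ => by simp [htup, hq])
      have e2 : monomial (fun j => tuple s (ε : ℂ) (e j)) w =
          FreeAlgebra.lift ℂ s (w.map q).prod := by
        rw [map_list_prod, List.map_map, monomial]
        exact congrArg List.prod (List.map_congr_left fun j _ => by simp [hq])
      rw [e1, e2]
      refine h.trans_lt ?_
      have hKw : K w ≤ ∑ w ∈ W, K w := Finset.single_le_sum (fun w _ => hK w) hwW
      calc K w * δ' ≤ (1 + ∑ w ∈ W, K w) * δ' :=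
            mul_le_mul_of_nonneg_right (by linarith) hδ'pos.le
        _ = δ / 2 := by rw [hδ']; field_simp
        _ < δ := half_lt_self hδ
  -- reindex by `e` and compare with Lebesgue measure
  set Γ := microstates Ω (fun j => tuple s (ε : ℂ) (e j)) R' m k δ with hΓ
  have hΦmeas : Measurable Φ := by fun_prop
  have hreidx := measurePreserving_piCongrLeft (fun _ : Idx L => μ1) e
  have hlow : c4 / 2 ≤ Measure.map Φ (Measure.pi fun _ : Fin n => μ1) Γ := by
    refine le_trans ?_ (Measure.le_map_apply hΦmeas.aemeasurable Γ)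
    have hsub : (MeasurableEquiv.piCongrLeft (fun _ : Idx L => Fin k → Fin k → ℝ) e) ⁻¹' S ⊆
        Φ ⁻¹' Γ := by
      intro g hg
      have hge : (fun j => (MeasurableEquiv.piCongrLeft
          (fun _ : Idx L => Fin k → Fin k → ℝ) e g) (e j)) = g := by
        funext j
        simp [MeasurableEquiv.piCongrLeft]
      have := hmem _ hg
      rw [hge] at this
      exact this
    refine le_trans ?_ (measure_mono hsub)
    rw [hreidx.measure_preimage_equiv]
    refine (ENNReal.add_le_add_iff_right (a := c4 / 2) ?_).1 ?_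
    · exact (ENNReal.div_ne_top (by simp [hc4]) (by simp))
    · rw [ENNReal.add_halves]
      exact hhh
  set b : ℝ := ε₀ ^ 2 / k with hbdef
  have hb : 0 < b := by positivity
  have hcb : ∀ j, b ≤ c j ^ 2 * (((k : ℝ≥0))⁻¹ : ℝ≥0) := by
    intro j
    rw [NNReal.coe_inv, NNReal.coe_natCast, hbdef, div_eq_mul_inv]
    refine mul_le_mul_of_nonneg_right (pow_le_pow_left₀ hε₀pos.le ?_ 2) (by positivity)
    simp only [c]
    cases e j
    · exact min_le_left _ _
    · exact min_le_right _ _
  have hk1' : ((k : ℝ≥0))⁻¹ ≠ 0 := inv_ne_zero (by exact_mod_cast (by omega : k ≠ 0))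
  have hvol := Measure.le_iff'.1 (map_affine_le z c _ hk1' hb hcb) Γ
  rw [Measure.smul_apply, smul_eq_mul] at hvol
  have h8 := hlow.trans hvol
  set r := Real.sqrt (2 * Real.pi * b) with hr
  have hr0 : 0 < r := by positivity
  set N := k * k * n with hN
  have hCN : ((ENNReal.ofReal r⁻¹ ^ k) ^ k) ^ n = ENNReal.ofReal (r⁻¹ ^ N) := by
    rw [← pow_mul, ← pow_mul, ENNReal.ofReal_pow (by positivity), hN, mul_assoc]
  rw [hCN] at h8
  have hlog := ENNReal.log_monotone h8
  rw [ENNReal.log_mul_add, ENNReal.log_ofReal_of_pos (by positivity)] at hlog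
  have hc8 : c4 / 2 = ENNReal.ofReal (1 / 8) := by
    rw [hc4, div_eq_mul_inv, ← ENNReal.mul_inv (by simp) (by simp), one_div,
      ENNReal.ofReal_inv_of_pos (by norm_num)]
    norm_num
  rw [hc8, ENNReal.log_ofReal_of_pos (by norm_num)] at hlog
  cases hL : ENNReal.log (volume Γ) with
  | bot => rw [hL] at hlog; simp at hlog
  | top =>
    rw [EReal.coe_mul_top_of_pos (by positivity), EReal.top_add_coe]
    exact le_top
  | coe V =>
    rw [hL, ← EReal.coe_add, EReal.coe_le_coe_iff] at hlog
    rw [← EReal.coe_mul, ← EReal.coe_add, EReal.coe_le_coe_iff]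
    rw [Real.log_pow, Real.log_inv] at hlog
    have hlr : Real.log r = Real.log (2 * Real.pi) / 2 + Real.log ε₀ - Real.log k / 2 := by
      rw [hr, Real.log_sqrt (by positivity), hbdef, Real.log_mul (by positivity) (by positivity),
        Real.log_div (by positivity) (by positivity), Real.log_pow]
      push_cast
      ring
    rw [hlr, hN] at hlog
    push_cast at hlog
    have h4 : Real.log (1 / 8) = -Real.log 4 - Real.log 2 := by
      rw [one_div, Real.log_inv, show (8 : ℝ) = 4 * 2 by norm_num,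
        Real.log_mul (by norm_num) (by norm_num)]
      ring
    have hk2 : (1 : ℝ) ≤ (k : ℝ) ^ 2 := one_le_pow₀ (by exact_mod_cast hk1)
    have hL8 : Real.log (1 / 8) ≤ 0 := Real.log_nonpos (by norm_num) (by norm_num)
    have hfac : Real.log (1 / 8) ≤ ((k : ℝ) ^ 2)⁻¹ * Real.log (1 / 8) := by
      have : ((k : ℝ) ^ 2)⁻¹ ≤ 1 := inv_le_one_of_one_le₀ hk2
      nlinarith
    have key : ((k : ℝ) ^ 2)⁻¹ * Real.log (1 / 8) +
        (n : ℝ) * (Real.log (2 * Real.pi) / 2 + Real.log ε₀ - Real.log k / 2) ≤
          ((k : ℝ) ^ 2)⁻¹ * V := by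
      have := mul_le_mul_of_nonneg_left hlog (inv_nonneg.2 (sq_nonneg (k : ℝ)))
      have e3 : ((k : ℝ) ^ 2)⁻¹ * ((k : ℝ) * k) = 1 := by field_simp
      rw [mul_add, show ((k : ℝ) ^ 2)⁻¹ * ((k : ℝ) * k * n *
          -(Real.log (2 * Real.pi) / 2 + Real.log ε₀ - Real.log k / 2)) =
          -((n : ℝ) * (Real.log (2 * Real.pi) / 2 + Real.log ε₀ - Real.log k / 2)) by
        linear_combination (-(n : ℝ) * (Real.log (2 * Real.pi) / 2 + Real.log ε₀ - Real.log k / 2)) * e3] at this
      linarith
    simp only [Cst] at *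
    linarith

end Main


end

end Lower

end Vale.Agent.P087
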