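import Vale.Agent.P087.Core

/-!
# P087: elementary facts about Wick words, Appell words and finitely supported vectors
-/

namespace Vale.Agent.P087

noncomputable section

section Wick

variable {ι A B : Type} [DecidableEq ι] [Ring A] [Ring B]

@[simp] theorem wickOf_nil (s : ι → A) : wickOf s ([] : List ι) = 1 := rfl

theorem map_wickOf (f : A →+* B) (s : ι → A) :
    ∀ w : List ι, f (wickOf s w) = wickOf (fun a => f (s a)) w
  | [] => map_one f
  | [a] => rfl
  | a :: b :: w => by
      simp only [wickOf, map_sub, map_mul, map_wickOf f s (b :: w)]
      split_ifs with h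
      · rw [map_wickOf f s w]
      · rw [map_zero]

theorem wickOf_concat (s : ι → A) (b a : ι) :
    ∀ w : List ι, wickOf s (w ++ [b, a]) =
      wickOf s (w ++ [b]) * s a - if b = a then wickOf s w else 0
  | [] => by simp [wickOf]
  | [c] => by
      by_cases h1 : c = b <;> by_cases h2 : b = a <;>
        simp [wickOf, h1, h2, sub_mul, mul_sub, mul_assoc] <;> abel
  | c :: d :: w => by
      have e1 := wickOf_concat s b a (d :: w)
      have e2 := wickOf_concat s b a w
      simp only [List.cons_append] at e1 ⊢
      simp only [wickOf]
      rw [e1, e2]
      split_ifs with h1 h2 <;>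
        simp [sub_mul, mul_sub, mul_assoc] <;> abel

theorem star_wickOf [StarRing A] (s : ι → A) (hs : ∀ a, star (s a) = s a) :
    ∀ w : List ι, star (wickOf s w) = wickOf s w.reverse
  | [] => by simp [wickOf]
  | [a] => by simp [wickOf, hs]
  | a :: b :: w => by
      have h : (a :: b :: w).reverse = w.reverse ++ [b, a] := by simp
      have h' : (b :: w).reverse = w.reverse ++ [b] := by simp
      rw [h, wickOf_concat, ← h', ← star_wickOf s hs (b :: w)]
      simp only [wickOf, star_sub, star_mul, hs]
      by_cases hab : a = b
      · subst hab; simp [star_wickOf s hs w]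
      · simp [hab, Ne.symm hab]

end Wick

section Appell

variable {J A R : Type} [CommRing R] [Ring A] [Algebra R A]

theorem appellOf_nil (X : J → A) (c : J → List J → R) : appellOf X c [] = 1 := by
  rw [appellOf]

theorem appellOf_cons (X : J → A) (c : J → List J → R) (i : J) (w : List J) :
    appellOf X c (i :: w) = X i * appellOf X c w -
      ∑ l : Fin (w.length + 1), c i (w.take l) • appellOf X c (w.drop l) := by
  rw [appellOf]

theorem appellOf_singleton (X : J → A) (c : J → List J → R) (i : J) :
    appellOf X c [i] = X i - c i [] • 1 := by
  simp [appellOf_cons, appellOf_nil]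

end Appell

theorem length_drop_le {J : Type} (w : List J) (l : ℕ) : (w.drop l).length ≤ w.length := by
  simp

theorem fck_induction {ι : Type} {p : Fck ι → Prop} (v : Fck ι) (h0 : p 0)
    (hadd : ∀ u u', p u → p u' → p (u + u')) (hw : ∀ (w : List ι) (r : ℝ), p (r • word w)) :
    p v := by
  induction v using Finsupp.induction_linear with
  | zero => exact h0
  | add u u' hu hu' => exact hadd u u' hu hu'
  | single w r =>
      have : r • word w = (Finsupp.single w r : Fck ι) := by simp [word]
      exact this ▸ hw w r

theorem fck_linearMap_ext {ι E : Type} [AddCommGroup E] [Module ℝ E] {f g : Fck ι →ₗ[ℝ] E}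
    (h : ∀ w, f (word w) = g (word w)) : f = g := by
  refine LinearMap.ext fun v => ?_
  induction v using fck_induction with
  | h0 => simp
  | hadd u u' hu hu' => simp [hu, hu']
  | hw w r => simp [h]

section Model

variable {J : Type} [Fintype J] [DecidableEq J]

theorem modelOp_word (c : J → List J → ℝ) (i : J) (w : List J) :
    modelOp c i (word w) =
      word (i :: w) + ∑ l : Fin (w.length + 1), c i (w.take l) • word (w.drop l) := by
  simp [modelOp]

theorem appellOf_vac (c : J → List J → ℝ) :
    ∀ w, appellOf (modelOp c) c w vac = word w
  | [] => by simp [appellOf_nil, vac, word]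
  | i :: w => by
      rw [appellOf_cons, LinearMap.sub_apply, Module.End.mul_apply, appellOf_vac c w,
        modelOp_word, LinearMap.sum_apply]
      simp only [LinearMap.smul_apply]
      have : ∀ l : Fin (w.length + 1),
          appellOf (modelOp c) c (w.drop l) vac = word (w.drop l) :=
        fun l => appellOf_vac c _
      simp [this]
  termination_by w => w.length
  decreasing_by all_goals simp

@[simp] theorem leftMul_word (c : J → List J → ℝ) (w : List J) :
    leftMul c (word w) = appellOf (modelOp c) c w := by
  simp [leftMul]

theorem leftMul_vac (c : J → List J → ℝ) (φ : Fck J) : leftMul c φ vac = φ := by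
  induction φ using fck_induction with
  | h0 => simp
  | hadd u u' hu hu' => simp [hu, hu']
  | hw w r => simp [appellOf_vac]

theorem leftMul_letter (c : J → List J → ℝ) (hc : ∀ i, c i [] = 0) (i : J) :
    leftMul c (word [i]) = modelOp c i := by
  simp [appellOf_singleton, hc]

end Model

section Vac

variable {ι : Type}

@[simp] theorem vacState_one : vacState (1 : FckOp ι) = 1 := by
  simp [vacState, vac]

theorem vac_eq_word : (vac : Fck ι) = word [] := rfl

theorem word_apply [DecidableEq ι] (w u : List ι) :
    (word w : Fck ι) u = if w = u then 1 else 0 := by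
  simp [word, Finsupp.single_apply]

@[simp] theorem vac_apply_nil : (vac : Fck ι) [] = 1 := by simp [vac]

theorem dot_vac_left (v : Fck ι) : dot vac v = v [] := by
  simp [dot, vac]

end Vac

end

end Vale.Agent.P087
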