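import Vale.Agent.P087.Interfaces
import Vale.Agent.P087.Basic

/-!
# P087: from finitely supported vectors to the Hilbert space
-/

open scoped InnerProductSpace

namespace Vale.Agent.P087

noncomputable section

/-- A Hilbert space realisation of the finitely supported Fock space. -/
structure FockEmbedding (ι H : Type) [NormedAddCommGroup H] [InnerProductSpace ℂ H] where
  /-- The embedding. -/
  emb : Fck ι → H
  map_add : ∀ v u, emb (v + u) = emb v + emb u
  map_smul : ∀ (c : ℝ) v, emb (c • v) = (c : ℂ) • emb v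
  inner_emb : ∀ v u, ⟪emb v, emb u⟫_ℂ = (dot v u : ℂ)

namespace FockEmbedding

variable {ι H : Type} [NormedAddCommGroup H] [InnerProductSpace ℂ H]
  (E : FockEmbedding ι H)

theorem map_zero : E.emb 0 = 0 := by
  have := E.map_smul 0 0
  simpa using this

theorem map_sub (v u : Fck ι) : E.emb (v - u) = E.emb v - E.emb u := by
  rw [eq_sub_iff_add_eq, ← E.map_add, sub_add_cancel]

theorem map_sum {β : Type} (s : Finset β) (f : β → Fck ι) :
    E.emb (∑ b ∈ s, f b) = ∑ b ∈ s, E.emb (f b) := by
  classical
  induction s using Finset.induction with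
  | empty => simp [E.map_zero]
  | insert b s hb ih => simp [Finset.sum_insert hb, E.map_add, ih]

theorem norm_sq (v : Fck ι) : ‖E.emb v‖ ^ 2 = dot v v := by
  have h := E.inner_emb v v
  rw [inner_self_eq_norm_sq_to_K] at h
  apply Complex.ofReal_injective
  push_cast at h ⊢
  simpa using h

theorem inner_vac (v : Fck ι) : ⟪E.emb vac, E.emb v⟫_ℂ = (v [] : ℂ) := by
  rw [E.inner_emb, dot_vac_left]

/-- The bounded operator `a` extends the finitely supported operator `A`. -/
def Rel (a : H →L[ℂ] H) (A : FckOp ι) : Prop := ∀ v, a (E.emb v) = E.emb (A v)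

variable {E}

theorem Rel.one : E.Rel 1 1 := fun v => rfl

theorem Rel.add {a b : H →L[ℂ] H} {A B : FckOp ι} (ha : E.Rel a A) (hb : E.Rel b B) :
    E.Rel (a + b) (A + B) := fun v => by simp [ha v, hb v, E.map_add]

theorem Rel.sub {a b : H →L[ℂ] H} {A B : FckOp ι} (ha : E.Rel a A) (hb : E.Rel b B) :
    E.Rel (a - b) (A - B) := fun v => by simp [ha v, hb v, E.map_sub]

theorem Rel.mul {a b : H →L[ℂ] H} {A B : FckOp ι} (ha : E.Rel a A) (hb : E.Rel b B) :
    E.Rel (a * b) (A * B) := fun v => by simp [hb v, ha (B v)]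

theorem Rel.smul {a : H →L[ℂ] H} {A : FckOp ι} (c : ℝ) (ha : E.Rel a A) :
    E.Rel ((c : ℂ) • a) (c • A) := fun v => by simp [ha v, E.map_smul]

theorem Rel.zero : E.Rel 0 0 := fun v => by simp [E.map_zero]

theorem Rel.sum {β : Type} (s : Finset β) {a : β → H →L[ℂ] H} {A : β → FckOp ι}
    (h : ∀ b ∈ s, E.Rel (a b) (A b)) : E.Rel (∑ b ∈ s, a b) (∑ b ∈ s, A b) := fun v => by
  simp only [FunLike.coe_sum, Finset.sum_apply, LinearMap.sum_apply]
  rw [E.map_sum]
  exact Finset.sum_congr rfl fun b hb => h b hb v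

theorem Rel.list_prod {J : Type} {x : J → H →L[ℂ] H} {X : J → FckOp ι}
    (h : ∀ j, E.Rel (x j) (X j)) :
    ∀ w : List J, E.Rel (w.map x).prod (w.map X).prod
  | [] => by simpa using Rel.one
  | j :: w => by simpa using (h j).mul (Rel.list_prod h w)

theorem Rel.wickOf {K : Type} [DecidableEq K] {x : K → H →L[ℂ] H} {X : K → FckOp ι}
    (h : ∀ j, E.Rel (x j) (X j)) :
    ∀ w : List K, E.Rel (Vale.Agent.P087.wickOf x w) (Vale.Agent.P087.wickOf X w)
  | [] => Rel.one
  | [a] => h a
  | a :: b :: w => by
      simp only [Vale.Agent.P087.wickOf]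
      refine ((h a).mul (Rel.wickOf h (b :: w))).sub ?_
      split_ifs
      · exact Rel.wickOf h w
      · exact Rel.zero

theorem Rel.trace_eq {a : H →L[ℂ] H} {A : FckOp ι} (ha : E.Rel a A) :
    trace (E.emb vac) a = ((vacState A : ℝ) : ℂ) := by
  rw [trace, ha vac, E.inner_vac]
  rfl

theorem Rel.tuple {L : ℕ} {x : Letter L → H →L[ℂ] H}
    {X : Letter L → FckOp ι} (h : ∀ a, E.Rel (x a) (X a)) (ε : ℝ) :
    ∀ j, E.Rel (Vale.Agent.P087.tuple x (ε : ℂ) j) (Vale.Agent.P087.tuple X ε j)
  | Sum.inl i => (h _).add ((h _).smul ε)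
  | Sum.inr w => (Rel.wickOf (fun i => h (latent i)) _).add (h _)

/-- A self-adjoint operator extended from a finitely supported one gives a symmetric one. -/
theorem Rel.dot_symm [CompleteSpace H] {a : H →L[ℂ] H} {A : FckOp ι} (ha : E.Rel a A)
    (hsa : IsSelfAdjoint a) (x y : Fck ι) : dot (A x) y = dot x (A y) := by
  have h := hsa.isSymmetric (E.emb x) (E.emb y)
  simp only [ContinuousLinearMap.coe_coe] at h
  rw [ha x, ha y, E.inner_emb, E.inner_emb] at h
  exact_mod_cast h

end FockEmbedding

section Semi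

variable {ι : Type} [DecidableEq ι]

theorem semi_word_nil (a : ι) : semi a (word ([] : List ι)) = word [a] := by
  simp [semi, create, annihilate]

theorem semi_word_cons (a b : ι) (w : List ι) :
    semi a (word (b :: w)) = word (a :: b :: w) + if a = b then word w else 0 := by
  simp [semi, create, annihilate]

theorem wickOf_semi_vac : ∀ w : List ι, wickOf semi w vac = word w
  | [] => by simp [wickOf, vac, word]
  | [a] => by simp [wickOf, vac_eq_word, semi_word_nil]
  | a :: b :: w => by
      simp only [wickOf, LinearMap.sub_apply, Module.End.mul_apply, wickOf_semi_vac (b :: w),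
        semi_word_cons]
      split_ifs with h
      · rw [wickOf_semi_vac w]; abel
      · simp

theorem wickOf_comp {K A : Type} [DecidableEq K] [Ring A] (s : ι → A) (f : K → ι)
    (hf : Function.Injective f) :
    ∀ w : List K, wickOf (fun k => s (f k)) w = wickOf s (w.map f)
  | [] => rfl
  | [a] => rfl
  | a :: b :: w => by
      have h1 := wickOf_comp s f hf (b :: w)
      have h2 := wickOf_comp s f hf w
      simp only [List.map_cons] at h1 ⊢
      simp only [wickOf, h1, h2, hf.eq_iff]

theorem dot_word (u : List ι) (y : Fck ι) : dot (word u) y = y u := by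
  simp [dot, word]

theorem dot_add_left (x x' y : Fck ι) : dot (x + x') y = dot x y + dot x' y := by
  simp only [dot]
  rw [Finsupp.sum_add_index'] <;> intros <;> simp [add_mul]

theorem dot_smul_left (r : ℝ) (x y : Fck ι) : dot (r • x) y = r * dot x y := by
  simp only [dot]
  rw [Finsupp.sum_smul_index (by intros; simp), Finsupp.mul_sum]
  exact Finsupp.sum_congr fun _ _ => by ring

end Semi

end

end Vale.Agent.P087
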