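import Vale.Agent.P087.GUE.Poly

/-!
# P087, module GUE: asymptotic freeness and norm boundedness of independent GUE matrices.
-/

open MeasureTheory ProbabilityTheory Filter MvPolynomial
open scoped NNReal ENNReal Topology

namespace Vale.Agent.P087

namespace GUE

set_option linter.unusedSectionVars false

noncomputable section

variable {Λ : Type} [Fintype Λ] [DecidableEq Λ]

/-! ### Limits of moments -/

/-- The limit of `mom`. -/
def tauProd (ws : List (List Λ)) : ℂ := (ws.map fun w => (tau w : ℂ)).prod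

theorem tendsto_mom (n : ℕ) : ∀ ws : List (List Λ), size ws ≤ n →
    Tendsto (fun k => mom Λ k ws) atTop (𝓝 (tauProd ws)) := by
  induction n with
  | zero =>
    intro ws h
    rcases ws with _ | ⟨w, ws⟩
    · simp [mom_nil, tauProd]
    · simp [size] at h
  | succ n ih =>
    intro ws h
    rcases ws with _ | ⟨w, ws⟩
    · simp [mom_nil, tauProd]
    rcases w with _ | ⟨a, w⟩
    · have hws : size ws ≤ n := by simp [size] at h ⊢; omega
      refine (tendsto_congr' ?_).mpr (by simpa [tauProd, tau_nil] using ih ws hws)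
      filter_upwards [eventually_ne_atTop 0] with k hk using mom_nil_cons hk ws
    have hev : (fun k => mom Λ k ((a :: w) :: ws)) =ᶠ[atTop] fun k =>
        split a (fun u v => fun k => mom Λ k (u :: v :: ws)) w k +
          ((k : ℂ) ^ 2)⁻¹ * msum a w (fun l k => mom Λ k l) ws k := by
      filter_upwards [eventually_ne_atTop 0] with k hk
      rw [mom_cons hk]
      exact congrArg₂ (fun x y => x + ((k : ℂ) ^ 2)⁻¹ * y)
        (split_map (Pi.evalAddMonoidHom (fun _ : ℕ => ℂ) k) a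
          (fun u v k => mom Λ k (u :: v :: ws)) w).symm
        (msum_map (Pi.evalAddMonoidHom (fun _ : ℕ => ℂ) k) a w (fun l k => mom Λ k l) ws).symm
    rw [tendsto_congr' hev]
    have hR : ∀ (x y : ℕ → ℂ) (x' y' : ℂ), Tendsto x atTop (𝓝 x') → Tendsto y atTop (𝓝 y') →
        Tendsto (x + y) atTop (𝓝 (x' + y')) := fun x y x' y' h h' => h.add h'
    have h1 : Tendsto (split a (fun u v => fun k => mom Λ k (u :: v :: ws)) w) atTop
        (𝓝 (split a (fun u v => tauProd (u :: v :: ws)) w)) :=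
      split_rel (fun (f : ℕ → ℂ) (c : ℂ) => Tendsto f atTop (𝓝 c)) tendsto_const_nhds
        (fun x x' y y' h h' => hR x x' y y' h h') a w _ _ fun u v e => ih _ (by
          subst e
          simp [size] at h ⊢
          omega)
    have h2 : Tendsto (msum a w (fun l k => mom Λ k l) ws) atTop
        (𝓝 (msum a w tauProd ws)) :=
      msum_rel (fun (f : ℕ → ℂ) (c : ℂ) => Tendsto f atTop (𝓝 c)) tendsto_const_nhds
        (fun x x' y y' h h' => hR x x' y y' h h') a w ws _ _ fun l hl => ih _ (by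
          simp [size] at h hl ⊢
          omega)
    have h3 : Tendsto (fun k : ℕ => ((k : ℂ) ^ 2)⁻¹) atTop (𝓝 0) := by
      have := (tendsto_natCast_atTop_atTop (R := ℝ)).comp (tendsto_pow_atTop (two_ne_zero) : Tendsto (fun k : ℕ => k ^ 2) atTop atTop)
      have h0 := (Complex.continuous_ofReal.tendsto _).comp (tendsto_inv_atTop_zero.comp this)
      simpa [Function.comp_def] using h0
    have hlim : tauProd ((a :: w) :: ws) =
        split a (fun u v => tauProd (u :: v :: ws)) w + 0 * msum a w tauProd ws := by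
      rw [zero_mul, add_zero]
      have hφ := split_map ((AddMonoidHom.mulRight (tauProd ws)).comp Complex.ofRealHom.toAddMonoidHom)
        a (fun u v => tau u * tau v) w
      have h0 : tauProd ((a :: w) :: ws) = ((tau (a :: w) : ℝ) : ℂ) * tauProd ws := rfl
      rw [h0, tau_cons]
      refine hφ.trans (split_congr a w _ _ fun u v _ => ?_)
      simp [tauProd, mul_assoc]
    rw [hlim]
    exact h1.add (h3.mul h2)

theorem tendsto_mom_single (w : List Λ) :
    Tendsto (fun k => mom Λ k [w]) atTop (𝓝 (tau w : ℂ)) := by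
  simpa [tauProd] using tendsto_mom (size [w]) [w] le_rfl

/-! ### Moments of a single matrix -/

/-- The majorant `8^l / (l+1)^2`. -/
def fb (l : ℕ) : ℝ := 8 ^ l / ((l : ℝ) + 1) ^ 2

theorem fb_pos (l : ℕ) : 0 < fb l := by unfold fb; positivity

/-- The product of the majorants. -/
def fbs (ws : List (List Λ)) : ℝ := (ws.map fun w => fb w.length).prod

theorem fbs_pos (ws : List (List Λ)) : 0 < fbs ws := by
  refine List.prod_pos ?_
  simp [fb_pos]

theorem sum_inv_sq_le (n : ℕ) : ∑ i ∈ Finset.range n, 1 / ((i : ℝ) + 1) ^ 2 ≤ 2 := by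
  have h : ∀ n : ℕ, 1 ≤ n →
      ∑ i ∈ Finset.range n, 1 / ((i : ℝ) + 1) ^ 2 ≤ 2 - 1 / (n : ℝ) := by
    intro n hn
    induction n, hn using Nat.le_induction with
    | base => norm_num
    | succ m hm ih =>
      rw [Finset.sum_range_succ]
      push_cast
      have hm' : (1 : ℝ) ≤ m := by exact_mod_cast hm
      have : 1 / ((m : ℝ) + 1) ^ 2 ≤ 1 / (m : ℝ) - 1 / ((m : ℝ) + 1) := by
        rw [div_sub_div _ _ (by linarith) (by linarith), div_le_div_iff₀ (by positivity) (by positivity)]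
        nlinarith
      linarith
  rcases Nat.eq_zero_or_pos n with rfl | hn
  · simp
  · exact (h n hn).trans (by simp)

theorem conv_bound (n : ℕ) :
    ∑ i ∈ Finset.range n, fb i * fb (n - 1 - i) ≤ 1 / 2 * fb (n + 1) := by
  rcases Nat.eq_zero_or_pos n with rfl | hn
  · simp [fb]
    positivity
  have hn1 : (1 : ℝ) ≤ n := by exact_mod_cast hn
  have hle : ∀ i ∈ Finset.range n, fb i * fb (n - 1 - i) ≤
      (8 : ℝ) ^ (n - 1) * (2 / ((n : ℝ) + 1) ^ 2) *
        (1 / ((i : ℝ) + 1) ^ 2 + 1 / ((((n - 1 - i : ℕ) : ℕ) : ℝ) + 1) ^ 2) := by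
    intro i hi
    have hi' := Finset.mem_range.mp hi
    have hs : (i : ℝ) + 1 + (((n - 1 - i : ℕ) : ℝ) + 1) = (n : ℝ) + 1 := by
      have : i + (n - 1 - i) + 1 = n := by omega
      have := congrArg (fun m : ℕ => (m : ℝ)) this
      push_cast at this
      linarith
    have hp : (8 : ℝ) ^ i * 8 ^ (n - 1 - i) = 8 ^ (n - 1) := by
      rw [← pow_add]; congr 1; omega
    have hb : (0 : ℝ) < ((n - 1 - i : ℕ) : ℝ) + 1 := by positivity
    have ha : (0 : ℝ) < (i : ℝ) + 1 := by positivity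
    unfold fb
    generalize ((n - 1 - i : ℕ) : ℝ) + 1 = B at hs hb ⊢
    generalize (i : ℝ) + 1 = A at hs ha ⊢
    rw [div_mul_div_comm, hp, ← hs, mul_assoc, div_eq_mul_one_div]
    refine mul_le_mul_of_nonneg_left ?_ (by positivity)
    rw [div_add_div _ _ (by positivity) (by positivity), div_mul_div_comm,
      div_le_div_iff₀ (by positivity) (by positivity)]
    nlinarith [mul_nonneg (sq_nonneg (A - B)) (mul_nonneg (sq_nonneg A) (sq_nonneg B))]
  refine (Finset.sum_le_sum hle).trans ?_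
  rw [← Finset.mul_sum, Finset.sum_add_distrib,
    Finset.sum_range_reflect (fun j => 1 / ((j : ℝ) + 1) ^ 2) n]
  have h2 := sum_inv_sq_le n
  refine (mul_le_mul_of_nonneg_left (add_le_add h2 h2) (by positivity)).trans ?_
  obtain ⟨m, rfl⟩ : ∃ m, n = m + 1 := ⟨n - 1, by omega⟩
  unfold fb
  simp only [Nat.add_sub_cancel]
  push_cast
  have key : 1 / ((m : ℝ) + 1 + 1) ^ 2 ≤ 4 / ((m : ℝ) + 1 + 1 + 1) ^ 2 := by
    rw [div_le_div_iff₀ (by positivity) (by positivity)]
    nlinarith [Nat.cast_nonneg (α := ℝ) m]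
  have h8 : (8 : ℝ) ^ (m + 1 + 1) = 8 ^ m * 64 := by
    rw [pow_succ, pow_succ]; ring
  rw [h8]
  calc (8 : ℝ) ^ m * (2 / ((m : ℝ) + 1 + 1) ^ 2) * (2 + 2)
      = 8 * 8 ^ m * (1 / ((m : ℝ) + 1 + 1) ^ 2) := by ring
    _ ≤ 8 * 8 ^ m * (4 / ((m : ℝ) + 1 + 1 + 1) ^ 2) := by gcongr
    _ = _ := by ring

theorem fb_merge {N c b i j : ℕ} (hij : i + j + 1 = c) (hN : b + c + 1 ≤ N) :
    fb (j + i + b) ≤ (((N : ℝ) + 1) ^ 4 / 64) * fb (b + 1) * fb c := by
  subst hij
  have e : fb (b + 1) * fb (i + j + 1) =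
      64 * 8 ^ (j + i + b) / ((((b + 1 : ℕ) : ℝ) + 1) ^ 2 * (((i + j + 1 : ℕ) : ℝ) + 1) ^ 2) := by
    unfold fb
    rw [div_mul_div_comm, ← pow_add, show b + 1 + (i + j + 1) = j + i + b + 2 by ring, pow_add]
    norm_num [mul_comm]
  have h0 : (1 : ℝ) ≤ ((j + i + b : ℕ) : ℝ) + 1 := by linarith [Nat.cast_nonneg (α := ℝ) (j + i + b)]
  refine le_trans (?_ : fb (j + i + b) ≤ 8 ^ (j + i + b)) ?_
  · unfold fb
    exact div_le_self (by positivity) (one_le_pow₀ h0)
  · rw [mul_assoc, e, div_mul_div_comm, le_div_iff₀ (by positivity)]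
    have hb : (((b + 1 : ℕ) : ℝ) + 1) ≤ (N : ℝ) + 1 := by
      have : ((b + 1 : ℕ) : ℝ) ≤ N := by exact_mod_cast (by omega : b + 1 ≤ N)
      linarith
    have hc : (((i + j + 1 : ℕ) : ℝ) + 1) ≤ (N : ℝ) + 1 := by
      have : ((i + j + 1 : ℕ) : ℝ) ≤ N := by exact_mod_cast (by omega : i + j + 1 ≤ N)
      linarith
    have h4 : (((b + 1 : ℕ) : ℝ) + 1) ^ 2 * (((i + j + 1 : ℕ) : ℝ) + 1) ^ 2 ≤
        ((N : ℝ) + 1) ^ 4 := by
      calc _ ≤ ((N : ℝ) + 1) ^ 2 * ((N : ℝ) + 1) ^ 2 := by gcongr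
        _ = _ := by ring
    nlinarith [mul_le_mul_of_nonneg_left h4 (pow_nonneg (by norm_num : (0 : ℝ) ≤ 8) (j + i + b))]

/-- The total length of a list of words. -/
def total (ws : List (List Λ)) : ℕ := (ws.map List.length).sum

theorem msum_bound (a : Λ) (N : ℕ) (w : List Λ) (ws : List (List Λ)) (G : List (List Λ) → ℝ)
    (c : ℝ) (hc : 0 ≤ c) (ha : ∀ x ∈ ws, ∀ y ∈ x, y = a) (hwa : ∀ y ∈ w, y = a)
    (hN : w.length + 1 + total ws ≤ N)
    (hG : ∀ l : List (List Λ), (∀ x ∈ l, ∀ y ∈ x, y = a) → total l ≤ w.length + total ws →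
      size l + 1 ≤ size ws + w.length → G l ≤ c * fbs l) :
    msum a w G ws ≤
      c * ((total ws : ℝ) * (((N : ℝ) + 1) ^ 4 / 64)) * fb (w.length + 1) * fbs ws := by
  induction ws generalizing G c with
  | nil => simp [msum, total]
  | cons w' ws ih =>
    rw [List.forall_mem_cons] at ha
    simp only [msum]
    have h1 : split a (fun u v => G ((v ++ u ++ w) :: ws)) w' ≤
        split a (fun _ _ => c * (((N : ℝ) + 1) ^ 4 / 64) * fb (w.length + 1) * fb w'.length * fbs ws)
          w' := by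
      refine split_rel (fun x y : ℝ => x ≤ y) le_rfl (fun x y x' y' h h' => add_le_add h h') a w' _ _
        fun u v e => ?_
      have hu : ∀ y ∈ v ++ u ++ w, y = a := by
        intro y hy
        simp only [List.mem_append] at hy
        rcases hy with (hy | hy) | hy
        · exact ha.1 y (by simp [e, hy])
        · exact ha.1 y (by simp [e, hy])
        · exact hwa y hy
      refine (hG _ (by simp only [List.forall_mem_cons]; exact ⟨hu, ha.2⟩) ?_ ?_).trans ?_
      · simp [total, e]; omega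
      · simp [size, e]; omega
      have hm := fb_merge (N := N) (c := w'.length) (b := w.length) (i := u.length) (j := v.length)
        (by simp [e]; omega) (by simp [total] at hN; omega)
      have h0 := fbs_pos ws
      calc c * fbs ((v ++ u ++ w) :: ws)
          = c * fb (v.length + u.length + w.length) * fbs ws := by
              simp only [fbs, List.map_cons, List.prod_cons, List.length_append]
              ring
        _ ≤ c * ((((N : ℝ) + 1) ^ 4 / 64) * fb (w.length + 1) * fb w'.length) * fbs ws := by gcongr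
        _ = _ := by ring
    have hcount : split a (fun _ _ =>
        c * (((N : ℝ) + 1) ^ 4 / 64) * fb (w.length + 1) * fb w'.length * fbs ws) w' =
        (w'.length : ℝ) *
          (c * (((N : ℝ) + 1) ^ 4 / 64) * fb (w.length + 1) * fb w'.length * fbs ws) := by
      rw [split_replicate a (fun _ _ =>
        c * (((N : ℝ) + 1) ^ 4 / 64) * fb (w.length + 1) * fb w'.length * fbs ws) w' ha.1]
      simp
    have h2 := ih (fun l => G (w' :: l)) (c * fb w'.length) (mul_nonneg hc (fb_pos _).le) ha.2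
      (by simp [total] at hN ⊢; omega) fun l hl ht hs => by
        refine (hG _ (by simp only [List.forall_mem_cons]; exact ⟨ha.1, hl⟩) ?_ ?_).trans ?_
        · simp [total] at ht ⊢; omega
        · simp [size] at hs ⊢; omega
        · simp [fbs, mul_assoc]
    have e1 : (total (w' :: ws) : ℝ) = (w'.length : ℝ) + total ws := by simp [total]
    have e2 : fbs (w' :: ws) = fb w'.length * fbs ws := rfl
    rw [e1, e2]
    rw [hcount] at h1
    linarith

theorem mom_bound {k : ℕ} (hk : k ≠ 0) (a : Λ) (N : ℕ) (hN : ((N : ℝ) + 1) ^ 6 ≤ (k : ℝ) ^ 2)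
    (n : ℕ) : ∀ ws : List (List Λ), size ws ≤ n → (∀ x ∈ ws, ∀ y ∈ x, y = a) → total ws ≤ N →
      ‖mom Λ k ws‖ ≤ fbs ws := by
  induction n with
  | zero =>
    intro ws h _ _
    rcases ws with _ | ⟨w, ws⟩
    · simp [mom_nil, fbs]
    · simp [size] at h
  | succ n ih =>
    intro ws h ha ht
    rcases ws with _ | ⟨w, ws⟩
    · simp [mom_nil, fbs]
    rw [List.forall_mem_cons] at ha
    rcases w with _ | ⟨b, w⟩
    · rw [mom_nil_cons hk]
      refine (ih ws (by simp [size] at h ⊢; omega) ha.2 (by simpa [total] using ht)).trans_eq ?_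
      simp [fbs, fb]
    have hb : b = a := ha.1 b (by simp)
    subst hb
    have hwa : ∀ y ∈ w, y = b := fun y hy => ha.1 y (by simp [hy])
    rw [mom_cons hk]
    have hadd : ∀ (x y : ℂ) (x' y' : ℝ), ‖x‖ ≤ x' → ‖y‖ ≤ y' → ‖x + y‖ ≤ x' + y' :=
      fun x y x' y' h h' => (norm_add_le x y).trans (add_le_add h h')
    have h1 : ‖split b (fun u v => mom Λ k (u :: v :: ws)) w‖ ≤ 1 / 2 * fb (w.length + 1) * fbs ws := by
      have h' : ‖split b (fun u v => mom Λ k (u :: v :: ws)) w‖ ≤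
          split b (fun u v => fb u.length * fb v.length * fbs ws) w := by
        refine split_rel (fun (x : ℂ) (y : ℝ) => ‖x‖ ≤ y) (by simp)
          (fun x y x' y' h h' => hadd x y x' y' h h') b w _ _ fun u v e => ?_
        refine (ih _ ?_ ?_ ?_).trans_eq (by simp [fbs, mul_assoc])
        · simp [size, e] at h ⊢; omega
        · simp only [List.forall_mem_cons]
          exact ⟨fun y hy => hwa y (by simp [e, hy]), fun y hy => hwa y (by simp [e, hy]), ha.2⟩
        · simp [total, e] at ht ⊢; omega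
      refine h'.trans ?_
      rw [split_replicate b (fun i j => fb i * fb j * fbs ws) w hwa, ← Finset.sum_mul]
      exact mul_le_mul_of_nonneg_right (conv_bound _) (fbs_pos ws).le
    have h2 : ‖msum b w (mom Λ k) ws‖ ≤ msum b w (fun l => ‖mom Λ k l‖) ws :=
      msum_rel (fun (x : ℂ) (y : ℝ) => ‖x‖ ≤ y) (by simp)
        (fun x y x' y' h h' => hadd x y x' y' h h') b w ws _ _ fun l _ => le_rfl
    have h3 := msum_bound b N w ws (fun l => ‖mom Λ k l‖) 1 zero_le_one ha.2 hwa
      (by simp [total] at ht ⊢; omega) fun l hl hlt hls => by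
        rw [one_mul]
        exact ih l (by simp [size] at h hls ⊢; omega) hl (by simp [total] at ht hlt ⊢; omega)
    have hk2 : (0 : ℝ) < (k : ℝ) ^ 2 := by positivity
    have h4 : ((k : ℝ) ^ 2)⁻¹ * ((total ws : ℝ) * (((N : ℝ) + 1) ^ 4 / 64)) ≤ 1 / 64 := by
      rw [inv_mul_le_iff₀ hk2]
      have h5 : (total ws : ℝ) ≤ ((N : ℝ) + 1) ^ 2 := by
        have : (total ws : ℝ) ≤ N := by exact_mod_cast (by simp [total] at ht ⊢; omega : total ws ≤ N)
        nlinarith [Nat.cast_nonneg (α := ℝ) N]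
      nlinarith [mul_le_mul_of_nonneg_right h5 (by positivity : (0 : ℝ) ≤ ((N : ℝ) + 1) ^ 4)]
    have hnorm : ‖((k : ℂ) ^ 2)⁻¹ * msum b w (mom Λ k) ws‖ ≤ 1 / 64 * fb (w.length + 1) * fbs ws := by
      rw [norm_mul, norm_inv, norm_pow, Complex.norm_natCast]
      refine (mul_le_mul_of_nonneg_left (h2.trans h3) (by positivity)).trans ?_
      have := mul_le_mul_of_nonneg_right h4 (mul_pos (fb_pos (w.length + 1)) (fbs_pos ws)).le
      linarith
    refine (norm_add_le _ _).trans ?_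
    have hp := mul_pos (fb_pos (w.length + 1)) (fbs_pos ws)
    have e : fbs ((b :: w) :: ws) = fb (w.length + 1) * fbs ws := by simp [fbs]
    rw [e]
    linarith

/-! ### Evaluation of polynomials -/

variable {k : ℕ}

theorem map_hmat (x : Λ → Fin k → Fin k → ℝ) (a : Λ) :
    (ev x).mapMatrix (hmat a) = hermitian (x a) := by
  ext p q
  simp only [RingHom.mapMatrix_apply, Matrix.map_apply, hmat, Matrix.of_apply, hent, hermitian]
  split_ifs <;> simp [ev, div_eq_mul_inv] <;> ring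

theorem ev_trace (x : Λ → Fin k → Fin k → ℝ) (w : List Λ) :
    ev x (hword w).trace = (w.map fun a => hermitian (x a)).prod.trace := by
  rw [AddMonoidHom.map_trace, ← RingHom.mapMatrix_apply, hword, map_list_prod, List.map_map]
  simp only [Function.comp_def, map_hmat]

theorem ev_ntr (x : Λ → Fin k → Fin k → ℝ) (w : List Λ) :
    ev x (ntr w) = (k : ℂ)⁻¹ * (w.map fun a => hermitian (x a)).prod.trace := by
  rw [ntr, map_mul, ev_trace]
  simp [ev]

theorem hermitian_isHermitian (y : Fin k → Fin k → ℝ) : (hermitian y).IsHermitian := by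
  ext p q
  rcases lt_trichotomy p q with h | h | h
  · simp [hermitian, h.ne, h.ne', h, h.not_gt, Complex.conj_ofReal]
  · subst h; simp [hermitian]
  · simp [hermitian, h.ne, h.ne', h, h.not_gt, Complex.conj_ofReal]
    ring

theorem ev_ntr_reverse (x : Λ → Fin k → Fin k → ℝ) (w : List Λ) :
    ev x (ntr w.reverse) = (starRingEnd ℂ) (ev x (ntr w)) := by
  rw [ev_ntr, ev_ntr, map_mul, ← Complex.star_def, ← Matrix.trace_conjTranspose,
    Matrix.conjTranspose_list_prod]
  congr 1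
  · simp
  · simp only [List.map_map, List.map_reverse]
    congr 3
    exact List.map_congr_left fun a _ => (hermitian_isHermitian (x a)).eq.symm

theorem tau_reverse (w : List Λ) : tau w.reverse = tau w := by
  have h1 := tendsto_mom_single w.reverse
  have h2 := (Complex.continuous_conj.tendsto _).comp (tendsto_mom_single w)
  have he : ∀ k, mom Λ k [w.reverse] = (starRingEnd ℂ) (mom Λ k [w]) := by
    intro k
    simp only [mom, ntrs, List.map_cons, List.map_nil, List.prod_cons, List.prod_nil, mul_one,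
      expect_apply]
    rw [← integral_conj]
    simp only [ev_ntr_reverse]
  simp only [Function.comp_def, ← he, Complex.conj_ofReal] at h2
  exact_mod_cast tendsto_nhds_unique h1 h2

theorem tendsto_variance (w : List Λ) :
    Tendsto (fun k => ∫ x, ‖ev x (ntr w) - (tau w : ℂ)‖ ^ 2 ∂gueMeasure Λ k) atTop (𝓝 0) := by
  have hq : ∀ k, ((∫ x, ‖ev x (ntr w) - (tau w : ℂ)‖ ^ 2 ∂gueMeasure Λ k : ℝ) : ℂ) =
      mom Λ k [w, w.reverse] - (tau w : ℂ) * mom Λ k [w] -
        (tau w : ℂ) * mom Λ k [w.reverse] + (tau w : ℂ) ^ 2 := by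
    intro k
    rw [← integral_complex_ofReal]
    have hP : ∀ x : Λ → Fin k → Fin k → ℝ, ((‖ev x (ntr w) - (tau w : ℂ)‖ ^ 2 : ℝ) : ℂ) =
        ev x (ntr w * ntr w.reverse - C (tau w : ℂ) * ntr w - C (tau w : ℂ) * ntr w.reverse +
          C ((tau w : ℂ) ^ 2)) := by
      intro x
      rw [← Complex.normSq_eq_norm_sq, Complex.normSq_eq_conj_mul_self]
      simp only [map_sub, map_add, map_mul, Complex.conj_ofReal, ← ev_ntr_reverse]
      simp [ev]
      ring
    simp only [hP]
    rw [← expect_apply, map_add, map_sub, map_sub, expect_C_mul, expect_C_mul, expect_C]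
    simp [mom, ntrs]
  have hlim : Tendsto (fun k => mom Λ k [w, w.reverse] - (tau w : ℂ) * mom Λ k [w] -
      (tau w : ℂ) * mom Λ k [w.reverse] + (tau w : ℂ) ^ 2) atTop (𝓝 0) := by
    have h1 := tendsto_mom (size [w, w.reverse]) [w, w.reverse] le_rfl
    have h2 := (((h1.sub ((tendsto_mom_single w).const_mul (tau w : ℂ))).sub
      ((tendsto_mom_single w.reverse).const_mul (tau w : ℂ))).add_const ((tau w : ℂ) ^ 2))
    convert h2 using 2
    simp [tauProd, tau_reverse]
    ring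
  simp only [← hq] at hlim
  simpa [Function.comp_def] using (Complex.continuous_re.tendsto _).comp hlim

theorem norm_sq_le_trace (A : Matrix (Fin k) (Fin k) ℂ) (hA : A.IsHermitian) :
    ‖Matrix.toEuclideanCLM (𝕜 := ℂ) A‖ ^ 2 ≤ (A * A).trace.re := by
  have hS : (A * A).trace.re = ∑ i, ∑ j, ‖A i j‖ ^ 2 := by
    nth_rewrite 2 [← hA.eq]
    simp only [Matrix.trace, Matrix.diag_apply, Matrix.mul_apply, Matrix.conjTranspose_apply,
      Complex.re_sum, Complex.star_def, Complex.mul_conj, Complex.ofReal_re,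
      Complex.normSq_eq_norm_sq]
  have h0 : 0 ≤ (A * A).trace.re := by
    rw [hS]; positivity
  have hle : ‖Matrix.toEuclideanCLM (𝕜 := ℂ) A‖ ≤ Real.sqrt (A * A).trace.re := by
    refine ContinuousLinearMap.opNorm_le_bound _ (Real.sqrt_nonneg _) fun v => ?_
    rw [EuclideanSpace.norm_eq, EuclideanSpace.norm_eq, ← Real.sqrt_mul h0]
    refine Real.sqrt_le_sqrt ?_
    rw [hS, Finset.sum_mul]
    refine Finset.sum_le_sum fun i _ => ?_
    rw [show (Matrix.toEuclideanCLM (𝕜 := ℂ) A v).ofLp i = ∑ j, A i j * v.ofLp j from by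
      rw [Matrix.ofLp_toEuclideanCLM]; rfl]
    refine le_trans (pow_le_pow_left₀ (norm_nonneg _) (norm_sum_le _ _) 2) ?_
    simp only [norm_mul]
    exact Finset.sum_mul_sq_le_sq_mul_sq _ _ _
  calc _ ≤ Real.sqrt (A * A).trace.re ^ 2 := pow_le_pow_left₀ (norm_nonneg _) hle 2
    _ = _ := Real.sq_sqrt h0

theorem norm_pow_two_pow_le (x : Λ → Fin k → Fin k → ℝ) (a : Λ) (j : ℕ) :
    ‖Matrix.toEuclideanCLM (𝕜 := ℂ) (hermitian (x a))‖ ^ (2 * 2 ^ j) ≤
      (ev x (hword (List.replicate (2 * 2 ^ j) a)).trace).re := by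
  have hA := hermitian_isHermitian (x a)
  have hT : IsSelfAdjoint (Matrix.toEuclideanCLM (𝕜 := ℂ) (hermitian (x a))) :=
    IsSelfAdjoint.map hA _
  have h1 : ‖Matrix.toEuclideanCLM (n := Fin k) (𝕜 := ℂ) (hermitian (x a) ^ 2 ^ j)‖ =
      ‖Matrix.toEuclideanCLM (𝕜 := ℂ) (hermitian (x a))‖ ^ 2 ^ j := by
    rw [map_pow]
    have := IsSelfAdjoint.nnnorm_pow_two_pow (E := EuclideanSpace ℂ (Fin k) →L[ℂ] EuclideanSpace ℂ (Fin k)) hT j
    simpa only [NNReal.coe_pow, coe_nnnorm] using congrArg (fun r : ℝ≥0 => (r : ℝ)) this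
  have h2 := norm_sq_le_trace (hermitian (x a) ^ 2 ^ j) (hA.pow _)
  rw [h1, ← pow_mul, mul_comm, ← pow_add, ← two_mul] at h2
  rw [ev_trace, List.map_replicate, List.prod_replicate]
  exact h2

theorem measure_norm_le (hk : k ≠ 0) (a : Λ) (j : ℕ) (h1 : k ≤ 2 ^ 2 ^ j)
    (h2 : (((2 * 2 ^ j : ℕ) : ℝ) + 1) ^ 6 ≤ (k : ℝ) ^ 2) :
    (gueMeasure Λ k).real {x | 16 < ‖Matrix.toEuclideanCLM (𝕜 := ℂ) (hermitian (x a))‖} ≤
      1 / k := by
  set p : ℕ := 2 ^ j with hp
  set P : Poly Λ k := (hword (List.replicate (2 * p) a)).trace with hP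
  have hpos : ∀ x, 0 ≤ (ev x P).re := fun x =>
    le_trans (pow_nonneg (norm_nonneg _) _) (norm_pow_two_pow_le x a j)
  have hsub : {x : Λ → Fin k → Fin k → ℝ |
      16 < ‖Matrix.toEuclideanCLM (𝕜 := ℂ) (hermitian (x a))‖} ⊆
      {x | (16 : ℝ) ^ (2 * p) ≤ (ev x P).re} := fun x hx =>
    le_trans (pow_le_pow_left₀ (by norm_num) (le_of_lt hx) _) (norm_pow_two_pow_le x a j)
  have hint : Integrable (fun x => (ev x P).re) (gueMeasure Λ k) := (integrable_ev P).re
  have hM := mul_meas_ge_le_integral_of_nonneg (ae_of_all _ hpos) hint ((16 : ℝ) ^ (2 * p))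
  have hE : ∫ x, (ev x P).re ∂gueMeasure Λ k ≤ (k : ℝ) * 8 ^ (2 * p) := by
    have he : ∫ x, (ev x P).re ∂gueMeasure Λ k = (expect P).re := by
      rw [expect_apply]
      exact integral_re (integrable_ev P)
    rw [he, hP, trace_eq_ntr hk, expect_C_mul]
    refine (Complex.re_le_norm _).trans ?_
    rw [norm_mul, Complex.norm_natCast]
    refine mul_le_mul_of_nonneg_left ?_ (by positivity)
    have hb := mom_bound hk a (2 * p) h2 _ [List.replicate (2 * p) a] le_rfl
      (by simp [List.mem_replicate]) (by simp [total])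
    simp [mom, ntrs] at hb
    refine hb.trans ?_
    simp [fbs, fb]
    exact div_le_self (by positivity) (one_le_pow₀ (by linarith [Nat.cast_nonneg (α := ℝ) p]))
  have h3 : (gueMeasure Λ k).real {x | 16 < ‖Matrix.toEuclideanCLM (𝕜 := ℂ) (hermitian (x a))‖} *
      (16 : ℝ) ^ (2 * p) ≤ (k : ℝ) * 8 ^ (2 * p) := by
    rw [mul_comm]
    refine le_trans ?_ (hM.trans hE)
    exact mul_le_mul_of_nonneg_left (measureReal_mono hsub) (by positivity)
  have h4 : (k : ℝ) * k ≤ (2 : ℝ) ^ (2 * p) := by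
    have : (k : ℝ) ≤ (2 : ℝ) ^ p := by exact_mod_cast h1
    rw [two_mul, pow_add]
    gcongr
  have hk0 : (0 : ℝ) < k := by positivity
  have e : (16 : ℝ) ^ (2 * p) = 2 ^ (2 * p) * 8 ^ (2 * p) := by
    rw [← mul_pow]; norm_num
  rw [e] at h3
  rw [le_div_iff₀ hk0]
  have h8 : (0 : ℝ) < 8 ^ (2 * p) := by positivity
  have h5 : (gueMeasure Λ k).real {x | 16 < ‖Matrix.toEuclideanCLM (𝕜 := ℂ) (hermitian (x a))‖} *
      2 ^ (2 * p) ≤ k := le_of_mul_le_mul_right (by linarith) h8
  have h6 := mul_le_mul_of_nonneg_left h4 (measureReal_nonneg (μ := gueMeasure Λ k)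
    (s := {x | 16 < ‖Matrix.toEuclideanCLM (𝕜 := ℂ) (hermitian (x a))‖}))
  exact le_of_mul_le_mul_right (by linarith) hk0

theorem eventually_exponent :
    ∀ᶠ k : ℕ in atTop, ∃ j : ℕ, k ≤ 2 ^ 2 ^ j ∧
      (((2 * 2 ^ j : ℕ) : ℝ) + 1) ^ 6 ≤ (k : ℝ) ^ 2 := by
  have h : ∀ᶠ l : ℕ in atTop, (5 * (l : ℝ)) ^ 3 ≤ (2 : ℝ) ^ l := by
    have h0 := tendsto_pow_const_div_const_pow_of_one_lt 3 (by norm_num : (1 : ℝ) < 2)
    filter_upwards [h0.eventually (eventually_le_nhds (by norm_num : (0 : ℝ) < 1 / 125))] with l hl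
    rw [div_le_iff₀ (by positivity)] at hl
    nlinarith
  obtain ⟨L, hL⟩ := eventually_atTop.mp h
  filter_upwards [eventually_ge_atTop (2 ^ (L + 1))] with k hk
  have hk0 : k ≠ 0 := by have := Nat.one_le_two_pow (n := L + 1); omega
  set l := Nat.log 2 k with hl
  have hlk : 2 ^ l ≤ k := Nat.pow_log_le_self 2 hk0
  have hlL : L + 1 ≤ l := Nat.le_log_of_pow_le (by norm_num) hk
  refine ⟨Nat.log 2 l + 1, ?_, ?_⟩
  · exact (Nat.lt_pow_succ_log_self (by norm_num) k).le.trans
      (Nat.pow_le_pow_right (by norm_num) (Nat.lt_pow_succ_log_self (by norm_num) l))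
  · have h2 : 2 ^ (Nat.log 2 l + 1) ≤ 2 * l := by
      rw [pow_succ, mul_comm]
      exact Nat.mul_le_mul_left 2 (Nat.pow_log_le_self 2 (by omega))
    have h3 : (((2 * 2 ^ (Nat.log 2 l + 1) : ℕ) : ℝ) + 1) ≤ 5 * (l : ℝ) := by
      exact_mod_cast (by omega : 2 * 2 ^ (Nat.log 2 l + 1) + 1 ≤ 5 * l)
    have h4 : ((2 : ℝ)) ^ l ≤ k := by exact_mod_cast hlk
    calc _ ≤ (5 * (l : ℝ)) ^ 6 := by gcongr
      _ = ((5 * (l : ℝ)) ^ 3) ^ 2 := by ring
      _ ≤ (k : ℝ) ^ 2 := pow_le_pow_left₀ (by positivity) ((hL l (by omega)).trans h4) 2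

end

end GUE

/-- Module GUE. -/
theorem gue : GUEStatement := by
  intro Λ _ _
  refine ⟨16, by norm_num, fun m ε hε => ?_⟩
  have hfin : ∀ s, s = {w : List Λ | w.length ≤ m} → s.Finite := fun s hs =>
    hs ▸ List.finite_length_le Λ m
  set W := (hfin _ rfl).toFinset with hW
  have hV : ∀ w : List Λ, Tendsto (fun k => (gueMeasure Λ k).real
      {x | ε ≤ ‖GUE.ev x (GUE.ntr w) - (GUE.tau w : ℂ)‖}) atTop (𝓝 0) := by
    intro w
    have hb := (GUE.tendsto_variance w).const_mul (1 / ε ^ 2)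
    rw [mul_zero] at hb
    refine squeeze_zero (fun k => measureReal_nonneg) (fun k => ?_) hb
    have hint : Integrable (fun x => ‖GUE.ev x (GUE.ntr w) - (GUE.tau w : ℂ)‖ ^ 2) (gueMeasure Λ k) := by
      have hP : ∀ x : Λ → Fin k → Fin k → ℝ, ‖GUE.ev x (GUE.ntr w) - (GUE.tau w : ℂ)‖ ^ 2 =
          (GUE.ev x ((GUE.ntr w - C (GUE.tau w : ℂ)) * (GUE.ntr w.reverse - C (GUE.tau w : ℂ)))).re := by
        intro x
        rw [map_mul, map_sub, map_sub, GUE.ev_ntr_reverse]
        have hc : GUE.ev x (C (GUE.tau w : ℂ)) = (GUE.tau w : ℂ) := by simp [GUE.ev]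
        rw [hc, ← Complex.normSq_eq_norm_sq, Complex.normSq_apply]
        simp [Complex.mul_re]
      simp only [hP]
      exact (GUE.integrable_ev _).re
    have hM := mul_meas_ge_le_integral_of_nonneg
      (ae_of_all _ fun x => sq_nonneg ‖GUE.ev x (GUE.ntr w) - (GUE.tau w : ℂ)‖) hint (ε ^ 2)
    rw [one_div, le_inv_mul_iff₀ (by positivity)]
    refine le_trans ?_ hM
    refine mul_le_mul_of_nonneg_left (measureReal_mono fun x hx => ?_) (by positivity)
    exact pow_le_pow_left₀ hε.le hx 2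
  have hsumV : Tendsto (fun k => ∑ w ∈ W, (gueMeasure Λ k).real
      {x | ε ≤ ‖GUE.ev x (GUE.ntr w) - (GUE.tau w : ℂ)‖}) atTop (𝓝 0) := by
    simpa using tendsto_finsetSum W fun w _ => hV w
  have hcard : Tendsto (fun k : ℕ => (Fintype.card Λ : ℝ) / k) atTop (𝓝 0) :=
    tendsto_const_div_atTop_nhds_zero_nat _
  filter_upwards [hsumV.eventually (eventually_le_nhds (by norm_num : (0 : ℝ) < 1 / 4)),
    hcard.eventually (eventually_le_nhds (by norm_num : (0 : ℝ) < 1 / 4)),
    eventually_ne_atTop 0, GUE.eventually_exponent] with k hw hc hk hj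
  obtain ⟨j, hj1, hj2⟩ := hj
  set good := {x : Λ → Fin k → Fin k → ℝ |
    (∀ a, ‖Matrix.toEuclideanCLM (𝕜 := ℂ) (hermitian (x a))‖ ≤ 16) ∧
      ∀ w : List Λ, w.length ≤ m →
        ‖(k : ℂ)⁻¹ * ((w.map fun a => hermitian (x a)).prod).trace -
          ((vacState (opProd semi w) : ℝ) : ℂ)‖ < ε} with hgood
  set B1 := ⋃ a ∈ (Finset.univ : Finset Λ),
    {x : Λ → Fin k → Fin k → ℝ | 16 < ‖Matrix.toEuclideanCLM (𝕜 := ℂ) (hermitian (x a))‖}
  set B2 := ⋃ w ∈ W,
    {x : Λ → Fin k → Fin k → ℝ | ε ≤ ‖GUE.ev x (GUE.ntr w) - (GUE.tau w : ℂ)‖}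
  have hcover : (Set.univ : Set (Λ → Fin k → Fin k → ℝ)) ⊆ good ∪ (B1 ∪ B2) := by
    intro x _
    by_contra hx
    simp only [Set.mem_union, B1, B2, Set.mem_iUnion, Set.mem_ofPred_eq, not_or, not_exists,
      not_lt, not_le, Finset.mem_univ, forall_true_left] at hx
    refine hx.1 ⟨hx.2.1, fun w hwm => ?_⟩
    have := hx.2.2 w (by simp [hW, hwm])
    rwa [GUE.ev_ntr] at this
  have h1 : (1 : ℝ) ≤ (gueMeasure Λ k).real good + ((gueMeasure Λ k).real B1 + (gueMeasure Λ k).real B2) := by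
    calc (1 : ℝ) = (gueMeasure Λ k).real Set.univ := probReal_univ.symm
      _ ≤ (gueMeasure Λ k).real (good ∪ (B1 ∪ B2)) := measureReal_mono hcover
      _ ≤ _ := (measureReal_union_le _ _).trans (add_le_add le_rfl (measureReal_union_le _ _))
  have h2 : (gueMeasure Λ k).real B1 ≤ (Fintype.card Λ : ℝ) / k := by
    refine (measureReal_biUnion_finset_le _ _).trans ?_
    refine (Finset.sum_le_sum fun a _ => GUE.measure_norm_le hk a j hj1 hj2).trans_eq ?_
    simp [Finset.sum_const, div_eq_mul_inv]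
  have h3 : (gueMeasure Λ k).real B2 ≤ 1 / 4 := (measureReal_biUnion_finset_le _ _).trans hw
  have h4 : ENNReal.ofReal (1 / 2) ≤ gueMeasure Λ k good := by
    rw [← ofReal_measureReal (measure_ne_top _ _)]
    exact ENNReal.ofReal_le_ofReal (by linarith)
  simpa using h4

end Vale.Agent.P087
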