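import Vale.Agent.P087.Interfaces
import Vale.Agent.P087.Lower

/-!
# P087: the Gaussian volume bound for a triangular tuple
-/

set_option linter.unusedSectionVars false

open scoped InnerProductSpace ENNReal NNReal
open MeasureTheory Filter

namespace Vale.Agent.P087

namespace Upper

noncomputable section

variable {k : ℕ}

/-- Sum of squares of the coordinates. -/
def sqSum (x : Fin k → Fin k → ℝ) : ℝ := ∑ a, ∑ b, x a b ^ 2

theorem hermitian_mul_apply (x : Fin k → Fin k → ℝ) (a b : Fin k) :
    hermitian x a b * hermitian x b a = (((x a b ^ 2 + x b a ^ 2) / 2 : ℝ) : ℂ) := by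
  have h2 : ((Real.sqrt 2 : ℝ) : ℂ) * ((Real.sqrt 2 : ℝ) : ℂ) = 2 := by
    rw [← Complex.ofReal_mul, Real.mul_self_sqrt zero_le_two]
    simp
  simp only [hermitian]
  rcases lt_trichotomy a b with h | h | h
  · simp only [if_neg h.ne, if_pos h, if_neg h.ne', if_neg h.asymm]
    rw [div_mul_div_comm, h2]
    push_cast
    ring_nf
    rw [Complex.I_sq]
    ring
  · subst h
    simp only [if_true]
    push_cast
    ring
  · simp only [if_neg h.ne', if_neg h.asymm, if_neg h.ne, if_pos h]
    rw [div_mul_div_comm, h2]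
    push_cast
    ring_nf
    rw [Complex.I_sq]
    ring

theorem trace_hermitian_sq (x : Fin k → Fin k → ℝ) :
    (hermitian x * hermitian x).trace = (sqSum x : ℂ) := by
  simp only [Matrix.trace, Matrix.diag_apply, Matrix.mul_apply, hermitian_mul_apply]
  rw [sqSum]
  push_cast
  have hswap : ∑ a, ∑ b, ((x b a : ℂ)) ^ 2 = ∑ a, ∑ b, ((x a b : ℂ)) ^ 2 := Finset.sum_comm
  simp only [add_div, Finset.sum_add_distrib, ← Finset.sum_div, hswap]
  ring

theorem trace_sq_sub (x : Fin k → Fin k → ℝ) {P : Matrix (Fin k) (Fin k) ℂ} (hP : P.IsHermitian) :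
    ((hermitian x - P) * (hermitian x - P)).trace =
      (sqSum (fun a b => x a b - Lower.coords P a b) : ℂ) := by
  rw [← trace_hermitian_sq]
  have : hermitian (fun a b => x a b - Lower.coords P a b) = hermitian x - P := by
    have h := Lower.hermitian_add_smul x (Lower.coords P) (-1)
    rw [Lower.hermitian_coords hP] at h
    simp only [neg_one_mul, ← sub_eq_add_neg] at h
    rw [h]
    simp [sub_eq_add_neg]
  rw [this]

/-- The Gaussian weight with variance `s`. -/
def gw (s : ℝ) (x : Fin k → Fin k → ℝ) : ℝ := ∏ a, ∏ b, Real.exp (-(1 / (2 * s)) * x a b ^ 2)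

theorem gw_eq (s : ℝ) (x : Fin k → Fin k → ℝ) : gw s x = Real.exp (-(1 / (2 * s)) * sqSum x) := by
  simp only [gw, sqSum, ← Real.exp_sum, Finset.mul_sum]

theorem gw_pos (s : ℝ) (x : Fin k → Fin k → ℝ) : 0 < gw s x := by
  rw [gw_eq]; exact Real.exp_pos _

theorem measurable_gw (s : ℝ) : Measurable (gw s : (Fin k → Fin k → ℝ) → ℝ) := by
  unfold gw; fun_prop

theorem integrable_gw {s : ℝ} (hs : 0 < s) : Integrable (gw s : (Fin k → Fin k → ℝ) → ℝ) := by
  have h1 : Integrable fun x : ℝ => Real.exp (-(1 / (2 * s)) * x ^ 2) :=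
    integrable_exp_neg_mul_sq (by positivity)
  have h2 : Integrable fun r : Fin k → ℝ => ∏ b, Real.exp (-(1 / (2 * s)) * r b ^ 2) :=
    Integrable.fintype_prod (f := fun (_ : Fin k) (x : ℝ) => Real.exp (-(1 / (2 * s)) * x ^ 2))
      fun _ => h1
  exact Integrable.fintype_prod
    (f := fun (_ : Fin k) (r : Fin k → ℝ) => ∏ b, Real.exp (-(1 / (2 * s)) * r b ^ 2)) fun _ => h2

theorem integral_gw {s : ℝ} (hs : 0 < s) :
    ∫ x : Fin k → Fin k → ℝ, gw s x = Real.sqrt (2 * Real.pi * s) ^ (k * k) := by
  have h1 : ∫ x : ℝ, Real.exp (-(1 / (2 * s)) * x ^ 2) = Real.sqrt (2 * Real.pi * s) := by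
    rw [integral_gaussian]
    congr 1
    field_simp
  unfold gw
  rw [integral_fintype_prod_volume_eq_pow
    (fun r : Fin k → ℝ => ∏ b, Real.exp (-(1 / (2 * s)) * r b ^ 2)),
    integral_fintype_prod_volume_eq_pow (fun x : ℝ => Real.exp (-(1 / (2 * s)) * x ^ 2)), h1,
    Fintype.card_fin, ← pow_mul]

theorem lintegral_prod_gw {J : Type} [Fintype J] (s : J → ℝ) (hs : ∀ j, 0 < s j) :
    ∫⁻ x : J → Fin k → Fin k → ℝ, ENNReal.ofReal (∏ j, gw (s j) (x j)) =
      ENNReal.ofReal (∏ j, Real.sqrt (2 * Real.pi * s j) ^ (k * k)) := by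
  have hint : Integrable (fun x : J → Fin k → Fin k → ℝ => ∏ j, gw (s j) (x j)) volume :=
    Integrable.fintype_prod (f := fun (j : J) (x : Fin k → Fin k → ℝ) => gw (s j) x)
      fun j => integrable_gw (hs j)
  rw [← ofReal_integral_eq_lintegral_ofReal hint
      (Filter.Eventually.of_forall fun x => Finset.prod_nonneg fun j _ => (gw_pos _ _).le),
    integral_fintype_prod_volume_eq_prod (fun (j : J) (x : Fin k → Fin k → ℝ) => gw (s j) x)]
  simp only [integral_gw (hs _)]

/-- Triangular shears do not change the Gaussian integral. -/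
theorem lintegral_triangular {W : Type} [Fintype W] (s : Fin 2 ⊕ W → ℝ) (hs : ∀ j, 0 < s j)
    (z : (Fin 2 → Fin k → Fin k → ℝ) → W → Fin k → Fin k → ℝ) (hz : Measurable z) :
    ∫⁻ x : Fin 2 ⊕ W → Fin k → Fin k → ℝ, ENNReal.ofReal
        ((∏ i, gw (s (Sum.inl i)) (x (Sum.inl i))) *
          ∏ w, gw (s (Sum.inr w)) (x (Sum.inr w) - z (fun i => x (Sum.inl i)) w)) =
      ENNReal.ofReal (∏ j, Real.sqrt (2 * Real.pi * s j) ^ (k * k)) := by
  have hmp := volume_measurePreserving_sumPiEquivProdPi_symm
    (fun _ : Fin 2 ⊕ W => Fin k → Fin k → ℝ)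
  rw [← hmp.lintegral_comp_emb (MeasurableEquiv.measurableEmbedding _)]
  rw [Measure.volume_eq_prod, lintegral_prod]
  rotate_left
  · refine Measurable.aemeasurable (Measurable.ennreal_ofReal ?_)
    refine Measurable.mul (Finset.measurable_prod _ fun i _ => ?_)
      (Finset.measurable_prod _ fun w _ => ?_)
    · exact (measurable_gw _).comp ((measurable_pi_apply _).comp (MeasurableEquiv.measurable _))
    · have h1 : Measurable fun a : (Fin 2 → Fin k → Fin k → ℝ) × (W → Fin k → Fin k → ℝ) =>
          (MeasurableEquiv.sumPiEquivProdPi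
            (fun _ : Fin 2 ⊕ W => Fin k → Fin k → ℝ)).symm a (Sum.inr w) :=
        (measurable_pi_apply (Sum.inr w)).comp (MeasurableEquiv.measurable _)
      have h2 : Measurable fun a : (Fin 2 → Fin k → Fin k → ℝ) × (W → Fin k → Fin k → ℝ) =>
          z (fun i => (MeasurableEquiv.sumPiEquivProdPi
            (fun _ : Fin 2 ⊕ W => Fin k → Fin k → ℝ)).symm a (Sum.inl i)) w :=
        (measurable_pi_apply w).comp (hz.comp (measurable_pi_lambda _ fun i =>
          (measurable_pi_apply (Sum.inl i)).comp (MeasurableEquiv.measurable _)))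
      exact (measurable_gw _).comp (h1.sub h2)
  have e : ∀ (a : Fin 2 → Fin k → Fin k → ℝ) (b : W → Fin k → Fin k → ℝ),
      ENNReal.ofReal
        ((∏ i, gw (s (Sum.inl i)) ((MeasurableEquiv.sumPiEquivProdPi
            (fun _ : Fin 2 ⊕ W => Fin k → Fin k → ℝ)).symm (a, b) (Sum.inl i))) *
          ∏ w, gw (s (Sum.inr w)) ((MeasurableEquiv.sumPiEquivProdPi
            (fun _ : Fin 2 ⊕ W => Fin k → Fin k → ℝ)).symm (a, b) (Sum.inr w) -
              z (fun i => (MeasurableEquiv.sumPiEquivProdPi
            (fun _ : Fin 2 ⊕ W => Fin k → Fin k → ℝ)).symm (a, b) (Sum.inl i)) w)) =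
      ENNReal.ofReal (∏ i, gw (s (Sum.inl i)) (a i)) *
        ENNReal.ofReal (∏ w, gw (s (Sum.inr w)) ((b - z a) w)) := by
    intro a b
    rw [← ENNReal.ofReal_mul (Finset.prod_nonneg fun i _ => (gw_pos _ _).le)]
    rfl
  simp only [e]
  have inner : ∀ a : Fin 2 → Fin k → Fin k → ℝ,
      ∫⁻ b : W → Fin k → Fin k → ℝ, ENNReal.ofReal (∏ i, gw (s (Sum.inl i)) (a i)) *
          ENNReal.ofReal (∏ w, gw (s (Sum.inr w)) ((b - z a) w)) =
        ENNReal.ofReal (∏ i, gw (s (Sum.inl i)) (a i)) *
          ENNReal.ofReal (∏ w, Real.sqrt (2 * Real.pi * s (Sum.inr w)) ^ (k * k)) := by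
    intro a
    have h1 : (volume : Measure (Fin k → ℝ)).IsAddLeftInvariant := inferInstance
    have h2 : (volume : Measure (Fin k → Fin k → ℝ)).IsAddLeftInvariant :=
      Pi.isAddLeftInvariant_volume
    have h3 : (volume : Measure (W → Fin k → Fin k → ℝ)).IsAddLeftInvariant :=
      Pi.isAddLeftInvariant_volume
    rw [lintegral_const_mul' _ _ ENNReal.ofReal_ne_top,
      lintegral_sub_right_eq_self (μ := (volume : Measure (W → Fin k → Fin k → ℝ)))
        (fun b => ENNReal.ofReal (∏ w, gw (s (Sum.inr w)) (b w))) (z a),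
      lintegral_prod_gw (fun w => s (Sum.inr w)) fun w => hs _]
  simp only [inner]
  rw [lintegral_mul_const' _ _ ENNReal.ofReal_ne_top,
    lintegral_prod_gw (fun i => s (Sum.inl i)) fun i => hs _,
    ← ENNReal.ofReal_mul (Finset.prod_nonneg fun i _ => by positivity), Fintype.prod_sum_type]

/-- The Gaussian volume bound for a triangular tuple. -/
theorem upper : UpperStatement := by
  intro H _ _ _ Ω W _ n e X d p hΩ hX hd hp hdl hdr
  classical
  -- the squares of the residuals, as noncommutative polynomials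
  let P : Fin 2 ⊕ W → FreeAlgebra ℂ (Fin 2 ⊕ W) := Sum.elim
    (fun i => FreeAlgebra.ι ℂ (Sum.inl i) * FreeAlgebra.ι ℂ (Sum.inl i))
    (fun w => (FreeAlgebra.ι ℂ (Sum.inr w) -
        FreeAlgebra.lift ℂ (fun i => FreeAlgebra.ι ℂ (Sum.inl i)) (p w)) *
      (FreeAlgebra.ι ℂ (Sum.inr w) -
        FreeAlgebra.lift ℂ (fun i => FreeAlgebra.ι ℂ (Sum.inl i)) (p w)))
  have hlift : ∀ {A : Type} [Ring A] [Algebra ℂ A] (f : Fin 2 ⊕ W → A) (q : FreeAlgebra ℂ (Fin 2)),
      FreeAlgebra.lift ℂ f (FreeAlgebra.lift ℂ (fun i => FreeAlgebra.ι ℂ (Sum.inl i)) q) =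
        FreeAlgebra.lift ℂ (fun i => f (Sum.inl i)) q := by
    intro A _ _ f q
    have : (FreeAlgebra.lift ℂ f).comp
        (FreeAlgebra.lift ℂ (fun i => FreeAlgebra.ι ℂ (Sum.inl i : Fin 2 ⊕ W))) =
          FreeAlgebra.lift ℂ (fun i => f (Sum.inl i)) := by
      ext i
      simp
    exact AlgHom.congr_fun this q
  have hd' : ∀ j, (trace Ω (FreeAlgebra.lift ℂ X (P j))).re ≤ d j := by
    rintro (i | w)
    · simpa [P] using hdl i
    · simp only [P, Sum.elim_inr, map_mul, map_sub, FreeAlgebra.lift_ι_apply, hlift]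
      exact hdr w
  choose K D hK hKD using fun j => Lower.exists_trace_close Ω X (P j)
  -- it suffices to prove the bound with `d + η`
  suffices h : ∀ η : ℝ, 0 < η → chi Ω (fun j => X (e j)) ≤
      (((n : ℝ) / 2 * Real.log (2 * Real.pi * Real.exp 1) +
        1 / 2 * ∑ j, Real.log (d j + η) : ℝ) : EReal) by
    have hlim : Tendsto (fun η : ℝ => (n : ℝ) / 2 * Real.log (2 * Real.pi * Real.exp 1) +
        1 / 2 * ∑ j, Real.log (d j + η)) (nhdsWithin 0 (Set.Ioi 0))
        (nhds ((n : ℝ) / 2 * Real.log (2 * Real.pi * Real.exp 1) +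
          1 / 2 * ∑ j, Real.log (d j))) := by
      refine (ContinuousAt.tendsto ?_).mono_left nhdsWithin_le_nhds |>.trans (le_of_eq (by simp))
      refine continuousAt_const.add (continuousAt_const.mul ?_)
      exact tendsto_finsetSum _ fun j _ => ((continuousAt_const.add continuousAt_id).log
        (by simp [(hd j).ne']))
    refine ge_of_tendsto ((continuous_coe_real_ereal.tendsto _).comp hlim) ?_
    filter_upwards [self_mem_nhdsWithin] with η hη using h η hη
  intro η hη
  refine iSup₂_le fun R _ => ?_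
  set m := ∑ j, D j + 1 with hm
  set δ := η / (1 + ∑ j, K j) with hδ
  have hsum : 0 ≤ ∑ j, K j := Finset.sum_nonneg fun j _ => hK j
  have hδ0 : 0 < δ := div_pos hη (by linarith)
  refine (iInf_le _ m).trans ((iInf₂_le δ hδ0).trans ?_)
  refine limsup_le_of_le (h := ?_)
  filter_upwards [eventually_ge_atTop 1] with k hk
  have hk0 : (0 : ℝ) < k := by exact_mod_cast hk
  set s : Fin 2 ⊕ W → ℝ := fun j => (d j + η) / k with hs
  have hs0 : ∀ j, 0 < s j := fun j => div_pos (by linarith [hd j]) hk0
  let z : (Fin 2 → Fin k → Fin k → ℝ) → W → Fin k → Fin k → ℝ := fun a w =>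
    Lower.coords (FreeAlgebra.lift ℂ (fun i => hermitian (a i)) (p w))
  have hz : Measurable z := by
    refine measurable_pi_lambda _ fun w => Continuous.measurable ?_
    have hcont : ∀ q : FreeAlgebra ℂ (Fin 2), Continuous fun a : Fin 2 → Fin k → Fin k → ℝ =>
        FreeAlgebra.lift ℂ (fun i => hermitian (a i)) q := by
      intro q
      induction q using FreeAlgebra.induction with
      | grade0 c => simp only [AlgHom.commutes]; exact continuous_const
      | grade1 i =>
        simp only [FreeAlgebra.lift_ι_apply]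
        exact Lower.continuous_hermitian.comp (continuous_apply i)
      | mul q r hq hr => simp only [map_mul]; exact hq.matrix_mul hr
      | add q r hq hr => simp only [map_add]; exact hq.add hr
    have hco : Continuous (Lower.coords : Matrix (Fin k) (Fin k) ℂ → Fin k → Fin k → ℝ) := by
      refine continuous_pi fun a => continuous_pi fun b => ?_
      unfold Lower.coords
      split_ifs <;> fun_prop
    exact hco.comp (hcont (p w))
  set N : ℕ := k * k with hN
  -- the weight that dominates the microstates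
  let F : (Fin 2 ⊕ W → Fin k → Fin k → ℝ) → ℝ≥0∞ := fun x => ENNReal.ofReal
    ((∏ i, gw (s (Sum.inl i)) (x (Sum.inl i))) *
      ∏ w, gw (s (Sum.inr w)) (x (Sum.inr w) - z (fun i => x (Sum.inl i)) w))
  set E : ℝ := Real.exp ((n : ℝ) / 2 * N) with hE
  set Γ := microstates Ω (fun j => X (e j)) R m k δ with hΓ
  have hpc := volume_measurePreserving_piCongrLeft (fun _ : Fin 2 ⊕ W => Fin k → Fin k → ℝ) e
  have hdom : ∀ y ∈ Γ, 1 ≤ ENNReal.ofReal E *
      F (MeasurableEquiv.piCongrLeft (fun _ : Fin 2 ⊕ W => Fin k → Fin k → ℝ) e y) := by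
    intro y hy
    set x := MeasurableEquiv.piCongrLeft (fun _ : Fin 2 ⊕ W => Fin k → Fin k → ℝ) e y with hx
    have hxy : ∀ j, x (e j) = y j := by
      intro j
      simp [hx, MeasurableEquiv.piCongrLeft]
    set A : Fin 2 ⊕ W → Matrix (Fin k) (Fin k) ℂ := fun j => hermitian (x j) with hA
    have hclose : ∀ j, ‖(k : ℂ)⁻¹ * (FreeAlgebra.lift ℂ A (P j)).trace -
        trace Ω (FreeAlgebra.lift ℂ X (P j))‖ ≤ K j * δ := by
      intro j
      refine hKD j k A δ fun w hw => ?_
      rcases List.eq_nil_or_concat w with rfl | ⟨w', a, hwa⟩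
      · have hk' : (k : ℂ) ≠ 0 := by exact_mod_cast (by omega : k ≠ 0)
        simp [trace, inner_self_eq_norm_sq_to_K, hΩ, hk', hδ0.le]
      · have hlen : 1 ≤ (w.map e.symm).length := by simp [hwa]
        have hlen' : (w.map e.symm).length ≤ m := by
          rw [List.length_map, hm]
          have := Finset.single_le_sum (fun j _ => Nat.zero_le (D j)) (Finset.mem_univ j)
          omega
        have h := hy.2 (w.map e.symm) hlen hlen'
        rw [monomial, List.map_map, List.map_map] at h
        have e1 : (w.map ((fun j => hermitian (y j)) ∘ e.symm)) = w.map A :=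
          List.map_congr_left fun a _ => by simp [hA, ← hxy]
        have e2 : (w.map ((fun j => X (e j)) ∘ e.symm)) = w.map X :=
          List.map_congr_left fun a _ => by simp
        rw [e1, e2] at h
        exact h.le
    -- the residual of each coordinate
    let q : Fin 2 ⊕ W → ℝ := Sum.elim (fun i => sqSum (x (Sum.inl i)))
      (fun w => sqSum (x (Sum.inr w) - z (fun i => x (Sum.inl i)) w))
    have hq : ∀ j, (FreeAlgebra.lift ℂ A (P j)).trace = (q j : ℂ) := by
      rintro (i | w)
      · simp only [P, q, Sum.elim_inl, map_mul, FreeAlgebra.lift_ι_apply, hA]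
        exact trace_hermitian_sq _
      · simp only [P, q, Sum.elim_inr, map_mul, map_sub, FreeAlgebra.lift_ι_apply, hlift, hA]
        exact trace_sq_sub _ (hp w k _ fun i => Lower.hermitian_isHermitian _)
    have hqle : ∀ j, q j ≤ (d j + η) * k := by
      intro j
      have h1 := (Complex.re_le_norm _).trans (hclose j)
      have hKle : K j * δ ≤ η := by
        calc K j * δ ≤ (1 + ∑ j, K j) * δ := mul_le_mul_of_nonneg_right
              (by linarith [Finset.single_le_sum (fun j _ => hK j) (Finset.mem_univ j)]) hδ0.le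
          _ = η := by rw [hδ]; field_simp
      rw [hq, Complex.sub_re, ← Complex.ofReal_natCast, ← Complex.ofReal_inv,
        ← Complex.ofReal_mul, Complex.ofReal_re] at h1
      have h2 : (k : ℝ)⁻¹ * q j ≤ d j + η := by linarith [hd' j]
      calc q j = k * ((k : ℝ)⁻¹ * q j) := by field_simp
        _ ≤ k * (d j + η) := mul_le_mul_of_nonneg_left h2 hk0.le
        _ = (d j + η) * k := mul_comm _ _
    show 1 ≤ ENNReal.ofReal E * F x
    rw [← ENNReal.ofReal_mul (Real.exp_pos _).le, ← ENNReal.ofReal_one]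
    refine ENNReal.ofReal_le_ofReal ?_
    simp only [gw_eq, ← Real.exp_sum, ← Real.exp_add]
    refine Real.one_le_exp ?_
    have hcard : (n : ℝ) = ∑ _j : Fin 2 ⊕ W, (1 : ℝ) := by
      rw [Finset.sum_const, Finset.card_univ, ← Fintype.card_congr e, Fintype.card_fin]
      simp
    have hge : ∀ j, -((N : ℝ) / 2) ≤ -(1 / (2 * s j)) * q j := by
      intro j
      rw [neg_mul, neg_le_neg_iff, hs, hN]
      push_cast
      rw [div_mul_eq_mul_div, div_le_div_iff₀ (by have := hd j; positivity) two_pos]
      have := hqle j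
      have hk2 : (k : ℝ) * k * (2 * ((d j + η) / k)) = 2 * ((d j + η) * k) := by field_simp
      linarith
    have hsum' : -((n : ℝ) / 2 * N) ≤ ∑ j, -(1 / (2 * s j)) * q j := by
      refine le_trans (le_of_eq ?_) (Finset.sum_le_sum fun j _ => hge j)
      rw [hcard, Finset.sum_div, Finset.sum_mul, ← Finset.sum_neg_distrib]
      exact Finset.sum_congr rfl fun j _ => by ring
    rw [Fintype.sum_sum_type] at hsum'
    simp only [q, Sum.elim_inl, Sum.elim_inr] at hsum'
    linarith
  have hvol : volume Γ ≤ ENNReal.ofReal (E * ∏ j, Real.sqrt (2 * Real.pi * s j) ^ (k * k)) := by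
    calc volume Γ ≤ volume {y | 1 ≤ ENNReal.ofReal E *
          F (MeasurableEquiv.piCongrLeft (fun _ : Fin 2 ⊕ W => Fin k → Fin k → ℝ) e y)} :=
          measure_mono hdom
      _ ≤ ∫⁻ y, ENNReal.ofReal E *
          F (MeasurableEquiv.piCongrLeft (fun _ : Fin 2 ⊕ W => Fin k → Fin k → ℝ) e y) := by
          refine le_trans (le_of_eq (one_mul _).symm) (mul_meas_ge_le_lintegral₀ ?_ 1)
          have hF : Measurable F := by
            refine Measurable.ennreal_ofReal (Measurable.mul (Finset.measurable_prod _ fun i _ => ?_)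
              (Finset.measurable_prod _ fun w _ => ?_))
            · exact (measurable_gw _).comp (measurable_pi_apply _)
            · exact (measurable_gw _).comp ((measurable_pi_apply _).sub ((measurable_pi_apply w).comp
                (hz.comp (measurable_pi_lambda _ fun i => measurable_pi_apply _))))
          exact ((hF.comp (MeasurableEquiv.measurable _)).const_mul _).aemeasurable
      _ = _ := by
          rw [lintegral_const_mul' _ _ ENNReal.ofReal_ne_top,
            hpc.lintegral_comp_emb (MeasurableEquiv.measurableEmbedding _) F,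
            lintegral_triangular s hs0 z hz, ← ENNReal.ofReal_mul (Real.exp_pos _).le]
  have hposE : 0 < E * ∏ j, Real.sqrt (2 * Real.pi * s j) ^ (k * k) :=
    mul_pos (Real.exp_pos _) (Finset.prod_pos fun j _ => by have := hs0 j; positivity)
  have hlog := ENNReal.log_monotone hvol
  rw [ENNReal.log_ofReal_of_pos hposE] at hlog
  have hinv : (0 : EReal) ≤ ((((k : ℝ) ^ 2)⁻¹ : ℝ) : EReal) :=
    EReal.coe_nonneg.2 (by positivity)
  refine le_trans (add_le_add (mul_le_mul_of_nonneg_left hlog hinv) le_rfl) ?_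
  rw [← EReal.coe_mul, ← EReal.coe_add, EReal.coe_le_coe_iff]
  refine le_of_eq ?_
  rw [Real.log_mul (Real.exp_pos _).ne'
      (Finset.prod_pos fun j _ => by have := hs0 j; positivity).ne', Real.log_exp,
    Real.log_prod fun j _ => by have := hs0 j; positivity]
  have hl : ∀ j, Real.log (Real.sqrt (2 * Real.pi * s j) ^ (k * k)) =
      ((k : ℝ) * k) * ((Real.log (2 * Real.pi) + Real.log (d j + η) - Real.log k) / 2) := by
    intro j
    have := hd j
    rw [Real.log_pow, Real.log_sqrt (by have := hs0 j; positivity), hs,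
      Real.log_mul (by positivity) (by positivity), Real.log_div (by positivity) hk0.ne']
    push_cast
    ring
  rw [Finset.sum_congr rfl fun j _ => hl j, ← Finset.mul_sum]
  have hcardn : (Fintype.card (Fin 2 ⊕ W) : ℝ) = n := by
    rw [← Fintype.card_congr e, Fintype.card_fin]
  simp only [add_div, sub_div, Finset.sum_add_distrib, Finset.sum_sub_distrib, Finset.sum_const,
    Finset.card_univ, nsmul_eq_mul, hcardn, ← Finset.sum_div]
  rw [Real.log_mul (by positivity) (Real.exp_pos 1).ne', Real.log_exp, hN]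
  push_cast
  field_simp
  ring

end

end Upper

end Vale.Agent.P087
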