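import Vale.Agent.P087.Model

/-!
# P087: assembly of the counterexample from the modules
-/

open scoped InnerProductSpace ENNReal
open Filter

namespace Vale.Agent.P087

noncomputable section

/-- The size parameter. -/
theorem exists_size : ∃ M : ℕ, 1 ≤ M ∧
    50 * (M : ℝ) * (64 * (2 ^ 26 * (32 + (4 * (M : ℝ) + 4) ^ 2 * 2 ^ M))) < 4 ^ M := by
  have h := tendsto_pow_const_mul_const_pow_of_abs_lt_one 3 (r := (1 / 2 : ℝ))
    (by norm_num [abs_lt])
  obtain ⟨M, hM, hM1⟩ := ((h.eventually (gt_mem_nhds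
    (show (0 : ℝ) < 1 / (50 * 64 * 2 ^ 26 * 100) by positivity))).and (eventually_ge_atTop 1)).exists
  refine ⟨M, hM1, ?_⟩
  have hMR : (1 : ℝ) ≤ M := by exact_mod_cast hM1
  have hp : (1 : ℝ) ≤ 2 ^ M := one_le_pow₀ (by norm_num)
  have hs : 32 + (4 * (M : ℝ) + 4) ^ 2 * 2 ^ M ≤ 100 * (M : ℝ) ^ 2 * 2 ^ M := by
    have h2 : (4 * (M : ℝ) + 4) ^ 2 ≤ 64 * (M : ℝ) ^ 2 := by nlinarith
    have h3 : (1 : ℝ) ≤ (M : ℝ) ^ 2 := one_le_pow₀ hMR
    nlinarith [mul_le_mul_of_nonneg_right h2 (by positivity : (0 : ℝ) ≤ 2 ^ M)]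
  have h4 : (4 : ℝ) ^ M = 2 ^ M * 2 ^ M := by rw [← mul_pow]; norm_num
  rw [div_pow, one_pow, mul_one_div, div_lt_div_iff₀ (by positivity) (by positivity), one_mul] at hM
  calc 50 * (M : ℝ) * (64 * (2 ^ 26 * (32 + (4 * (M : ℝ) + 4) ^ 2 * 2 ^ M)))
      ≤ 50 * (M : ℝ) * (64 * (2 ^ 26 * (100 * (M : ℝ) ^ 2 * 2 ^ M))) := by gcongr
    _ = ((M : ℝ) ^ 3 * (50 * 64 * 2 ^ 26 * 100)) * 2 ^ M := by ring
    _ < 2 ^ M * 2 ^ M := by gcongr
    _ = 4 ^ M := h4.symm

/-- The gain of the nonmicrostates entropy on `[T,2T]`. -/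
theorem gain_aux {T t N0 : ℝ} (hT : 2 ≤ T) (ht : T ≤ t) (ht2 : t ≤ 2 * T)
    (hN : T ≤ N0) :
    N0 / (2 + t) + (1 / 64) ^ 2 / t ≤ N0 / (1 + t) - N0 / (32 * T ^ 2) := by
  have h1 : 0 < 1 + t := by linarith
  have h2 : 0 < 2 + t := by linarith
  have hN0 : 0 ≤ N0 := by linarith
  have e : N0 / (1 + t) - N0 / (2 + t) = N0 / ((1 + t) * (2 + t)) := by
    field_simp
    ring
  have hd : N0 / (9 * T ^ 2) ≤ N0 / ((1 + t) * (2 + t)) := by
    refine div_le_div_of_nonneg_left hN0 (by positivity) ?_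
    nlinarith
  have hδ : (1 / 64 : ℝ) ^ 2 / t ≤ N0 / (4096 * T ^ 2) := by
    calc (1 / 64 : ℝ) ^ 2 / t ≤ (1 / 4096) / T := by
          norm_num; gcongr
      _ = T / (4096 * T ^ 2) := by field_simp
      _ ≤ N0 / (4096 * T ^ 2) := by gcongr
  have : N0 / (4096 * T ^ 2) + N0 / (32 * T ^ 2) ≤ N0 / (9 * T ^ 2) := by
    rw [div_add_div _ _ (by positivity) (by positivity),
      div_le_div_iff₀ (by positivity) (by positivity)]
    nlinarith [mul_nonneg hN0 (pow_nonneg (show (0 : ℝ) ≤ T by linarith) 4)]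
  linarith

theorem counterexample_of (hR : RealisationStatement) (hB : BridgeStatement)
    (hC : ConjugateStatement) (hMo : MomentStatement) (hLo : LowerStatement)
    (hU : UpperStatement) : Counterexample := by
  obtain ⟨M, hM1, hMbig⟩ := exists_size
  have hL : 1 ≤ 2 * M := by omega
  set ε : ℝ := (1 / 36) ^ (5 * M + 1) with hεdef
  have hε : 0 < ε := by positivity
  have hε1 : ε ≤ 1 := pow_le_one₀ (by norm_num) (by norm_num)
  have hεabs : |ε| ≤ 1 := by rwa [abs_of_pos hε]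
  set σ2 : ℝ := 32 + (4 * (M : ℝ) + 4) ^ 2 * 2 ^ M with hσ2
  set T : ℝ := 2 ^ 26 * σ2 with hTdef
  have hσ21 : 1 ≤ σ2 := by
    have : 0 ≤ (4 * (M : ℝ) + 4) ^ 2 * 2 ^ M := by positivity
    rw [hσ2]; linarith
  have hT2 : 2 ≤ T := by rw [hTdef]; norm_num; linarith
  set N0 : ℝ := 4 ^ M with hN0
  have hN0pos : 0 < N0 := by positivity
  have hMR : (1 : ℝ) ≤ M := by exact_mod_cast hM1
  have hbig : 50 * (M : ℝ) * (64 * T) < N0 := hMbig
  have hNT : T ≤ N0 := by nlinarith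
  obtain ⟨H, i1, i2, i3, Mvn, Ω, s, emb, hM, hs, hvac, hadd, hsmul, hinner, hact, hcat, hfree⟩ :=
    hR (Letter (2 * M))
  subst hvac
  let E : FockEmbedding (Letter (2 * M)) H := ⟨emb, hadd, hsmul, hinner⟩
  have hrel : ∀ a, E.Rel (s a) (semi a) := hact
  set n : ℕ := Fintype.card (Idx (2 * M)) with hn
  set e : Fin n ≃ Idx (2 * M) := (Fintype.equivFin (Idx (2 * M))).symm
  have hncast : (n : ℝ) = 2 + N0 := by rw [hn, hN0, card_idx]
  refine ⟨H, i1, i2, i3, Mvn, emb vac, n, fun j => tuple s (ε : ℂ) (e j),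
    fun j => s (heat (e j)), Fintype.card_pos, hM,
    fun j => tuple_mem_selfAdjoint Mvn s hs ε _, fun j => hs _,
    ⟨fun j p => hcat _ p, ?_⟩, ?_, ?_, ?_⟩
  · refine isFreeFamily_mono (hfree (Fin n) (fun j => {heat (e j)}) ?_) fun j => ?_
    · intro i j hij
      simpa [heat] using hij
    · rw [Set.image_singleton]
  · refine isFreeFamily_mono
      (hfree Bool (fun b => if b then baseLetters (2 * M) else Set.range heat) ?_) fun b => ?_
    · have hd : Disjoint (baseLetters (2 * M))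
          (Set.range (heat : Idx (2 * M) → Letter (2 * M))) := by
        rw [Set.disjoint_left]
        rintro a (⟨i, rfl⟩ | ⟨i, rfl⟩) ⟨j, hj⟩ <;> simp [heat, noise, latent] at hj
      intro b b' hbb
      cases b <;> cases b' <;> first
        | exact absurd rfl hbb
        | simpa using hd
        | simpa using hd.symm
    · cases b
      · simp only [Bool.false_eq_true, if_false]
        refine Algebra.adjoin_le ?_
        rintro _ ⟨j, rfl⟩
        exact Algebra.subset_adjoin ⟨heat (e j), ⟨_, rfl⟩, rfl⟩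
      · simp only [if_true]
        refine Algebra.adjoin_le ?_
        rintro _ ⟨j, rfl⟩
        set A := Algebra.adjoin ℂ (s '' baseLetters (2 * M))
        have hl : ∀ i, s (latent i) ∈ A := fun i =>
          Algebra.subset_adjoin ⟨_, Or.inl ⟨i, rfl⟩, rfl⟩
        have hg : ∀ i, s (noise i) ∈ A := fun i =>
          Algebra.subset_adjoin ⟨_, Or.inr ⟨i, rfl⟩, rfl⟩
        show tuple s (ε : ℂ) (e j) ∈ A
        rcases e j with i | w
        · exact add_mem (hl i) (A.smul_mem (hg _) _)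
        · exact add_mem (wickOf_mem A _ hl _) (hg _)
  · exact hLo H (emb vac) (2 * M) n s e ε
      (fun w => (FockEmbedding.Rel.list_prod hrel w).trace_eq (E := E)) hε
  have hupper := chi_tuple_le (E := E) hU hL hM hs hrel hεabs e
  have hlow : (((1 / 2 : ℝ) * (T * (N0 / (32 * T ^ 2)) - 2 * -Real.log (ε ^ 2)) +
      (n : ℝ) / 2 * Real.log (2 * Real.pi * Real.exp 1) : ℝ) : EReal) ≤
        chiStar (emb vac) (fun j => tuple s (ε : ℂ) (e j)) (fun j => s (heat (e j))) := by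
    refine le_chiStar (sq_pos_of_pos hε) (pow_le_one₀ hε.le hε1) (by norm_num) (by linarith)
      (by positivity) ?_ ?_ ?_
    · intro t ht
      refine (fisher_le_candidate (E := E) hrel hε e ht).trans (ENNReal.ofReal_le_ofReal ?_)
      rw [hncast, hN0, ← card_code]
      simp only [Fintype.sum_sum_type, noiseAmplitude, Sum.elim_inl, Sum.elim_inr,
        Finset.sum_const, Finset.card_univ, Fintype.card_fin, nsmul_eq_mul]
      refine le_of_eq ?_
      ring
    · intro t ht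
      have h1 : 0 < 1 + t := by linarith [ht.1]
      rw [hncast, div_le_div_iff₀ (by positivity) h1]
      calc N0 * (1 + t) ≤ N0 * (32 * T ^ 2) := by
            refine mul_le_mul_of_nonneg_left ?_ hN0pos.le
            nlinarith [ht.2]
        _ ≤ (2 + N0) * (32 * T ^ 2) := by gcongr; linarith
    · intro t ht
      have hσ : (Real.sqrt σ2) ^ 2 = σ2 := Real.sq_sqrt (by linarith)
      have hT' : (2 ^ 13 * Real.sqrt σ2) ^ 2 ≤ t := by
        rw [mul_pow, hσ, ← pow_mul]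
        exact ht.1
      refine (fisher_le_near (E := E) hB hC hL hM hs hrel (Real.one_le_sqrt.mpr hσ21)
        (fun k => by rw [pow_mul, hσ]; exact hMo M ε hεabs k) e hT').trans
        (ENNReal.ofReal_le_ofReal ?_)
      simp only [Fintype.sum_sum_type, variance, Finset.sum_const, Finset.card_univ,
        Fintype.card_fin, nsmul_eq_mul]
      rw [card_code, ← hN0, hncast]
      have hg := gain_aux hT2 ht.1 ht.2 hNT
      have ht0 : 0 ≤ t := by linarith [ht.1]
      have hi : (2 : ℝ) * (1 / (1 + ε ^ 2 + t)) ≤ 2 / (1 + t) := by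
        rw [mul_one_div]; gcongr; nlinarith
      push_cast
      rw [mul_one_div N0, add_div]
      linarith
  refine lt_of_le_of_lt hupper (lt_of_lt_of_le ?_ hlow)
  rw [EReal.coe_lt_coe_iff, card_code, ← hN0]
  have hlog36 : Real.log 36 < 4 := by
    rw [Real.log_lt_iff_lt_exp (by norm_num)]
    calc (36 : ℝ) < 2.7182818283 ^ (4 : ℕ) := by norm_num
      _ < Real.exp 1 ^ (4 : ℕ) := by gcongr; exact Real.exp_one_gt_d9
      _ = Real.exp 4 := by rw [← Real.exp_nat_mul]; norm_num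
  have hlogε : -Real.log (ε ^ 2) = 2 * ((5 * M + 1 : ℕ) : ℝ) * Real.log 36 := by
    rw [hεdef, ← pow_mul, Real.log_pow, one_div, Real.log_inv]
    push_cast
    ring
  set δ : ℝ := ε ^ 2 * 36 ^ (2 * (2 * M) + 1) with hδ
  have hδ0 : 0 ≤ δ := by positivity
  have hδN : N0 * δ ≤ 1 := by
    have e1 : δ * N0 = (36 : ℝ)⁻¹ ^ (6 * M + 1) * 4 ^ M := by
      rw [hδ, hεdef, hN0, one_div, ← pow_mul]
      have : (5 * M + 1) * 2 = (6 * M + 1) + (2 * (2 * M) + 1) := by ring
      rw [this, pow_add, mul_assoc _ ((36 : ℝ)⁻¹ ^ (2 * (2 * M) + 1)), ← mul_pow,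
        inv_mul_cancel₀ (by norm_num), one_pow, mul_one]
    rw [mul_comm, e1, inv_pow, inv_mul_le_iff₀ (by positivity), mul_one]
    calc (4 : ℝ) ^ M ≤ 36 ^ M := pow_le_pow_left₀ (by norm_num) (by norm_num) M
      _ ≤ 36 ^ (6 * M + 1) := pow_le_pow_right₀ (by norm_num) (by omega)
  have h1 : Real.log (1 + ε ^ 2) ≤ 1 :=
    (Real.log_le_sub_one_of_pos (by positivity)).trans
      (by linarith [pow_le_one₀ hε.le hε1 (n := 2)])
  have h2 : N0 * Real.log (1 + δ) ≤ N0 * δ :=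
    mul_le_mul_of_nonneg_left
      (by linarith [Real.log_le_sub_one_of_pos (show (0 : ℝ) < 1 + δ by linarith)]) hN0pos.le
  have hgain : T * (N0 / (32 * T ^ 2)) = N0 / (32 * T) := by field_simp
  have h50 : 100 * (M : ℝ) < N0 / (32 * T) := by
    rw [lt_div_iff₀ (by positivity)]; linarith
  have hl : 2 * ((5 * M + 1 : ℕ) : ℝ) * Real.log 36 ≤ 48 * (M : ℝ) := by
    push_cast
    calc 2 * (5 * (M : ℝ) + 1) * Real.log 36 ≤ 2 * (5 * (M : ℝ) + 1) * 4 := by gcongr
      _ ≤ 48 * (M : ℝ) := by linarith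
  rw [hgain, hlogε]
  linarith

end

end Vale.Agent.P087
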