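import Vale.Agent.P087.BridgeBasic

/-!
# P087, module Bridge: cumulant bounds and the intertwiner
-/

namespace Vale.Agent.P087

noncomputable section

namespace Bridge

variable {ι J : Type} (X : J → FckOp ι)

/-- Appell word. -/
def W (u : List J) : FckOp ι := appell vacState X u

/-- Cumulant. -/
def kap (i : J) (u : List J) : ℝ := cumulant vacState X i u

/-- Appell vector. -/
def Wv (u : List J) : Fck ι := W X u vac

lemma W_nil : W X [] = 1 := by rw [W, appell]

lemma W_cons (i : J) (w : List J) :
    W X (i :: w) = X i * W X w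
      - ∑ r ∈ Finset.range (w.length + 1), kap X i (w.take r) • W X (w.drop r) := by
  rw [W, appell, ← Fin.sum_univ_eq_sum_range fun r => kap X i (w.take r) • W X (w.drop r)]
  rfl

lemma kap_eq (i : J) (u : List J) : kap X i u = vacState (X i * W X u) := rfl

lemma vacState_sub (A B : FckOp ι) : vacState (A - B) = vacState A - vacState B := rfl

lemma op_sub_mul (A B C : FckOp ι) : (A - B) * C = A * C - B * C := LinearMap.ext fun _ => rfl

lemma op_sub_eq (A B : FckOp ι) : A - B = A + (-1 : ℝ) • B :=
  LinearMap.ext fun x => by simp [sub_eq_add_neg]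

lemma vacState_one : vacState (1 : FckOp ι) = 1 := by
  show ((1 : FckOp ι) vac) [] = 1
  simp [vac]

lemma kap_nil (h1 : ∀ j, vacState (X j) = 0) (i : J) : kap X i [] = 0 := by
  rw [kap_eq, W_nil, mul_one, h1]

lemma W_single (h1 : ∀ j, vacState (X j) = 0) (j : J) : W X [j] = X j := by
  rw [W_cons]
  refine LinearMap.ext fun x => ?_
  simp [kap_nil X h1, W_nil]

lemma vacState_W : ∀ (n : ℕ) (u : List J), u.length ≤ n → u ≠ [] → vacState (W X u) = 0
  | 0, u, h, hne => absurd (List.length_eq_zero_iff.1 (Nat.le_zero.1 h)) hne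
  | _ + 1, [], _, hne => absurd rfl hne
  | n + 1, i :: w, h, _ => by
      rw [W_cons, vacState_sub, map_sum, Finset.sum_range_succ]
      have : ∑ r ∈ Finset.range w.length, vacState (kap X i (w.take r) • W X (w.drop r)) = 0 := by
        refine Finset.sum_eq_zero fun r hr => ?_
        have hr' := Finset.mem_range.1 hr
        rw [map_smul, vacState_W n (w.drop r)]
        · simp
        · simp only [List.length_cons] at h
          simp only [List.length_drop]
          omega
        · simp only [ne_eq, List.drop_eq_nil_iff, not_le]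
          exact hr'
      rw [this]
      simp [W_nil, vacState_one, kap_eq]

lemma vacState_W_eq (u : List J) : vacState (W X u) = if u = [] then 1 else 0 := by
  split_ifs with h
  · subst h; rw [W_nil, vacState_one]
  · exact vacState_W X _ u le_rfl h

lemma Wv_nil : Wv X [] = vac := by simp [Wv, W_nil]

lemma Wv_apply_nil (u : List J) : Wv X u [] = if u = [] then 1 else 0 := vacState_W_eq X u

lemma X_Wv (i : J) (u : List J) :
    X i (Wv X u) = Wv X (i :: u)
      + ∑ r ∈ Finset.range (u.length + 1), kap X i (u.take r) • Wv X (u.drop r) := by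
  simp [Wv, W_cons, LinearMap.sum_apply]

lemma supportedOn_Wv {P : Set ι} (hP : ∀ j x, SupportedOn P x → SupportedOn P (X j x)) :
    ∀ (n : ℕ) (u : List J), u.length ≤ n → SupportedOn P (Wv X u)
  | _, [], _ => by rw [Wv_nil]; exact supportedOn_vac P
  | 0, _ :: _, h => by simp at h
  | n + 1, i :: w, h => by
      have h' : w.length ≤ n := by simpa using h
      have he := X_Wv X i w
      rw [← sub_eq_iff_eq_add] at he
      rw [← he, sub_eq_add_neg, ← neg_one_smul ℝ]
      refine supportedOn_add (hP i _ (supportedOn_Wv hP n w h')) (supportedOn_smul _ ?_)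
      exact Finset.sum_induction _ (SupportedOn P) (fun _ _ => supportedOn_add) (supportedOn_zero P)
        fun r _ => supportedOn_smul _ (supportedOn_Wv hP n _ (by rw [List.length_drop]; omega))

lemma W_mem_span : ∀ (n : ℕ) (u : List J), u.length ≤ n →
    W X u ∈ Submodule.span ℝ (Set.range (opProd X))
  | _, [], _ => Submodule.subset_span ⟨[], by simp [opProd, W_nil]⟩
  | 0, _ :: _, h => by simp at h
  | n + 1, i :: w, h => by
      have h' : w.length ≤ n := by simpa using h
      rw [W_cons]
      have hS : (∑ r ∈ Finset.range (w.length + 1), kap X i (w.take r) • W X (w.drop r))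
          ∈ Submodule.span ℝ (Set.range (opProd X)) := Submodule.sum_mem _ fun r _ =>
        Submodule.smul_mem _ _ (W_mem_span n (w.drop r) (by rw [List.length_drop]; omega))
      rw [op_sub_eq]
      refine Submodule.add_mem _ ?_ (Submodule.smul_mem _ _ hS)
      have := Submodule.mem_map_of_mem (f := LinearMap.mulLeft ℝ (X i)) (W_mem_span n w h')
      rw [Submodule.map_span] at this
      refine Submodule.span_mono ?_ this
      rintro _ ⟨_, ⟨v, rfl⟩, rfl⟩
      exact ⟨i :: v, rfl⟩

section Moments

variable (htr : ∀ i w, vacState (X i * opProd X w) = vacState (opProd X w * X i))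
include htr

lemma trace_W (i : J) (u w : List J) :
    vacState (X i * (W X u * opProd X w)) = vacState (W X u * opProd X (w ++ [i])) := by
  have hw : opProd X (w ++ [i]) = opProd X w * X i := by simp [opProd]
  rw [hw, ← mul_assoc]
  have hmem := W_mem_span X _ u le_rfl
  revert hmem
  generalize W X u = B
  intro hmem
  induction hmem using Submodule.span_induction with
  | mem x hx =>
      obtain ⟨v, rfl⟩ := hx
      rw [mul_assoc, ← show opProd X (v ++ w) = opProd X v * opProd X w by simp [opProd], htr]
      simp [opProd, mul_assoc]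
  | zero => simp
  | add x y _ _ hx hy => simp only [mul_add, add_mul, map_add, hx, hy]
  | smul a x _ hx => simp only [mul_smul_comm, smul_mul_assoc, map_smul, hx]

lemma moment_cons (h1 : ∀ j, vacState (X j) = 0) (i : J) (u w : List J) :
    vacState (W X (i :: u) * opProd X w) = vacState (W X u * opProd X (w ++ [i]))
      - ∑ r ∈ Finset.range u.length,
          kap X i (u.take (r + 1)) * vacState (W X (u.drop (r + 1)) * opProd X w) := by
  rw [W_cons, op_sub_mul, vacState_sub, mul_assoc, trace_W X htr, Finset.sum_mul, map_sum,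
    Finset.sum_range_succ']
  simp only [smul_mul_assoc, map_smul, smul_eq_mul, List.take_zero, kap_nil X h1, zero_mul,
    add_zero]

end Moments

section Estimates

variable [Fintype J]

/-- `A(k,l)`. -/
def mA (k l : ℕ) : ℝ :=
  Real.sqrt (wsum k fun u => wsum l fun w => vacState (W X u * opProd X w) ^ 2)

/-- `K_r`. -/
def mK (r : ℕ) : ℝ := Real.sqrt (∑ i, wsum r fun u => kap X i u ^ 2)

/-- `G(a,b)`. -/
def mG (a b : ℕ) : ℝ :=
  Real.sqrt (wsum a fun u => wsum b fun p => dot (Wv X u) (Wv X p) ^ 2)

variable {X}
variable (h1 : ∀ j, vacState (X j) = 0)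
  (htr : ∀ i w, vacState (X i * opProd X w) = vacState (opProd X w * X i))
include h1 htr

lemma mK_eq (r : ℕ) : mK X r = mA X r 1 := by
  unfold mK mA
  congr 1
  simp only [wsum_one]
  rw [wsum_sum]
  refine Finset.sum_congr rfl fun i _ => wsum_congr fun u _ => ?_
  rw [kap_eq, show W X u = W X u * opProd X [] by simp [opProd], trace_W X htr]
  simp [opProd]

lemma mA_succ (k l : ℕ) :
    mA X (k + 1) l ≤ mA X k (l + 1)
      + ∑ r ∈ Finset.range k, mK X (r + 1) * mA X (k - (r + 1)) l := by
  unfold mA
  rw [wsum_succ]
  have hexp : ∀ i, (wsum k fun u => wsum l fun w => vacState (W X (i :: u) * opProd X w) ^ 2)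
      = wsum k fun u => wsum l fun w => (vacState (W X u * opProd X (w ++ [i]))
        - ∑ r ∈ Finset.range k,
          kap X i (u.take (r + 1)) * vacState (W X (u.drop (r + 1)) * opProd X w)) ^ 2 := by
    intro i
    refine wsum_congr fun u hu => wsum_congr fun w _ => ?_
    rw [moment_cons X htr h1, hu]
  simp only [hexp]
  have hM := (sqrt_sum_sub_sq_le (α := J × (Fin k → J) × (Fin l → J))
    (fun x => vacState (W X (List.ofFn x.2.1) * opProd X (List.ofFn x.2.2 ++ [x.1])))
    (fun x => ∑ r ∈ Finset.range k, kap X x.1 ((List.ofFn x.2.1).take (r + 1))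
      * vacState (W X ((List.ofFn x.2.1).drop (r + 1)) * opProd X (List.ofFn x.2.2)))).trans
    (add_le_add le_rfl (sqrt_sum_sum_sq_le _ _))
  simp only [Fintype.sum_prod_type] at hM
  refine hM.trans (le_of_eq ?_)
  congr 1
  · congr 1
    rw [Finset.sum_comm]
    refine wsum_congr (f := fun u => ∑ i, wsum l fun w =>
      vacState (W X u * opProd X (w ++ [i])) ^ 2) fun u _ => ?_
    rw [wsum_add l 1]
    simp only [wsum_one]
    rw [wsum_sum]
  · refine Finset.sum_congr rfl fun r hr => ?_
    have hrk : r + 1 ≤ k := Finset.mem_range.1 hr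
    unfold mK
    rw [← Real.sqrt_mul (Finset.sum_nonneg fun i _ => wsum_nonneg fun u => sq_nonneg _),
      Finset.sum_mul]
    congr 1
    refine Finset.sum_congr rfl fun i _ => ?_
    rw [← wsum_split_mul hrk (fun a => kap X i a ^ 2)
      (fun b => wsum l fun w => vacState (W X b * opProd X w) ^ 2)]
    simp only [wsum, Finset.mul_sum, mul_pow]

variable {σ : ℝ} (hσ : 1 ≤ σ)
  (hmom : ∀ k, ∑ w : Fin k → J, (vacState (opProd X (List.ofFn w))) ^ 2 ≤ σ ^ (2 * k))
include hσ hmom

lemma mA_le : ∀ k l, mA X k l ≤ catalan k * σ ^ (k + l) := by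
  intro k
  induction k using Nat.strong_induction_on with
  | _ k ih =>
    intro l
    match k with
    | 0 =>
      rw [catalan_zero, Nat.cast_one, one_mul, zero_add, mA, wsum_zero, W_nil]
      refine (Real.sqrt_le_left (by positivity)).2 ?_
      simpa [wsum, ← pow_mul, mul_comm l 2] using hmom l
    | k + 1 =>
      refine (mA_succ h1 htr k l).trans ?_
      have hC : (catalan (k + 1) : ℝ) = catalan k
          + ∑ r ∈ Finset.range k, (catalan (r + 1) : ℝ) * catalan (k - (r + 1)) := by
        rw [catalan_succ, Fin.sum_univ_eq_sum_range fun i => catalan i * catalan (k - i),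
          Finset.sum_range_succ', catalan_zero]
        push_cast
        simp [add_comm]
      rw [hC, add_mul, Finset.sum_mul]
      refine add_le_add ((ih k (by omega) (l + 1)).trans_eq (by ring_nf)) ?_
      refine Finset.sum_le_sum fun r hr => ?_
      have hrk : r + 1 ≤ k := Finset.mem_range.1 hr
      rw [mK_eq h1 htr]
      refine (mul_le_mul (ih (r + 1) (by omega) 1) (ih (k - (r + 1)) (by omega) l)
        (Real.sqrt_nonneg _) (by positivity)).trans_eq ?_
      rw [mul_mul_mul_comm, ← pow_add]
      congr 2
      omega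

lemma mK_le (r : ℕ) : mK X r ≤ 4 ^ r * σ ^ (r + 1) := by
  rw [mK_eq h1 htr]
  refine (mA_le h1 htr hσ hmom r 1).trans (mul_le_mul_of_nonneg_right ?_ (by positivity))
  have hcat : catalan r ≤ 4 ^ r := by
    rw [catalan_eq_centralBinom_div]
    refine (Nat.div_le_self _ _).trans ?_
    rw [Nat.centralBinom_eq_two_mul_choose, show (4 : ℕ) ^ r = 2 ^ (2 * r) by rw [pow_mul]; norm_num]
    exact Nat.choose_le_two_pow _ _
  exact_mod_cast hcat

omit h1 htr hσ hmom

lemma dot_cons (hsym : ∀ j x y, dot (X j x) y = dot x (X j y)) (i : J) (u p : List J) :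
    dot (Wv X (i :: u)) (Wv X p) = dot (Wv X u) (Wv X (i :: p))
      + ∑ r ∈ Finset.range (p.length + 1), kap X i (p.take r) * dot (Wv X u) (Wv X (p.drop r))
      - ∑ r ∈ Finset.range (u.length + 1),
          kap X i (u.take r) * dot (Wv X (u.drop r)) (Wv X p) := by
  have he := X_Wv X i u
  rw [← sub_eq_iff_eq_add] at he
  rw [← he, dot_sub_left, hsym, X_Wv, dot_add_right, dot_sum_right, dot_sum_left]
  simp only [dot_smul_left, dot_smul_right]

include h1

lemma mG_succ (hsym : ∀ j x y, dot (X j x) y = dot x (X j y)) (a b : ℕ) :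
    mG X (a + 1) b ≤ mG X a (b + 1) + ∑ r ∈ Finset.range b, mK X (r + 1) * mG X a (b - (r + 1))
      + ∑ r ∈ Finset.range a, mK X (r + 1) * mG X (a - (r + 1)) b := by
  unfold mG
  rw [wsum_succ]
  have hexp : ∀ i, (wsum a fun u => wsum b fun p => dot (Wv X (i :: u)) (Wv X p) ^ 2)
      = wsum a fun u => wsum b fun p => ((dot (Wv X u) (Wv X (i :: p))
        + ∑ r ∈ Finset.range b, kap X i (p.take (r + 1)) * dot (Wv X u) (Wv X (p.drop (r + 1))))
        - ∑ r ∈ Finset.range a,
          kap X i (u.take (r + 1)) * dot (Wv X (u.drop (r + 1))) (Wv X p)) ^ 2 := by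
    intro i
    refine wsum_congr fun u hu => wsum_congr fun p hp => ?_
    rw [dot_cons hsym, hu, hp, Finset.sum_range_succ', Finset.sum_range_succ']
    simp [kap_nil X h1]
  simp only [hexp]
  have hM := (sqrt_sum_sub_sq_le (α := J × (Fin a → J) × (Fin b → J))
    (fun x => dot (Wv X (List.ofFn x.2.1)) (Wv X (x.1 :: List.ofFn x.2.2))
        + ∑ r ∈ Finset.range b, kap X x.1 ((List.ofFn x.2.2).take (r + 1))
          * dot (Wv X (List.ofFn x.2.1)) (Wv X ((List.ofFn x.2.2).drop (r + 1))))
    (fun x => ∑ r ∈ Finset.range a, kap X x.1 ((List.ofFn x.2.1).take (r + 1))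
          * dot (Wv X ((List.ofFn x.2.1).drop (r + 1))) (Wv X (List.ofFn x.2.2)))).trans
    (add_le_add ((sqrt_sum_add_sq_le _ _).trans (add_le_add le_rfl (sqrt_sum_sum_sq_le _ _)))
      (sqrt_sum_sum_sq_le _ _))
  simp only [Fintype.sum_prod_type] at hM
  refine hM.trans (le_of_eq ?_)
  congr 1
  · congr 1
    · congr 1
      rw [Finset.sum_comm]
      exact Finset.sum_congr rfl fun u _ =>
        (wsum_succ b fun p => dot (Wv X (List.ofFn u)) (Wv X p) ^ 2).symm
    · refine Finset.sum_congr rfl fun r hr => ?_
      have hrb : r + 1 ≤ b := Finset.mem_range.1 hr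
      unfold mK
      rw [← Real.sqrt_mul (Finset.sum_nonneg fun i _ => wsum_nonneg fun u => sq_nonneg _),
        Finset.sum_mul]
      congr 1
      refine Finset.sum_congr rfl fun i _ => ?_
      rw [show (wsum a fun u => wsum (b - (r + 1)) fun p => dot (Wv X u) (Wv X p) ^ 2)
          = wsum (b - (r + 1)) fun p => wsum a fun u => dot (Wv X u) (Wv X p) ^ 2 from
            Finset.sum_comm]
      rw [← wsum_split_mul hrb (fun q => kap X i q ^ 2)
        (fun p => wsum a fun u => dot (Wv X u) (Wv X p) ^ 2)]
      rw [Finset.sum_comm]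
      simp only [wsum, Finset.mul_sum, mul_pow]
  · refine Finset.sum_congr rfl fun r hr => ?_
    have hra : r + 1 ≤ a := Finset.mem_range.1 hr
    unfold mK
    rw [← Real.sqrt_mul (Finset.sum_nonneg fun i _ => wsum_nonneg fun u => sq_nonneg _),
      Finset.sum_mul]
    congr 1
    refine Finset.sum_congr rfl fun i _ => ?_
    rw [← wsum_split_mul hra (fun q => kap X i q ^ 2)
      (fun u => wsum b fun p => dot (Wv X u) (Wv X p) ^ 2)]
    simp only [wsum, Finset.mul_sum, mul_pow]

omit h1

lemma geom_le (q : ℝ) (h0 : 0 ≤ q) (h : q ≤ 1 / 2) (n : ℕ) :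
    ∑ r ∈ Finset.range n, q ^ (r + 1) ≤ 2 * q := by
  induction n with
  | zero => simp; linarith
  | succ n ih =>
    rw [Finset.sum_range_succ']
    have : ∑ r ∈ Finset.range n, q ^ (r + 1 + 1) = q * ∑ r ∈ Finset.range n, q ^ (r + 1) := by
      rw [Finset.mul_sum]; exact Finset.sum_congr rfl fun r _ => by ring
    rw [this, zero_add, pow_one]
    nlinarith

include h1 htr hσ hmom

lemma mG_le (hsym : ∀ j x y, dot (X j x) y = dot x (X j y)) :
    ∀ a b, mG X a b ≤ σ ^ (a + b) * 8 ^ (2 * a + b) := by
  intro a
  induction a using Nat.strong_induction_on with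
  | _ a ih =>
    intro b
    match a with
    | 0 =>
      refine le_trans ?_ (one_le_mul_of_one_le_of_one_le (one_le_pow₀ hσ)
        (one_le_pow₀ (by norm_num)))
      refine Real.sqrt_le_one.2 ?_
      rw [wsum_zero, Wv_nil]
      rcases b with _ | b
      · simp [wsum_zero, vac_eq_word, dot_word, Wv_apply_nil]
      · rw [wsum_congr (g := fun _ => (0 : ℝ)) fun p hp => by
          rw [vac_eq_word, dot_word, Wv_apply_nil, if_neg (by rintro rfl; simp at hp)]; norm_num]
        simp [wsum]
    | a + 1 =>
      refine (mG_succ h1 hsym a b).trans ?_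
      set S : ℝ := σ ^ (a + b + 1) * 8 ^ (2 * a + b + 2) with hS
      have hS0 : 0 ≤ S := by positivity
      have e : σ ^ (a + 1 + b) * 8 ^ (2 * (a + 1) + b) = S := by
        rw [hS, Nat.add_right_comm a 1 b, show 2 * (a + 1) + b = 2 * a + b + 2 by ring]
      rw [e]
      have t1 : mG X a (b + 1) ≤ S * (1 / 8) := by
        refine (ih a (by omega) (b + 1)).trans_eq ?_
        rw [hS, ← add_assoc, ← add_assoc, pow_succ (8 : ℝ) (2 * a + b + 1)]
        ring
      have t2 : ∀ r ∈ Finset.range b,
          mK X (r + 1) * mG X a (b - (r + 1)) ≤ S * (1 / 64) * (1 / 2) ^ (r + 1) := by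
        intro r hr
        have hrb : r + 1 ≤ b := Finset.mem_range.1 hr
        refine (mul_le_mul (mK_le h1 htr hσ hmom (r + 1)) (ih a (by omega) _)
          (Real.sqrt_nonneg _) (by positivity)).trans_eq ?_
        obtain ⟨c, rfl⟩ : ∃ c, b = r + 1 + c := ⟨b - (r + 1), by omega⟩
        rw [hS, Nat.add_sub_cancel_left,
          show 2 * a + (r + 1 + c) + 2 = (2 * a + c) + (r + 1) + 2 by ring,
          show a + (r + 1 + c) + 1 = (r + 1 + 1) + (a + c) by ring,
          show (4 : ℝ) ^ (r + 1) = 8 ^ (r + 1) * (1 / 2) ^ (r + 1) by rw [← mul_pow]; norm_num]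
        simp only [pow_add]
        ring
      have t3 : ∀ r ∈ Finset.range a,
          mK X (r + 1) * mG X (a - (r + 1)) b ≤ S * (1 / 64) * (1 / 16) ^ (r + 1) := by
        intro r hr
        have hra : r + 1 ≤ a := Finset.mem_range.1 hr
        refine (mul_le_mul (mK_le h1 htr hσ hmom (r + 1)) (ih _ (by omega) _)
          (Real.sqrt_nonneg _) (by positivity)).trans_eq ?_
        obtain ⟨c, rfl⟩ : ∃ c, a = r + 1 + c := ⟨a - (r + 1), by omega⟩
        rw [hS, Nat.add_sub_cancel_left,
          show 2 * (r + 1 + c) + b + 2 = (2 * c + b) + ((r + 1) + (r + 1)) + 2 by ring,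
          show r + 1 + c + b + 1 = (r + 1 + 1) + (c + b) by ring,
          show (4 : ℝ) ^ (r + 1) = (8 ^ (r + 1) * 8 ^ (r + 1)) * (1 / 16) ^ (r + 1) by
            rw [← mul_pow, ← mul_pow]; norm_num]
        simp only [pow_add]
        ring
      have u2 := Finset.sum_le_sum t2
      have u3 := Finset.sum_le_sum t3
      rw [← Finset.mul_sum] at u2 u3
      have g2 := mul_le_mul_of_nonneg_left (geom_le (1 / 2 : ℝ) (by norm_num) le_rfl b)
        (by positivity : 0 ≤ S * (1 / 64))
      have g3 := mul_le_mul_of_nonneg_left (geom_le (1 / 16 : ℝ) (by norm_num) (by norm_num) a)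
        (by positivity : 0 ≤ S * (1 / 64))
      linarith

lemma gram_le (hsym : ∀ j x y, dot (X j x) y = dot x (X j y)) (k : ℕ)
    (h : List J → List J → ℝ) (n : List J → ℝ) (hn : ∀ u, 0 ≤ n u)
    (hh : ∀ u p, h u p ^ 2 ≤ n u * n p) :
    (wsum k fun u => wsum k fun p => dot (Wv X u) (Wv X p) * h u p)
      ≤ ((32 * σ) ^ k) ^ 2 * wsum k n := by
  refine (sum_sum_mul_le (fun u p : Fin k → J => dot (Wv X (List.ofFn u)) (Wv X (List.ofFn p)))
    (fun u p => h (List.ofFn u) (List.ofFn p)) (fun u => n (List.ofFn u)) (fun u => hn _)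
    (fun u p => hh _ _)).trans (mul_le_mul_of_nonneg_right ?_ (wsum_nonneg hn))
  refine (mG_le h1 htr hσ hmom hsym k k).trans ?_
  rw [mul_pow, mul_pow, ← pow_mul, ← pow_mul, mul_comm ((32 : ℝ) ^ (k * 2))]
  refine mul_le_mul (le_of_eq (by ring_nf)) ?_ (by positivity) (by positivity)
  calc (8 : ℝ) ^ (2 * k + k) = 512 ^ k := by
        rw [show 2 * k + k = 3 * k by ring, pow_mul]; norm_num
    _ ≤ 1024 ^ k := pow_le_pow_left₀ (by norm_num) (by norm_num) k
    _ = 32 ^ (k * 2) := by rw [mul_comm k 2, pow_mul]; norm_num

end Estimates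

section Model

variable [DecidableEq ι] [DecidableEq J] (h : J → ι) (t : ℝ)

/-- The perturbed tuple. -/
def Z (i : J) : FckOp ι := X i + Real.sqrt t • semi (h i)

/-- Its cumulants. -/
def kapT (i : J) (u : List J) : ℝ := kap X i u + if u = [i] then t else 0

/-- The vector of a word. -/
def V (u : List J) : Fck ι := appellOf (Z X h t) (kapT X t) u vac

lemma V_nil : V X h t [] = vac := by simp [V, appellOf]

lemma V_cons (i : J) (u : List J) : V X h t (i :: u) = Z X h t i (V X h t u)
    - ∑ r ∈ Finset.range (u.length + 1), kapT X t i (u.take r) • V X h t (u.drop r) := by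
  rw [V, appellOf,
    ← Fin.sum_univ_eq_sum_range fun r => kapT X t i (u.take r) • V X h t (u.drop r)]
  simp [V, LinearMap.sum_apply]

/-- The tail vector. -/
def Y : List J → Fck ι
  | [] => vac
  | j :: q => Real.sqrt t • create (h j) (V X h t q)

/-- The closed formula for `V`. -/
def Vc (u : List J) : Fck ι :=
  ∑ l ∈ Finset.range (u.length + 1), conc (Y X h t (u.drop l)) (Wv X (u.take l))

lemma create_apply_cons (a b : ι) (x : Fck ι) (w : List ι) :
    create a x (b :: w) = if a = b then x w else 0 := by
  conv_lhs => rw [fck_eq_sum x]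
  simp only [map_sum, map_smul, create_word, Finsupp.finsetSum_apply, Finsupp.smul_apply]
  simp only [word, Finsupp.single_apply, List.cons.injEq]
  split_ifs with hab
  · simp only [hab, true_and, smul_eq_mul, mul_ite, mul_one, mul_zero, Finset.sum_ite_eq',
      Finsupp.mem_support_iff]
    by_cases hw : x w = 0 <;> simp [hw]
  · simp [hab]

lemma create_apply_nil (a : ι) (x : Fck ι) : create a x [] = 0 := by
  conv_lhs => rw [fck_eq_sum x]
  simp only [map_sum, map_smul, create_word, Finsupp.finsetSum_apply, Finsupp.smul_apply]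
  simp [word]

variable {P : Set ι} (hhP : ∀ j, h j ∉ P)
include hhP

lemma headOff_Y (b : List J) : HeadOff P (Y X h t b) := by
  intro q hq a ha
  rw [Finsupp.mem_support_iff] at hq
  rcases b with _ | ⟨j, b⟩
  · rcases q with _ | ⟨c, q⟩
    · simp at ha
    · simp [Y, vac] at hq
  · rcases q with _ | ⟨c, q⟩
    · simp at ha
    · simp only [Y, Finsupp.smul_apply, create_apply_cons, smul_eq_mul] at hq
      simp only [List.head?_cons, Option.some.injEq] at ha
      subst ha
      split_ifs at hq with hjc
      · exact hjc ▸ hhP j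
      · simp at hq

omit hhP

lemma X_conc (happ : ∀ j x q, SupportedOn P x → (∀ a, q.head? = some a → a ∉ P) →
      X j (appendWord q x) = appendWord q (X j x))
    (i : J) {x y : Fck ι} (hx : SupportedOn P x) (hy : HeadOff P y) :
    X i (conc y x) = conc y (X i x) := by
  rw [fck_eq_sum y]
  simp only [map_sum, map_smul, LinearMap.sum_apply, LinearMap.smul_apply, conc_word]
  exact Finset.sum_congr rfl fun q hq => by rw [happ i x q hx (hy q hq)]

lemma semi_conc (a : ι) (ha : a ∉ P) {x : Fck ι} (hx : SupportedOn P x) (y : Fck ι) :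
    semi a (conc y x) = create a (conc y x) + x [] • annihilate a y := by
  simp only [semi, LinearMap.add_apply, add_right_inj]
  rw [conc_apply]
  simp only [map_sum, map_smul]
  conv_rhs => rw [fck_eq_sum y]; simp only [map_sum, map_smul, Finset.smul_sum, smul_smul]
  refine Finset.sum_congr rfl fun q _ => ?_
  rw [Finset.sum_eq_single ([] : List ι)]
  · simp [mul_comm]
  · intro v hv hne
    obtain ⟨b, v, rfl⟩ := List.exists_cons_of_ne_nil hne
    have : a ≠ b := fun e => ha (e ▸ hx _ hv b (by simp))
    simp [annihilate, this]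
  · intro hv
    simp [Finsupp.notMem_support_iff.1 hv]

lemma annihilate_create (a b : ι) (x : Fck ι) :
    annihilate a (create b x) = if a = b then x else 0 := by
  conv_lhs => rw [fck_eq_sum x]
  simp only [map_sum, map_smul, create_word]
  have : ∀ w, annihilate a (word (b :: w) : Fck ι) = if a = b then word w else 0 := fun w => by
    simp [annihilate]
  simp only [this]
  split_ifs with hab
  · exact (fck_eq_sum x).symm
  · simp

variable (hP : ∀ j x, SupportedOn P x → SupportedOn P (X j x))
  (happ : ∀ j x q, SupportedOn P x → (∀ a, q.head? = some a → a ∉ P) →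
      X j (appendWord q x) = appendWord q (X j x))
include hhP hP happ

lemma Z_conc (hinj : Function.Injective h) (ht : 0 ≤ t) (i : J) (a b : List J) :
    Z X h t i (conc (Y X h t b) (Wv X a))
      = conc (Y X h t b) (Wv X (i :: a))
        + ∑ r ∈ Finset.range (a.length + 1),
            kap X i (a.take r) • conc (Y X h t b) (Wv X (a.drop r))
        + Real.sqrt t • create (h i) (conc (Y X h t b) (Wv X a))
        + if a = [] ∧ b.head? = some i then t • V X h t b.tail else 0 := by
  have hW := supportedOn_Wv X hP _ a le_rfl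
  simp only [Z, LinearMap.add_apply, LinearMap.smul_apply]
  rw [X_conc X happ i hW (headOff_Y X h t hhP b), X_Wv, map_add, map_sum,
    semi_conc (h i) (hhP i) hW, smul_add, ← add_assoc]
  simp only [map_smul, Wv_apply_nil]
  congr 1
  by_cases ha : a = []
  · subst ha
    rcases b with _ | ⟨j, q⟩
    · simp [Y, vac_eq_word, annihilate]
    · simp only [Y, map_smul, annihilate_create, List.head?_cons, Option.some.injEq, true_and,
        List.tail_cons, if_true, one_smul]
      by_cases hji : j = i
      · subst hji
        rw [if_pos rfl, if_pos rfl, smul_smul, Real.mul_self_sqrt ht]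
      · rw [if_neg (fun e => hji (hinj e).symm), if_neg hji, smul_zero, smul_zero]
  · simp [ha]

omit hhP hP happ

lemma regroup (f : List J → List J → List J → Fck ι) (u : List J) :
    (∑ l ∈ Finset.range (u.length + 1), ∑ r ∈ Finset.range (l + 1),
        f (u.take r) ((u.drop r).take (l - r)) (u.drop l))
      = ∑ r ∈ Finset.range (u.length + 1), ∑ m ∈ Finset.range ((u.drop r).length + 1),
        f (u.take r) ((u.drop r).take m) ((u.drop r).drop m) := by
  rw [Finset.sum_comm' (t' := Finset.range (u.length + 1))
    (s' := fun r => Finset.Ico r (u.length + 1))]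
  · refine Finset.sum_congr rfl fun r hr => ?_
    have hr' := Finset.mem_range.1 hr
    rw [Finset.sum_Ico_eq_sum_range, List.length_drop,
      show u.length + 1 - r = u.length - r + 1 by omega]
    refine Finset.sum_congr rfl fun m _ => ?_
    rw [List.drop_drop, Nat.add_sub_cancel_left]
  · intro l r
    simp only [Finset.mem_range, Finset.mem_Ico]
    omega

include hhP hP happ

lemma V_eq (hinj : Function.Injective h) (ht : 0 ≤ t) :
    ∀ (n : ℕ) (u : List J), u.length ≤ n → V X h t u = Vc X h t u
  | _, [], _ => by simp [V_nil, Vc, Y, Wv_nil, conc_vac_left]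
  | 0, _ :: _, hl => by simp at hl
  | n + 1, i :: u, hl => by
      have hlen : u.length ≤ n := by simpa using hl
      rw [V_cons, V_eq hinj ht n u hlen, sub_eq_iff_eq_add]
      conv_lhs => rw [Vc, map_sum]
      simp only [Z_conc X h t hhP hP happ hinj ht, Finset.sum_add_distrib]
      have e1 : Vc X h t (i :: u)
          = (∑ l ∈ Finset.range (u.length + 1), conc (Y X h t (u.drop l)) (Wv X (i :: u.take l)))
            + Real.sqrt t • create (h i) (V X h t u) := by
        rw [Vc, List.length_cons, Finset.sum_range_succ']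
        simp [Y, Wv_nil, conc_vac_right]
      have e2 : (∑ l ∈ Finset.range (u.length + 1), ∑ r ∈ Finset.range ((u.take l).length + 1),
            kap X i ((u.take l).take r) • conc (Y X h t (u.drop l)) (Wv X ((u.take l).drop r)))
          = ∑ r ∈ Finset.range (u.length + 1), kap X i (u.take r) • V X h t (u.drop r) := by
        have hg := regroup (ι := ι)
          (fun a b c => kap X i a • conc (Y X h t c) (Wv X b)) u
        refine Eq.trans ?_ (hg.trans ?_)
        · refine Finset.sum_congr rfl fun l hl' => ?_
          have hl'' := Finset.mem_range.1 hl'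
          rw [List.length_take, min_eq_left (by omega)]
          refine Finset.sum_congr rfl fun r hr => ?_
          have hr' := Finset.mem_range.1 hr
          rw [List.take_take, min_eq_left (by omega), List.drop_take]
        · refine Finset.sum_congr rfl fun r hr => ?_
          rw [V_eq hinj ht n (u.drop r) (by simp; omega), Vc, Finset.smul_sum]
      have e3 : (∑ l ∈ Finset.range (u.length + 1),
            if u.take l = [] ∧ (u.drop l).head? = some i then t • V X h t (u.drop l).tail else 0)
          = ∑ r ∈ Finset.range (u.length + 1),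
              (if u.take r = [i] then t else 0) • V X h t (u.drop r) := by
        rcases u with _ | ⟨j, q⟩
        · simp
        · rw [Finset.sum_eq_single 0, Finset.sum_eq_single 1]
          · by_cases hji : j = i <;> simp [hji]
          · intro r hr hne
            rw [if_neg, zero_smul]
            intro he
            have := congrArg List.length he
            have hr' := Finset.mem_range.1 hr
            simp only [List.length_take, List.length_cons, List.length_nil] at this hr'
            omega
          · intro h1'; simp at h1'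
          · intro l _ hne
            rw [if_neg]
            rintro ⟨he, -⟩
            simp [hne] at he
          · intro h0; simp at h0
      rw [e1, e2, e3, V_eq hinj ht n u hlen]
      simp only [kapT, add_smul, Finset.sum_add_distrib, Vc, ← map_sum, ← Finset.smul_sum]
      abel

lemma V_apply_nil (hinj : Function.Injective h) (ht : 0 ≤ t) (u : List J) :
    V X h t u [] = if u = [] then 1 else 0 := by
  rw [V_eq X h t hhP hP happ hinj ht _ u le_rfl, Vc, Finsupp.finsetSum_apply,
    Finset.sum_eq_single u.length]
  · simp [conc_apply_nil, Y, vac, Wv_apply_nil]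
  · intro l hl hne
    obtain ⟨j, q, hd⟩ := List.exists_cons_of_ne_nil (l := u.drop l) (by
      simp only [ne_eq, List.drop_eq_nil_iff, not_le]
      have := Finset.mem_range.1 hl
      omega)
    simp [conc_apply_nil, hd, Y, create_apply_nil]
  · simp

variable [Fintype J] {σ : ℝ}

lemma N_le (hinj : Function.Injective h) (h1 : ∀ j, vacState (X j) = 0)
    (htr : ∀ i w, vacState (X i * opProd X w) = vacState (opProd X w * X i))
    (hsym : ∀ j x y, dot (X j x) y = dot x (X j y)) (hσ : 1 ≤ σ)
    (hmom : ∀ k, ∑ w : Fin k → J, (vacState (opProd X (List.ofFn w))) ^ 2 ≤ σ ^ (2 * k))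
    (ht : (2 ^ 13 * σ) ^ 2 ≤ t) :
    ∀ (k : ℕ) (c : List J → ℝ), nrm (wsum k fun u => c u • V X h t u)
      ≤ (2 * Real.sqrt t) ^ k * Real.sqrt (wsum k fun u => c u ^ 2) := by
  have ht0 : 0 ≤ t := le_trans (sq_nonneg _) ht
  set s := Real.sqrt t with hs
  have hsσ : 2 ^ 13 * σ ≤ s := Real.le_sqrt_of_sq_le ht
  have hs0 : 0 < s := by nlinarith
  set ρ := 32 * σ with hρ
  have hρ0 : 0 ≤ ρ := by positivity
  intro k
  induction k using Nat.strong_induction_on with
  | _ k ih =>
    intro c
    set nc := Real.sqrt (wsum k fun u => c u ^ 2) with hnc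
    match k with
    | 0 =>
      simp only [wsum_zero, V_nil, nrm_smul, pow_zero, one_mul, hnc, Real.sqrt_sq_eq_abs]
      refine (mul_le_of_le_one_right (abs_nonneg _) ?_)
      rw [nrm, vac_eq_word, dot_word]
      simp [word]
    | k + 1 =>
      have hdec : (wsum (k + 1) fun u => c u • V X h t u)
          = ∑ l ∈ Finset.range (k + 2), wsum (k + 1) fun u =>
              c u • conc (Y X h t (u.drop l)) (Wv X (u.take l)) := by
        rw [← wsum_sum]
        refine wsum_congr fun u hu => ?_
        rw [V_eq X h t hhP hP happ hinj ht0 _ u le_rfl, Vc, hu, Finset.smul_sum]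
      rw [hdec]
      refine (nrm_sum_le _ _).trans ?_
      have htop : nrm (wsum (k + 1) fun u =>
          c u • conc (Y X h t (u.drop (k + 1))) (Wv X (u.take (k + 1)))) ≤ ρ ^ (k + 1) * nc := by
        rw [wsum_congr (g := fun u => c u • Wv X u) fun u hu => by
          rw [List.drop_eq_nil_of_le hu.le, List.take_of_length_le hu.le]
          simp [Y, conc_vac_left]]
        refine nrm_le (by positivity) ?_
        rw [mul_pow, hnc, Real.sq_sqrt (wsum_nonneg fun u => sq_nonneg _)]
        refine le_trans (le_of_eq ?_) (gram_le h1 htr hσ hmom hsym (k + 1)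
          (fun u p => c u * c p) (fun u => c u ^ 2) (fun u => sq_nonneg _)
          fun u p => le_of_eq (mul_pow _ _ _))
        simp only [wsum, dot_sum_left, dot_sum_right, dot_smul_left, dot_smul_right, Finset.mul_sum]
        rw [Finset.sum_comm]
        exact Finset.sum_congr rfl fun u _ => Finset.sum_congr rfl fun p _ => by ring
      have hrest : ∀ l ∈ Finset.range (k + 1), nrm (wsum (k + 1) fun u =>
          c u • conc (Y X h t (u.drop l)) (Wv X (u.take l)))
            ≤ s * ρ ^ l * (2 * s) ^ (k - l) * nc := by
        intro l hl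
        have hlk : l ≤ k := Nat.lt_succ_iff.1 (Finset.mem_range.1 hl)
        set y : List J → Fck ι := fun a => ∑ j, s • create (h j)
          (wsum (k - l) fun q => c (a ++ j :: q) • V X h t q) with hy
        have hsplit : (wsum (k + 1) fun u =>
            c u • conc (Y X h t (u.drop l)) (Wv X (u.take l)))
              = wsum l fun a => conc (y a) (Wv X a) := by
          rw [show (fun u => c u • conc (Y X h t (u.drop l)) (Wv X (u.take l))) = fun u =>
              c (u.take l ++ u.drop l) • conc (Y X h t (u.drop l)) (Wv X (u.take l)) from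
              funext fun u => by rw [List.take_append_drop]]
          rw [wsum_split (show l ≤ k + 1 by omega)
            fun a b => c (a ++ b) • conc (Y X h t b) (Wv X a)]
          refine wsum_congr fun a _ => ?_
          rw [show k + 1 - l = k - l + 1 by omega, wsum_succ]
          simp only [hy, map_sum, map_smul, LinearMap.sum_apply, LinearMap.smul_apply, wsum, Y,
            Finset.smul_sum]
          exact Finset.sum_congr rfl fun j _ => Finset.sum_congr rfl fun q _ => smul_comm _ _ _
        have hyoff : ∀ a, HeadOff P (y a) := by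
          intro a q hq b hb
          rw [Finsupp.mem_support_iff] at hq
          rcases q with _ | ⟨b', q⟩
          · simp at hb
          · simp only [List.head?_cons, Option.some.injEq] at hb
            subst hb
            simp only [hy, Finsupp.finsetSum_apply, Finsupp.smul_apply, create_apply_cons] at hq
            obtain ⟨j, -, hj⟩ := Finset.exists_ne_zero_of_sum_ne_zero hq
            split_ifs at hj with hjb
            · exact hjb ▸ hhP j
            · simp at hj
        have hyn : ∀ a, dot (y a) (y a)
            ≤ t * (((2 * s) ^ (k - l)) ^ 2 * wsum (k + 1 - l) fun b => c (a ++ b) ^ 2) := by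
          intro a
          simp only [hy, dot_sum_left, dot_sum_right, dot_smul_left, dot_smul_right, dot_create,
            hinj.eq_iff]
          simp only [mul_ite, mul_zero, Finset.sum_ite_eq', Finset.mem_univ, if_true]
          rw [show k + 1 - l = k - l + 1 by omega, wsum_succ, Finset.mul_sum, Finset.mul_sum]
          refine Finset.sum_le_sum fun j _ => ?_
          have := ih (k - l) (by omega) fun q => c (a ++ j :: q)
          have h2 := pow_le_pow_left₀ (nrm_nonneg _) this 2
          rw [mul_pow, nrm_sq, Real.sq_sqrt (wsum_nonneg fun q => sq_nonneg _)] at h2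
          rw [← mul_assoc, show s * s = t from Real.mul_self_sqrt ht0]
          exact mul_le_mul_of_nonneg_left h2 ht0
        rw [hsplit]
        refine nrm_le (by positivity) ?_
        refine le_trans (le_of_eq ?_) ((gram_le h1 htr hσ hmom hsym l
          (fun a b => dot (y a) (y b))
          (fun a => t * (((2 * s) ^ (k - l)) ^ 2 * wsum (k + 1 - l) fun b => c (a ++ b) ^ 2))
          (fun a => mul_nonneg ht0 (mul_nonneg (sq_nonneg _) (wsum_nonneg fun b => sq_nonneg _)))
          fun a b => (dot_sq_le _ _).trans (mul_le_mul (hyn a) (hyn b) (dot_self_nonneg _)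
            (le_trans (dot_self_nonneg _) (hyn a)))).trans (le_of_eq ?_))
        · simp only [wsum, dot_sum_left, dot_sum_right]
          rw [Finset.sum_comm]
          refine Finset.sum_congr rfl fun a _ => Finset.sum_congr rfl fun b _ => ?_
          rw [dot_conc (supportedOn_Wv X hP _ _ le_rfl) (supportedOn_Wv X hP _ _ le_rfl)
            (hyoff _) (hyoff _)]
        · rw [hnc]
          have hsum : (wsum l fun a => wsum (k + 1 - l) fun b => c (a ++ b) ^ 2)
              = wsum (k + 1) fun u => c u ^ 2 := by
            refine (wsum_add l (k + 1 - l) fun u => c u ^ 2).symm.trans ?_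
            rw [show l + (k + 1 - l) = k + 1 by omega]
          simp only [wsum] at hsum ⊢
          simp only [mul_pow, Real.sq_sqrt (Finset.sum_nonneg fun (u : Fin (k + 1) → J) _ =>
            sq_nonneg (c (List.ofFn u))), ← Finset.mul_sum, hsum, hs, Real.sq_sqrt ht0]
          ring
      rw [Finset.sum_range_succ]
      refine (add_le_add (Finset.sum_le_sum hrest) htop).trans ?_
      rw [← Finset.sum_mul, ← add_mul]
      refine mul_le_mul_of_nonneg_right ?_ (Real.sqrt_nonneg _)
      set q := ρ / (2 * s) with hq
      have hq0 : 0 ≤ q := by positivity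
      have hq1 : q ≤ 1 / 512 := by rw [hq, div_le_iff₀ (by positivity)]; linarith
      have hρq : ρ = q * (2 * s) := by rw [hq]; field_simp
      have e : ∀ l ∈ Finset.range (k + 1), s * ρ ^ l * (2 * s) ^ (k - l)
          = (2 * s) ^ (k + 1) / 2 * q ^ l := by
        intro l hl
        have hlk : l ≤ k := Nat.lt_succ_iff.1 (Finset.mem_range.1 hl)
        have hp : (2 * s) ^ l * (2 * s) ^ (k - l) = (2 * s) ^ k := by
          rw [← pow_add, Nat.add_sub_cancel' hlk]
        rw [hρq, mul_pow, pow_succ (2 * s) k, ← hp]
        ring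
      rw [Finset.sum_congr rfl e, ← Finset.mul_sum, hρq, mul_pow q (2 * s), Finset.sum_range_succ', pow_zero]
      have g1 := geom_le q hq0 (by linarith) k
      have g2 : q ^ (k + 1) ≤ q := by
        conv_rhs => rw [← pow_one q]
        exact pow_le_pow_of_le_one hq0 (by linarith) (by omega)
      have hpos : 0 ≤ (2 * s) ^ (k + 1) := by positivity
      generalize (2 * s) ^ (k + 1) = M at hpos ⊢
      generalize ∑ r ∈ Finset.range k, q ^ (r + 1) = S at g1 ⊢
      generalize q ^ (k + 1) = R at g2 ⊢
      nlinarith

end Model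

lemma norm_decomp {J : Type} [Fintype J] (f : Fck J) (D : ℕ) (hD : ∀ w ∈ f.support, w.length < D) :
    f = ∑ k ∈ Finset.range D, wsum k fun u => f u • word u := by
  classical
  refine Finsupp.ext fun w => ?_
  have h : ∀ k, ((wsum k fun u => f u • word u) : Fck J) w = if w.length = k then f w else 0 := by
    intro k
    simp only [wsum, Finsupp.finsetSum_apply, Finsupp.smul_apply, word, Finsupp.single_apply,
      smul_eq_mul, mul_ite, mul_one, mul_zero]
    split_ifs with hk
    · subst hk
      rw [Finset.sum_eq_single w.get]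
      · simp
      · intro v _ hv
        rw [if_neg]
        intro e
        exact hv (List.ofFn_injective (e.trans (List.ofFn_get w).symm))
      · simp
    · refine Finset.sum_eq_zero fun v _ => if_neg fun e => hk ?_
      rw [← e, List.length_ofFn]
  rw [Finsupp.finsetSum_apply]
  simp only [h, Finset.sum_ite_eq, Finset.mem_range]
  split_ifs with hw
  · rfl
  · by_contra h0
    exact hw (hD w (Finsupp.mem_support_iff.2 h0))

end Bridge

open Bridge in
/-- The module theorem. -/
theorem bridge : BridgeStatement := by
  intro ι J _ _ _ P X h v σ t hinj hhP hsym hP happ htr h1 h2 hv hσ hmom ht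
  classical
  have ht0 : 0 ≤ t := le_trans (sq_nonneg _) ht
  set st := Real.sqrt t with hst
  have hstσ : 2 ^ 13 * σ ≤ st := Real.le_sqrt_of_sq_le ht
  have hst0 : 0 < st := by nlinarith
  set s : J → ℝ := fun i => Real.sqrt (v i + t) with hs
  have hs0 : ∀ i, 0 < s i := fun i => Real.sqrt_pos.2 (by linarith [hv i])
  have hsst : ∀ i, st ≤ s i := fun i => Real.sqrt_le_sqrt (by linarith [hv i])
  set sp : List J → ℝ := fun u => (u.map s).prod with hsp
  have hsp0 : ∀ u, 0 < sp u := by
    intro u
    induction u with
    | nil => simp [hsp]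
    | cons a u ih => simpa [hsp] using mul_pos (hs0 a) ih
  have hspge : ∀ u : List J, st ^ u.length ≤ sp u := by
    intro u
    induction u with
    | nil => simp [hsp]
    | cons a u ih =>
      rw [List.length_cons, pow_succ', show sp (a :: u) = s a * sp u by simp [hsp]]
      exact mul_le_mul (hsst a) ih (by positivity) (hs0 a).le
  have hspd : ∀ (u : List J) r, sp (u.take r) * sp (u.drop r) = sp u := fun u r => by
    simp only [hsp]
    rw [← List.prod_append, ← List.map_append, List.take_append_drop]
  set c : J → List J → ℝ := fun i u => kapT X t i u / (s i * sp u) with hc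
  set Ψ : Fck J →ₗ[ℝ] Fck ι := onWords fun u => (sp u)⁻¹ • V X h t u with hΨ
  have hΨw : ∀ u, Ψ (word u) = (sp u)⁻¹ • V X h t u := fun u => onWords_word _ _
  refine ⟨c, Ψ, ?_, ?_, ?_, ?_, ?_, ?_, ?_⟩
  · intro i
    simp [hc, kapT, kap_nil X h1]
  · intro i j
    have hk : kap X i [j] = if i = j then v i else 0 := by rw [kap_eq, W_single X h1, h2]
    simp only [hc, kapT, hk, List.cons.injEq, and_true, hsp, List.map_cons, List.map_nil,
      List.prod_cons, List.prod_nil, mul_one]
    by_cases hij : i = j
    · subst hij
      rw [if_pos rfl, if_pos rfl, if_pos rfl, hs, Real.mul_self_sqrt (by linarith [hv i]),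
        div_self (by linarith [hv i] : v i + t ≠ 0)]
    · simp [hij, Ne.symm hij]
  · intro k hk
    have hle : ∀ i (u : List J), u.length = k → c i u ^ 2 ≤ kap X i u ^ 2 / (st ^ (k + 1)) ^ 2 := by
      intro i u hu
      have hkT : kapT X t i u = kap X i u := by
        rw [kapT, if_neg, add_zero]
        rintro rfl
        simp at hu
        omega
      simp only [hc, hkT, div_pow]
      refine div_le_div_of_nonneg_left (sq_nonneg _) (by positivity)
        (pow_le_pow_left₀ (by positivity) ?_ 2)
      rw [pow_succ', ← hu]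
      exact mul_le_mul (hsst i) (hspge u) (by positivity) (hs0 i).le
    calc ∑ i, ∑ u : Fin k → J, c i (List.ofFn u) ^ 2
        ≤ ∑ i, ∑ u : Fin k → J, kap X i (List.ofFn u) ^ 2 / (st ^ (k + 1)) ^ 2 :=
          Finset.sum_le_sum fun i _ => Finset.sum_le_sum fun u _ =>
            hle i _ List.length_ofFn
      _ = mK X k ^ 2 / (st ^ (k + 1)) ^ 2 := by
          rw [mK, Real.sq_sqrt (Finset.sum_nonneg fun i _ => wsum_nonneg fun u => sq_nonneg _)]
          simp only [← Finset.sum_div]
          rfl
      _ ≤ (4 ^ (k + 1) * σ ^ (k + 1)) ^ 2 / (st ^ (k + 1)) ^ 2 := by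
          refine div_le_div_of_nonneg_right (pow_le_pow_left₀ (Real.sqrt_nonneg _)
            ((mK_le h1 htr hσ hmom k).trans ?_) 2) (by positivity)
          exact mul_le_mul_of_nonneg_right (pow_le_pow_right₀ (by norm_num) (by omega))
            (by positivity)
      _ = ((4 * σ / st) ^ (k + 1)) ^ 2 := by rw [← div_pow, ← mul_pow, ← div_pow]
      _ ≤ ((1 / 64 : ℝ) ^ (k + 1)) ^ 2 := by
          refine pow_le_pow_left₀ (by positivity) (pow_le_pow_left₀ (by positivity) ?_ _) 2
          rw [div_le_iff₀ hst0]
          linarith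
      _ = _ := by rw [← pow_mul, mul_comm (k + 1) 2]
  · rw [vac_eq_word, hΨw]
    simp [hsp, V_nil, vac_eq_word]
  · intro i φ
    have hlin : Ψ.comp (modelOp c i)
        = (s i)⁻¹ • (X i + st • semi (h i)).comp Ψ := by
      refine Finsupp.lhom_ext fun u a => ?_
      rw [show Finsupp.single u a = a • word u by simp [word], map_smul, map_smul]
      congr 1
      rw [LinearMap.comp_apply, LinearMap.smul_apply, LinearMap.comp_apply, hΨw, map_smul,
        modelOp, onWords_word, map_add, map_sum, hΨw]
      simp only [map_smul, hΨw]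
      have hz : (X i + st • semi (h i)) (V X h t u) = V X h t (i :: u)
          + ∑ r ∈ Finset.range (u.length + 1), kapT X t i (u.take r) • V X h t (u.drop r) := by
        rw [V_cons, sub_add_cancel]; rfl
      rw [hz, smul_add, smul_add, smul_smul, Finset.smul_sum, Finset.smul_sum,
        show sp (i :: u) = s i * sp u by simp [hsp], mul_inv]
      congr 1
      rw [Fin.sum_univ_eq_sum_range
        fun r => c i (u.take r) • (sp (u.drop r))⁻¹ • V X h t (u.drop r)]
      refine Finset.sum_congr rfl fun r _ => ?_
      simp only [hc, smul_smul]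
      congr 1
      rw [← hspd u r, mul_inv]
      field_simp
    exact LinearMap.congr_fun hlin φ
  · intro φ
    have hlin : (Finsupp.lapply ([] : List ι)).comp Ψ = Finsupp.lapply ([] : List J) := by
      refine Finsupp.lhom_ext fun u a => ?_
      rw [show Finsupp.single u a = a • word u by simp [word], map_smul, map_smul]
      congr 1
      simp only [LinearMap.comp_apply, hΨw, Finsupp.lapply_apply, Finsupp.smul_apply,
        V_apply_nil X h t hhP hP happ hinj ht0]
      by_cases hu : u = []
      · subst hu; simp [hsp, word]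
      · simp [hu, word]
    exact LinearMap.congr_fun hlin φ
  · intro α _ f
    set D := (Finset.univ.sup fun a => (f a).support.sup List.length) + 1 with hD
    have hDa : ∀ a, ∀ w ∈ (f a).support, w.length < D := fun a w hw => by
      rw [hD, Nat.lt_succ_iff]
      exact le_trans (Finset.le_sup hw)
        (Finset.le_sup (f := fun a => (f a).support.sup List.length) (Finset.mem_univ a))
    set g : ℕ → α → ℝ := fun k a => 2 ^ k * Real.sqrt (wsum k fun u => f a u ^ 2) with hg
    have hone : ∀ a, nrm (Ψ (f a)) ≤ ∑ k ∈ Finset.range D, g k a := by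
      intro a
      conv_lhs => rw [norm_decomp (f a) D (hDa a), map_sum]
      refine (nrm_sum_le _ _).trans (Finset.sum_le_sum fun k _ => ?_)
      have he : Ψ (wsum k fun u => f a u • word u)
          = wsum k fun u => (f a u * (sp u)⁻¹) • V X h t u := by
        simp only [wsum, map_sum, map_smul, hΨw, smul_smul]
      rw [he]
      refine (N_le X h t hhP hP happ hinj h1 htr hsym hσ hmom ht k _).trans ?_
      have hb : Real.sqrt (wsum k fun u => (f a u * (sp u)⁻¹) ^ 2)
          ≤ (st ^ k)⁻¹ * Real.sqrt (wsum k fun u => f a u ^ 2) := by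
        rw [show (st ^ k)⁻¹ = Real.sqrt (((st ^ k)⁻¹) ^ 2) from
          (Real.sqrt_sq (by positivity)).symm, ← Real.sqrt_mul (sq_nonneg _)]
        refine Real.sqrt_le_sqrt ?_
        simp only [wsum, Finset.mul_sum, mul_pow]
        refine Finset.sum_le_sum fun u _ => ?_
        rw [mul_comm]
        refine mul_le_mul_of_nonneg_right (pow_le_pow_left₀ (inv_nonneg.2 (hsp0 _).le) ?_ 2)
          (sq_nonneg _)
        refine inv_anti₀ (by positivity) ?_
        simpa using hspge (List.ofFn u)
      refine (mul_le_mul_of_nonneg_left hb (by positivity)).trans_eq ?_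
      rw [hg, mul_pow, ← hst, ← mul_assoc]
      field_simp
    have hmink : Real.sqrt (∑ a, nrm (Ψ (f a)) ^ 2) ≤ famNorm f := by
      refine le_trans (Real.sqrt_le_sqrt (Finset.sum_le_sum fun a _ =>
        pow_le_pow_left₀ (nrm_nonneg _) (hone a) 2)) ?_
      refine (sqrt_sum_sum_sq_le _ _).trans ?_
      have hfam : famNorm f = ∑ k ∈ Finset.range D, (2 : ℝ) ^ k * Real.sqrt (degSq f k) := by
        refine tsum_eq_sum fun k hk => ?_
        have : degSq f k = 0 := by
          refine Finset.sum_eq_zero fun a _ => Finset.sum_eq_zero fun w _ => ?_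
          have : f a (List.ofFn w) = 0 := by
            by_contra h0
            have := hDa a _ (Finsupp.mem_support_iff.2 h0)
            rw [List.length_ofFn] at this
            exact hk (Finset.mem_range.2 this)
          simp [this]
        simp [this]
      rw [hfam]
      refine Finset.sum_le_sum fun k _ => le_of_eq ?_
      simp only [hg, mul_pow, ← Finset.mul_sum]
      rw [Real.sqrt_mul (by positivity), Real.sqrt_sq (by positivity)]
      congr 2
      exact Finset.sum_congr rfl fun a _ => Real.sq_sqrt (wsum_nonneg fun u => sq_nonneg _)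
    have hfnn : 0 ≤ famNorm f := le_trans (Real.sqrt_nonneg _) hmink
    have := (Real.sqrt_le_left hfnn).1 hmink
    simpa only [nrm_sq] using this

end

end Vale.Agent.P087
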