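import Vale.Agent.P087.Interfaces

/-!
# P087, Bridge: finite sums over words, the `ℓ²` structure of `Fck`, concatenation
-/

namespace Vale.Agent.P087

noncomputable section

namespace Bridge

section Words

variable {J : Type} [Fintype J] {E : Type} [AddCommMonoid E]

/-- Sum over the words of length `k`. -/
def wsum (k : ℕ) (f : List J → E) : E := ∑ w : Fin k → J, f (List.ofFn w)

lemma wsum_zero (f : List J → E) : wsum 0 f = f [] := by
  simp [wsum]

lemma wsum_congr {k : ℕ} {f g : List J → E} (h : ∀ u : List J, u.length = k → f u = g u) :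
    wsum k f = wsum k g :=
  Finset.sum_congr rfl fun w _ => h _ (List.length_ofFn (f := w))

lemma wsum_succ (k : ℕ) (f : List J → E) :
    wsum (k + 1) f = ∑ j, wsum k fun u => f (j :: u) := by
  unfold wsum
  rw [← (Fin.consEquiv fun _ : Fin (k + 1) => J).sum_comp, Fintype.sum_prod_type]
  simp

lemma wsum_add : ∀ (r m : ℕ) (f : List J → E),
    wsum (r + m) f = wsum r fun a => wsum m fun b => f (a ++ b)
  | 0, m, f => by simp [wsum_zero]
  | r + 1, m, f => by
      rw [Nat.add_right_comm, wsum_succ, wsum_succ]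
      exact Finset.sum_congr rfl fun j _ => by rw [wsum_add r m]; rfl

lemma wsum_one (f : List J → E) : wsum 1 f = ∑ j, f [j] := by
  simp [wsum_succ, wsum_zero]

lemma wsum_sum {β : Type} (k : ℕ) (s : Finset β) (f : β → List J → E) :
    (wsum k fun u => ∑ b ∈ s, f b u) = ∑ b ∈ s, wsum k (f b) :=
  Finset.sum_comm

lemma wsum_split {k r : ℕ} (h : r ≤ k) (f : List J → List J → E) :
    (wsum k fun u => f (u.take r) (u.drop r)) = wsum r fun a => wsum (k - r) fun b => f a b := by
  conv_lhs => rw [show k = r + (k - r) by omega]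
  rw [wsum_add]
  refine wsum_congr fun a ha => wsum_congr fun b _ => ?_
  rw [List.take_left' ha, List.drop_left' ha]

lemma wsum_split_mul {k r : ℕ} (h : r ≤ k) (f g : List J → ℝ) :
    (wsum k fun u => f (u.take r) * g (u.drop r)) = wsum r f * wsum (k - r) g := by
  rw [wsum_split h fun a b => f a * g b]
  simp [wsum, Finset.sum_mul_sum]

lemma wsum_nonneg {k : ℕ} {f : List J → ℝ} (h : ∀ u, 0 ≤ f u) : 0 ≤ wsum k f :=
  Finset.sum_nonneg fun _ _ => h _

end Words

lemma sqrt_sum_add_sq_le {α : Type} [Fintype α] (f g : α → ℝ) :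
    Real.sqrt (∑ x, (f x + g x) ^ 2)
      ≤ Real.sqrt (∑ x, f x ^ 2) + Real.sqrt (∑ x, g x ^ 2) := by
  rw [Real.sqrt_le_left (add_nonneg (Real.sqrt_nonneg _) (Real.sqrt_nonneg _)), add_sq,
    Real.sq_sqrt (by positivity), Real.sq_sqrt (by positivity)]
  have := Real.sum_mul_le_sqrt_mul_sqrt Finset.univ f g
  simp only [add_sq, Finset.sum_add_distrib, mul_assoc, ← Finset.mul_sum]
  linarith

lemma sqrt_sum_sum_sq_le {α β : Type} [Fintype α] (s : Finset β) (g : β → α → ℝ) :
    Real.sqrt (∑ x, (∑ b ∈ s, g b x) ^ 2) ≤ ∑ b ∈ s, Real.sqrt (∑ x, g b x ^ 2) := by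
  classical
  induction s using Finset.induction with
  | empty => simp
  | insert b s hb ih =>
    simp only [Finset.sum_insert hb]
    exact (sqrt_sum_add_sq_le _ _).trans (by linarith)

lemma sqrt_sum_sub_sq_le {α : Type} [Fintype α] (f g : α → ℝ) :
    Real.sqrt (∑ x, (f x - g x) ^ 2)
      ≤ Real.sqrt (∑ x, f x ^ 2) + Real.sqrt (∑ x, g x ^ 2) := by
  simpa [sub_eq_add_neg] using sqrt_sum_add_sq_le f fun x => -g x

lemma sum_sum_mul_le {α : Type} [Fintype α] (g h : α → α → ℝ) (n : α → ℝ) (hn : ∀ u, 0 ≤ n u)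
    (hh : ∀ u p, h u p ^ 2 ≤ n u * n p) :
    ∑ u, ∑ p, g u p * h u p ≤ Real.sqrt (∑ u, ∑ p, g u p ^ 2) * ∑ u, n u := by
  have h1 := Real.sum_mul_le_sqrt_mul_sqrt Finset.univ (fun x : α × α => g x.1 x.2)
    fun x => h x.1 x.2
  simp only [Fintype.sum_prod_type] at h1
  refine h1.trans (mul_le_mul_of_nonneg_left ?_ (Real.sqrt_nonneg _))
  rw [Real.sqrt_le_left (Finset.sum_nonneg fun u _ => hn u), sq, Finset.sum_mul_sum]
  exact Finset.sum_le_sum fun u _ => Finset.sum_le_sum fun p _ => hh u p

section Fock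

variable {ι : Type}

lemma dot_eq_sum (v u : Fck ι) {s : Finset (List ι)} (h : v.support ⊆ s) :
    dot v u = ∑ w ∈ s, v w * u w :=
  Finsupp.sum_of_support_subset v h (fun w x => x * u w) fun _ _ => zero_mul _

lemma dot_add_left (x y z : Fck ι) : dot (x + y) z = dot x z + dot y z :=
  Finsupp.sum_add_index' (fun _ => zero_mul _) fun _ _ _ => add_mul _ _ _

lemma dot_comm (x y : Fck ι) : dot x y = dot y x := by
  classical
  rw [dot_eq_sum x y (Finset.subset_union_left (s₂ := y.support)),
    dot_eq_sum y x (Finset.subset_union_right (s₁ := x.support))]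
  exact Finset.sum_congr rfl fun w _ => mul_comm _ _

lemma dot_smul_left (c : ℝ) (x z : Fck ι) : dot (c • x) z = c * dot x z := by
  rw [dot_eq_sum (c • x) z (s := x.support) Finsupp.support_smul, dot_eq_sum x z subset_rfl,
    Finset.mul_sum]
  exact Finset.sum_congr rfl fun w _ => by rw [Finsupp.smul_apply, smul_eq_mul, mul_assoc]

/-- `dot` as a bilinear map. -/
def dotL : Fck ι →ₗ[ℝ] Fck ι →ₗ[ℝ] ℝ :=
  LinearMap.mk₂ ℝ dot dot_add_left dot_smul_left
    (fun x y z => by rw [dot_comm, dot_add_left, dot_comm y, dot_comm z])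
    (fun c x y => by rw [dot_comm, dot_smul_left, dot_comm, smul_eq_mul])

@[simp] lemma dotL_apply (x y : Fck ι) : dotL x y = dot x y := rfl

lemma dot_add_right (x y z : Fck ι) : dot x (y + z) = dot x y + dot x z :=
  (dotL x).map_add y z

lemma dot_smul_right (c : ℝ) (x z : Fck ι) : dot x (c • z) = c * dot x z :=
  (dotL x).map_smul c z

lemma dot_sub_left (x y z : Fck ι) : dot (x - y) z = dot x z - dot y z := by
  rw [← dotL_apply, map_sub]; rfl

lemma dot_sum_left {α : Type} (s : Finset α) (f : α → Fck ι) (z : Fck ι) :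
    dot (∑ a ∈ s, f a) z = ∑ a ∈ s, dot (f a) z := by
  rw [← dotL_apply, map_sum, LinearMap.sum_apply]; rfl

lemma dot_sum_right {α : Type} (s : Finset α) (f : α → Fck ι) (z : Fck ι) :
    dot z (∑ a ∈ s, f a) = ∑ a ∈ s, dot z (f a) := by
  rw [← dotL_apply, map_sum]; rfl

lemma dot_word (w : List ι) (x : Fck ι) : dot (word w) x = x w := by
  simp [dot, word]

lemma dot_self_nonneg (x : Fck ι) : 0 ≤ dot x x :=
  Finset.sum_nonneg fun w _ => mul_self_nonneg (x w)

lemma dot_sq_le (x y : Fck ι) : dot x y ^ 2 ≤ dot x x * dot y y := by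
  classical
  rw [dot_eq_sum x y (Finset.subset_union_left (s₂ := y.support)),
    dot_eq_sum x x (Finset.subset_union_left (s₂ := y.support)),
    dot_eq_sum y y (Finset.subset_union_right (s₁ := x.support))]
  simp only [← sq]
  exact Finset.sum_mul_sq_le_sq_mul_sq _ _ _

/-- The `ℓ²` norm. -/
def nrm (x : Fck ι) : ℝ := Real.sqrt (dot x x)

lemma nrm_nonneg (x : Fck ι) : 0 ≤ nrm x := Real.sqrt_nonneg _

lemma nrm_sq (x : Fck ι) : nrm x ^ 2 = dot x x := Real.sq_sqrt (dot_self_nonneg x)

lemma nrm_le {x : Fck ι} {C : ℝ} (hC : 0 ≤ C) (h : dot x x ≤ C ^ 2) : nrm x ≤ C :=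
  (Real.sqrt_le_left hC).2 h

lemma nrm_smul (c : ℝ) (x : Fck ι) : nrm (c • x) = |c| * nrm x := by
  rw [nrm, dot_smul_left, dot_smul_right, ← mul_assoc, Real.sqrt_mul (mul_self_nonneg c),
    Real.sqrt_mul_self_eq_abs, nrm]

lemma nrm_add_le (x y : Fck ι) : nrm (x + y) ≤ nrm x + nrm y := by
  refine nrm_le (add_nonneg (nrm_nonneg x) (nrm_nonneg y)) ?_
  have h : dot x y ≤ nrm x * nrm y := by
    refine (le_abs_self _).trans (abs_le_of_sq_le_sq ?_ (mul_nonneg (nrm_nonneg x) (nrm_nonneg y)))
    rw [mul_pow, nrm_sq, nrm_sq]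
    exact dot_sq_le x y
  simp only [dot_add_left, dot_add_right, dot_comm y x, add_sq, nrm_sq]
  linarith

lemma nrm_sum_le {α : Type} (s : Finset α) (f : α → Fck ι) :
    nrm (∑ a ∈ s, f a) ≤ ∑ a ∈ s, nrm (f a) := by
  classical
  induction s using Finset.induction with
  | empty => simp [nrm, dot]
  | insert a s ha ih =>
    rw [Finset.sum_insert ha, Finset.sum_insert ha]
    exact (nrm_add_le _ _).trans (by linarith)

lemma fck_eq_sum (x : Fck ι) : x = ∑ w ∈ x.support, x w • word w := by
  conv_lhs => rw [← Finsupp.sum_single x]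
  exact Finset.sum_congr rfl fun w _ => by simp [word]

lemma create_word (a : ι) (w : List ι) : create a (word w) = word (a :: w) := onWords_word _ _

lemma appendWord_word (q v : List ι) : appendWord q (word v) = word (v ++ q) := onWords_word _ _

lemma vac_eq_word : (vac : Fck ι) = word [] := rfl

/-- `conc y x` is the concatenation of `x` (left) and `y` (right). -/
def conc : Fck ι →ₗ[ℝ] FckOp ι := onWords appendWord

lemma conc_word (q : List ι) : conc (word q) = appendWord q := onWords_word _ _

lemma conc_vac_left (x : Fck ι) : conc vac x = x := by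
  rw [vac_eq_word, conc_word]
  conv_lhs => rw [fck_eq_sum x]
  conv_rhs => rw [fck_eq_sum x]
  simp [appendWord_word]

lemma conc_vac_right (y : Fck ι) : conc y vac = y := by
  conv_lhs => rw [fck_eq_sum y]
  conv_rhs => rw [fck_eq_sum y]
  simp [conc_word, vac_eq_word, appendWord_word, LinearMap.sum_apply]

lemma conc_apply (y x : Fck ι) :
    conc y x = ∑ q ∈ y.support, ∑ v ∈ x.support, (y q * x v) • word (v ++ q) := by
  conv_lhs => rw [fck_eq_sum y, fck_eq_sum x]
  simp only [map_sum, map_smul, LinearMap.sum_apply, LinearMap.smul_apply, conc_word,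
    appendWord_word, Finset.smul_sum, smul_smul]
  rw [Finset.sum_comm]
  exact Finset.sum_congr rfl fun q _ => Finset.sum_congr rfl fun v _ => by rw [mul_comm (x v)]

lemma conc_apply_nil (y x : Fck ι) : conc y x [] = y [] * x [] := by
  classical
  rw [conc_apply]
  simp [word, Finsupp.single_apply, List.append_eq_nil_iff, ite_and]
  split_ifs with h h' <;> simp [*]

/-- All words start outside `P` (or are empty). -/
def HeadOff (P : Set ι) (y : Fck ι) : Prop :=
  ∀ q ∈ y.support, ∀ a, q.head? = some a → a ∉ P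

lemma append_inj_of_head {P : Set ι} : ∀ {v v' q q' : List ι}, (∀ a ∈ v, a ∈ P) →
    (∀ a ∈ v', a ∈ P) → (∀ a, q.head? = some a → a ∉ P) → (∀ a, q'.head? = some a → a ∉ P) →
    v ++ q = v' ++ q' → v = v' ∧ q = q'
  | [], [], _, _, _, _, _, _, h => ⟨rfl, by simpa using h⟩
  | [], b :: v', q, q', _, hv', hq, _, h => by
      exact absurd (hv' b (by simp)) (hq b (by simp only [List.nil_append] at h; simp [h]))
  | a :: v, [], q, q', hv, _, _, hq', h => by
      exact absurd (hv a (by simp)) (hq' a (by simp only [List.nil_append] at h; simp [← h]))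
  | a :: v, b :: v', q, q', hv, hv', hq, hq', h => by
      simp only [List.cons_append, List.cons.injEq] at h
      obtain ⟨rfl, h⟩ := h
      obtain ⟨rfl, rfl⟩ := append_inj_of_head (fun c hc => hv c (by simp [hc]))
        (fun c hc => hv' c (by simp [hc])) hq hq' h
      exact ⟨rfl, rfl⟩

lemma dot_conc {P : Set ι} {x x' y y' : Fck ι} (hx : SupportedOn P x) (hx' : SupportedOn P x')
    (hy : HeadOff P y) (hy' : HeadOff P y') :
    dot (conc y x) (conc y' x') = dot x x' * dot y y' := by
  classical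
  have key : ∀ q ∈ y.support, ∀ v ∈ x.support, ∀ q' ∈ y'.support, ∀ v' ∈ x'.support,
      dot (word (v ++ q) : Fck ι) (word (v' ++ q'))
        = dot (word v : Fck ι) (word v') * dot (word q : Fck ι) (word q') := by
    intro q hq v hv q' hq' v' hv'
    simp only [dot_word]
    by_cases h : v' ++ q' = v ++ q
    · obtain ⟨rfl, rfl⟩ := append_inj_of_head (hx' v' hv') (hx v hv) (hy' q' hq') (hy q hq) h
      simp [word]
    · simp only [word, Finsupp.single_apply, if_neg h]
      split_ifs with h1 h2
      · exact absurd (by rw [h1, h2]) h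
      all_goals simp
  rw [conc_apply, conc_apply]
  conv_rhs => rw [fck_eq_sum x, fck_eq_sum x', fck_eq_sum y, fck_eq_sum y']
  simp only [dot_sum_left, dot_smul_left, dot_sum_right, dot_smul_right, Finset.sum_mul,
    Finset.mul_sum]
  refine Finset.sum_congr rfl fun q' hq' => ?_
  rw [Finset.sum_comm]
  refine Finset.sum_congr rfl fun q hq => Finset.sum_congr rfl fun v' hv' =>
    Finset.sum_congr rfl fun v hv => ?_
  rw [key q hq v hv q' hq' v' hv']
  ring

lemma supportedOn_zero (P : Set ι) : SupportedOn P (0 : Fck ι) := by simp [SupportedOn]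

lemma supportedOn_add {P : Set ι} {x y : Fck ι} (hx : SupportedOn P x) (hy : SupportedOn P y) :
    SupportedOn P (x + y) := by
  classical
  intro w hw
  rcases Finset.mem_union.1 (Finsupp.support_add hw) with h | h
  exacts [hx w h, hy w h]

lemma supportedOn_smul {P : Set ι} (c : ℝ) {x : Fck ι} (hx : SupportedOn P x) :
    SupportedOn P (c • x) :=
  fun w hw => hx w (Finsupp.support_smul hw)

lemma supportedOn_vac (P : Set ι) : SupportedOn P (vac : Fck ι) := by
  intro w hw a ha
  rw [Finset.mem_singleton.1 (Finsupp.support_single_subset hw)] at ha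
  simp at ha

lemma supportedOn_word {P : Set ι} {w : List ι} (h : ∀ a ∈ w, a ∈ P) :
    SupportedOn P (word w) := by
  intro u hu
  rw [Finset.mem_singleton.1 (Finsupp.support_single_subset hu)]
  exact h

lemma dot_create [DecidableEq ι] (a b : ι) (x y : Fck ι) :
    dot (create a x) (create b y) = if a = b then dot x y else 0 := by
  have hc : ∀ (a : ι) (x : Fck ι), create a x = ∑ w ∈ x.support, x w • word (a :: w) := by
    intro a x
    conv_lhs => rw [fck_eq_sum x]
    simp [create_word]
  rw [hc, hc]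
  simp only [dot_sum_left, dot_smul_left, dot_sum_right, dot_smul_right, dot_word]
  simp only [word, Finsupp.single_apply, List.cons.injEq]
  split_ifs with h
  · subst h
    rw [dot_eq_sum x y subset_rfl]
    simp only [true_and, mul_ite, mul_one, mul_zero, Finset.mul_sum]
    rw [Finset.sum_comm]
    refine Finset.sum_congr rfl fun w _ => ?_
    by_cases hw : y w = 0 <;> simp [hw, mul_comm]
  · simp [Ne.symm h]

end Fock

end Bridge

end

end Vale.Agent.P087
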