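import Vale.Agent.P087.Defs

/-!
# P087: a lower bound on `χ*` from bounds on free Fisher information
-/

open scoped InnerProductSpace ENNReal
open MeasureTheory Filter Set

namespace Vale.Agent.P087

noncomputable section

theorem lintegral_log_gap {a : ℝ} (ha : 0 < a) (ha1 : a ≤ 1) (b : ℝ) (hb : 0 ≤ b) :
    ∫⁻ t in Ioi (0 : ℝ), ENNReal.ofReal (b * (1 / (a + t) - 1 / (1 + t))) =
      ENNReal.ofReal (b * -Real.log a) := by
  have hder : ∀ x ∈ Ici (0 : ℝ),
      HasDerivAt (fun t => b * (Real.log (a + t) - Real.log (1 + t)))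
        (b * (1 / (a + x) - 1 / (1 + x))) x := by
    intro x hx
    have hx' : (0 : ℝ) ≤ x := hx
    have h1 : HasDerivAt (fun t => Real.log (a + t)) (1 / (a + x)) x :=
      ((hasDerivAt_id x).const_add a).log (by simp; linarith)
    have h2 : HasDerivAt (fun t => Real.log (1 + t)) (1 / (1 + x)) x :=
      ((hasDerivAt_id x).const_add 1).log (by simp; linarith)
    exact (h1.sub h2).const_mul b
  have hpos : ∀ x ∈ Ioi (0 : ℝ), 0 ≤ b * (1 / (a + x) - 1 / (1 + x)) := by
    intro x hx
    have hx' : (0 : ℝ) < x := hx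
    have := one_div_le_one_div_of_le (by linarith) (show a + x ≤ 1 + x by linarith)
    exact mul_nonneg hb (by linarith)
  have hlim : Tendsto (fun t => b * (Real.log (a + t) - Real.log (1 + t))) atTop (nhds 0) := by
    have h : Tendsto (fun t : ℝ => 1 + (a - 1) / (1 + t)) atTop (nhds 1) := by
      have := (tendsto_const_nhds (x := a - 1)).div_atTop
        (tendsto_atTop_add_const_left atTop (1 : ℝ) tendsto_id)
      simpa using (tendsto_const_nhds (x := (1 : ℝ))).add this
    have h2 := ((Real.continuousAt_log one_ne_zero).tendsto.comp h).const_mul b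
    rw [Real.log_one, mul_zero] at h2
    refine h2.congr' ?_
    filter_upwards [eventually_ge_atTop (0 : ℝ)] with t ht
    rw [Function.comp_apply, ← Real.log_div (by linarith) (by linarith)]
    congr 2
    field_simp
    ring
  rw [← ofReal_integral_eq_lintegral_ofReal
    (integrableOn_Ioi_deriv_of_nonneg' hder hpos hlim)
    ((ae_restrict_iff' measurableSet_Ioi).mpr (Eventually.of_forall hpos))]
  rw [integral_Ioi_of_hasDerivAt_of_nonneg' hder hpos hlim]
  simp

variable {H : Type} [NormedAddCommGroup H] [InnerProductSpace ℂ H] [CompleteSpace H]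

/-- Lower bound on `χ*`: Fisher information at most `U(t)` for all `t`, and at most
`n/(1+t) - c` on `[T,2T]`. -/
theorem le_chiStar {Ω : H} {n : ℕ} {X S : Fin n → H →L[ℂ] H} {a b T c : ℝ} (ha : 0 < a)
    (ha1 : a ≤ 1) (hb : 0 ≤ b) (hT : 0 < T) (hc : 0 ≤ c)
    (hall : ∀ t, 0 < t → fisher Ω (perturbed X S t) ≤
      ENNReal.ofReal ((n : ℝ) / (1 + t) + b * (1 / (a + t) - 1 / (1 + t))))
    (hcn : ∀ t ∈ Icc T (2 * T), c ≤ (n : ℝ) / (1 + t))
    (hgain : ∀ t ∈ Icc T (2 * T), fisher Ω (perturbed X S t) ≤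
      ENNReal.ofReal ((n : ℝ) / (1 + t) - c)) :
    (((1 / 2 : ℝ) * (T * c - b * -Real.log a) +
        (n : ℝ) / 2 * Real.log (2 * Real.pi * Real.exp 1) : ℝ) : EReal) ≤ chiStar Ω X S := by
  set F := fun t => fisher Ω (perturbed X S t) with hF
  have hP : ENNReal.ofReal (T * c) ≤
      ∫⁻ t in Ioi (0 : ℝ), (ENNReal.ofReal ((n : ℝ) / (1 + t)) - F t) := by
    calc ENNReal.ofReal (T * c) = ∫⁻ _ in Icc T (2 * T), ENNReal.ofReal c := by
          rw [setLIntegral_const, Real.volume_Icc, ← ENNReal.ofReal_mul hc]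
          congr 1; ring
      _ ≤ ∫⁻ t in Icc T (2 * T), (ENNReal.ofReal ((n : ℝ) / (1 + t)) - F t) := by
          refine setLIntegral_mono' measurableSet_Icc fun t ht => ?_
          refine le_trans ?_ (tsub_le_tsub_left (hgain t ht) _)
          have ht0 : 0 < t := lt_of_lt_of_le hT ht.1
          have := hcn t ht
          rw [← ENNReal.ofReal_sub _ (by linarith)]
          exact ENNReal.ofReal_le_ofReal (by linarith)
      _ ≤ _ := lintegral_mono_set fun t ht => lt_of_lt_of_le hT ht.1
  have hQ : ∫⁻ t in Ioi (0 : ℝ), (F t - ENNReal.ofReal ((n : ℝ) / (1 + t))) ≤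
      ENNReal.ofReal (b * -Real.log a) := by
    rw [← lintegral_log_gap ha ha1 b hb]
    refine setLIntegral_mono' measurableSet_Ioi fun t ht => ?_
    have ht' : (0 : ℝ) < t := ht
    refine tsub_le_iff_left.mpr ((hall t ht').trans ?_)
    exact ENNReal.ofReal_add_le
  have hlog : 0 ≤ -Real.log a := neg_nonneg.mpr (Real.log_nonpos ha.le ha1)
  unfold chiStar
  rw [EReal.coe_add, EReal.coe_mul]
  refine add_le_add ?_ le_rfl
  refine mul_le_mul_of_nonneg_left ?_ (by exact_mod_cast (by norm_num : (0 : ℝ) ≤ 1 / 2))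
  rw [EReal.coe_sub]
  refine EReal.sub_le_sub ?_ ?_
  · have := EReal.coe_ennreal_le_coe_ennreal_iff.mpr hP
    rwa [EReal.coe_ennreal_ofReal, max_eq_left (mul_nonneg hT.le hc)] at this
  · have := EReal.coe_ennreal_le_coe_ennreal_iff.mpr hQ
    rwa [EReal.coe_ennreal_ofReal, max_eq_left (mul_nonneg hb hlog)] at this

end

end Vale.Agent.P087
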