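import Vale.Agent.P087.Transfer

/-!
# P087: the concrete tuple on finitely supported vectors
-/

namespace Vale.Agent.P087

noncomputable section

variable {ι : Type}

/-- `A` preserves vectors supported on `P`-words and acts on the left factor of a concatenation. -/
def ActsLocally (P : Set ι) (A : FckOp ι) : Prop :=
  (∀ x, SupportedOn P x → SupportedOn P (A x)) ∧
    ∀ x q, SupportedOn P x → (∀ a, q.head? = some a → a ∉ P) →
      A (appendWord q x) = appendWord q (A x)

theorem SupportedOn.zero (P : Set ι) : SupportedOn P (0 : Fck ι) := by
  intro w hw; simp at hw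

theorem SupportedOn.add {P : Set ι} {x y : Fck ι} (hx : SupportedOn P x) (hy : SupportedOn P y) :
    SupportedOn P (x + y) := by
  classical
  intro w hw
  rcases Finset.mem_union.mp (Finsupp.support_add hw) with h | h
  · exact hx w h
  · exact hy w h

theorem SupportedOn.smul {P : Set ι} (r : ℝ) {x : Fck ι} (hx : SupportedOn P x) :
    SupportedOn P (r • x) := fun w hw => hx w (Finsupp.support_smul hw)

theorem SupportedOn.sub {P : Set ι} {x y : Fck ι} (hx : SupportedOn P x) (hy : SupportedOn P y) :
    SupportedOn P (x - y) := by
  have := hx.add (hy.smul (-1))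
  simpa [sub_eq_add_neg] using this

theorem supportedOn_word {P : Set ι} {w : List ι} (h : ∀ a ∈ w, a ∈ P) :
    SupportedOn P (word w) := by
  intro u hu
  have : u = w := by simpa [word] using (Finsupp.support_single_subset hu)
  exact this ▸ h

theorem apply_eq_zero_of_supportedOn {P : Set ι} {x : Fck ι} (hx : SupportedOn P x) {w : List ι}
    {a : ι} (ha : a ∈ w) (haP : a ∉ P) : x w = 0 := by
  by_contra h
  exact haP (hx w (Finsupp.mem_support_iff.mpr h) a ha)

theorem ActsLocally.one (P : Set ι) : ActsLocally P 1 := ⟨fun _ h => h, fun _ _ _ _ => rfl⟩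

theorem ActsLocally.zero (P : Set ι) : ActsLocally P 0 :=
  ⟨fun _ _ => SupportedOn.zero P, fun _ _ _ _ => by simp⟩

theorem ActsLocally.add {P : Set ι} {A B : FckOp ι} (hA : ActsLocally P A)
    (hB : ActsLocally P B) : ActsLocally P (A + B) :=
  ⟨fun x h => (hA.1 x h).add (hB.1 x h), fun x q h hq => by
    simp [hA.2 x q h hq, hB.2 x q h hq]⟩

theorem ActsLocally.sub {P : Set ι} {A B : FckOp ι} (hA : ActsLocally P A)
    (hB : ActsLocally P B) : ActsLocally P (A - B) :=
  ⟨fun x h => (hA.1 x h).sub (hB.1 x h), fun x q h hq => by
    simp [hA.2 x q h hq, hB.2 x q h hq]⟩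

theorem ActsLocally.mul {P : Set ι} {A B : FckOp ι} (hA : ActsLocally P A)
    (hB : ActsLocally P B) : ActsLocally P (A * B) :=
  ⟨fun x h => hA.1 _ (hB.1 x h), fun x q h hq => by
    simp [hA.2 _ q (hB.1 x h) hq, hB.2 x q h hq]⟩

theorem ActsLocally.smul {P : Set ι} (r : ℝ) {A : FckOp ι} (hA : ActsLocally P A) :
    ActsLocally P (r • A) :=
  ⟨fun x h => (hA.1 x h).smul r, fun x q h hq => by simp [hA.2 x q h hq]⟩

theorem ActsLocally.wickOf {P : Set ι} {K : Type} [DecidableEq K] {X : K → FckOp ι}
    (h : ∀ k, ActsLocally P (X k)) : ∀ w : List K, ActsLocally P (Vale.Agent.P087.wickOf X w)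
  | [] => ActsLocally.one P
  | [a] => h a
  | a :: b :: w => by
      simp only [Vale.Agent.P087.wickOf]
      refine ((h a).mul (ActsLocally.wickOf h (b :: w))).sub ?_
      split_ifs
      · exact ActsLocally.wickOf h w
      · exact ActsLocally.zero P

/-- Linear induction for vectors supported on `P`-words. -/
theorem supportedOn_induction {P : Set ι} {p : Fck ι → Prop} {x : Fck ι} (hx : SupportedOn P x)
    (h0 : p 0) (hadd : ∀ u u', p u → p u' → p (u + u'))
    (hw : ∀ (w : List ι) (r : ℝ), (∀ a ∈ w, a ∈ P) → p (r • word w)) : p x := by
  classical
  rw [← Finsupp.sum_single x]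
  refine Finset.sum_induction _ p hadd h0 fun w hw' => ?_
  have : (Finsupp.single w (x w) : Fck ι) = x w • word w := by simp [word]
  exact this ▸ hw w (x w) (hx w hw')

theorem actsLocally_semi [DecidableEq ι] {P : Set ι} {a : ι} (ha : a ∈ P) :
    ActsLocally P (semi a) := by
  refine ⟨fun x hx => ?_, fun x q hx hq => ?_⟩
  · refine supportedOn_induction (p := fun x => SupportedOn P (semi a x)) hx ?_ ?_ ?_
    · simpa using SupportedOn.zero P
    · intro u u' hu hu'; simpa using hu.add hu'
    · intro w r hw
      rw [map_smul]
      refine SupportedOn.smul r ?_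
      cases w with
      | nil => rw [semi_word_nil]; exact supportedOn_word (by simp [ha])
      | cons b w =>
          rw [semi_word_cons]
          refine (supportedOn_word ?_).add ?_
          · intro c hc
            rcases List.mem_cons.mp hc with rfl | hc
            · exact ha
            · exact hw c hc
          · split_ifs
            · exact supportedOn_word fun c hc => hw c (List.mem_cons_of_mem _ hc)
            · exact SupportedOn.zero P
  · refine supportedOn_induction
      (p := fun x => semi a (appendWord q x) = appendWord q (semi a x)) hx ?_ ?_ ?_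
    · simp
    · intro u u' hu hu'; simp [hu, hu']
    · intro w r hw
      simp only [map_smul, appendWord, onWords_word]
      cases w with
      | nil =>
          cases q with
          | nil => simp [semi_word_nil]
          | cons c q =>
              have hne : a ≠ c := fun h => hq c rfl (h ▸ ha)
              simp [semi_word_nil, semi_word_cons, hne]
      | cons b w =>
          simp only [List.cons_append, semi_word_cons, map_add, onWords_word]
          split_ifs <;> simp

theorem actsLocally_tuple {L : ℕ} (ε : ℝ) (j : Idx L) :
    ActsLocally (baseLetters L) (tuple (semi : Letter L → FckOp (Letter L)) ε j) := by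
  have hl : ∀ i, latent i ∈ baseLetters L := fun i => Or.inl ⟨i, rfl⟩
  have hg : ∀ i, noise i ∈ baseLetters L := fun i => Or.inr ⟨i, rfl⟩
  cases j with
  | inl i => exact (actsLocally_semi (hl i)).add ((actsLocally_semi (hg _)).smul ε)
  | inr w =>
      exact (ActsLocally.wickOf (fun i => actsLocally_semi (hl i)) (palindrome w)).add
        (actsLocally_semi (hg (Sum.inr w)))

theorem latent_injective {L : ℕ} : Function.Injective (latent : Fin 2 → Letter L) :=
  fun _ _ h => Sum.inl_injective h

theorem palindrome_injective {L : ℕ} : Function.Injective (palindrome : Code L → List (Fin 2)) := by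
  intro w w' h
  have h' := congrArg (List.take L) h
  simp only [palindrome, List.append_assoc] at h'
  rw [List.take_left' (by simp), List.take_left' (by simp)] at h'
  exact List.ofFn_injective h'

theorem palindrome_reverse {L : ℕ} (w : Code L) : (palindrome w).reverse = palindrome w := by
  simp [palindrome, List.append_assoc]

theorem length_palindrome {L : ℕ} (w : Code L) : (palindrome w).length = 2 * L + 1 := by
  simp [palindrome]; omega

/-- The variance of the components of the tuple. -/
def variance {L : ℕ} (ε : ℝ) : Idx L → ℝ
  | Sum.inl _ => 1 + ε ^ 2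
  | Sum.inr _ => 2

/-- The vector of the components of the tuple. -/
def tupleVec {L : ℕ} (ε : ℝ) : Idx L → Fck (Letter L)
  | Sum.inl i => word [latent i] + ε • word [noise (Sum.inl i)]
  | Sum.inr w => word ((palindrome w).map latent) + word [noise (Sum.inr w)]

theorem tuple_vac {L : ℕ} (ε : ℝ) (j : Idx L) :
    tuple (semi : Letter L → FckOp (Letter L)) ε j vac = tupleVec ε j := by
  cases j with
  | inl i => simp [tuple, tupleVec, vac_eq_word, semi_word_nil]
  | inr w =>
      simp only [tuple, tupleVec, LinearMap.add_apply,
        wickOf_comp _ _ latent_injective, wickOf_semi_vac]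
      simp [vac_eq_word, semi_word_nil]

theorem tupleVec_apply_nil {L : ℕ} (ε : ℝ) (j : Idx L) : tupleVec ε j [] = 0 := by
  cases j with
  | inl i => simp [tupleVec, word]
  | inr w => simp [tupleVec, word, palindrome]

theorem dot_tupleVec {L : ℕ} (hL : 1 ≤ L) (ε : ℝ) (i j : Idx L) :
    dot (tupleVec ε i) (tupleVec ε j) = if i = j then variance ε i else 0 := by
  have k1 : ∀ (w : Code L) (a : Letter L), (palindrome w).map latent ≠ [a] := by
    intro w a h
    have := congrArg List.length h
    simp [length_palindrome] at this
    omega
  have k2 : ∀ (w : Code L) (a : Letter L), [a] ≠ (palindrome w).map latent :=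
    fun w a h => k1 w a h.symm
  have k3 : ∀ w w' : Code L,
      (palindrome w).map latent = (palindrome w').map (latent : Fin 2 → Letter L) ↔ w = w' :=
    fun w w' => (latent_injective.list_map.comp palindrome_injective).eq_iff
  cases i with
  | inl i =>
      cases j with
      | inl j =>
          by_cases hij : i = j
          · subst hij
            simp [tupleVec, dot_add_left, dot_smul_left, dot_word, word_apply, variance, latent,
              noise]
            ring
          · simp [tupleVec, dot_add_left, dot_smul_left, dot_word, word_apply, latent, noise,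
              hij, Ne.symm hij]
      | inr w =>
          simp [tupleVec, dot_add_left, dot_smul_left, dot_word, word_apply, k1, noise, latent]
  | inr w =>
      cases j with
      | inl j =>
          simp [tupleVec, dot_add_left, dot_smul_left, dot_word, word_apply, k2, noise, latent]
      | inr w' =>
          by_cases h : w = w'
          · subst h
            simp [tupleVec, dot_add_left, dot_word, word_apply, variance, k1, k2]
            norm_num
          · simp [tupleVec, dot_add_left, dot_word, word_apply, k1, k2, k3, h, Ne.symm h, noise]

end

end Vale.Agent.P087
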