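import Vale.Agent.P087.ConjugateBase

/-!
# P087: module Conjugate, part 2 — approximate conjugate variables in the coordinate model

All estimates are for finite families: `fn s f = ∑ₙ 2ⁿ ‖degree n part of f‖`.
-/

namespace Vale.Agent.P087

noncomputable section

namespace Conjugate

open Finset

theorem geom_le_two {x : ℝ} (h0 : 0 ≤ x) (h1 : x ≤ 1 / 2) (N : ℕ) :
    ∑ m ∈ Finset.range N, x ^ m ≤ 2 := by
  have h := geom_sum_mul x N
  have h2 : 0 ≤ x ^ N := by positivity
  have h3 : 0 ≤ ∑ m ∈ Finset.range N, x ^ m := Finset.sum_nonneg fun _ _ => by positivity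
  nlinarith

theorem tri_le (f : ℕ → ℕ → ℝ) (hf : ∀ p d, 0 ≤ f p d) (D : ℕ) :
    ∑ n ∈ Finset.range D, ∑ p ∈ Finset.range (n + 1), f p (n - p) ≤
      ∑ p ∈ Finset.range D, ∑ d ∈ Finset.range D, f p d := by
  rw [Finset.sum_sigma', ← Finset.sum_product']
  have hinj : Set.InjOn (fun q : Σ _ : ℕ, ℕ => (q.2, q.1 - q.2))
      ↑((Finset.range D).sigma fun n => Finset.range (n + 1)) := by
    rintro ⟨n, p⟩ hq ⟨n', p'⟩ hq' h
    simp at hq hq' h
    obtain ⟨rfl, h⟩ := h
    obtain rfl : n = n' := by omega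
    rfl
  rw [← Finset.sum_image (f := fun q : ℕ × ℕ => f q.1 q.2) hinj]
  refine Finset.sum_le_sum_of_subset_of_nonneg ?_ fun q _ _ => hf _ _
  intro q hq
  simp only [Finset.mem_image, Finset.mem_sigma, Finset.mem_range, Finset.mem_product] at hq ⊢
  obtain ⟨⟨n, p⟩, ⟨h1, h2⟩, rfl⟩ := hq
  exact ⟨by omega, by omega⟩

section Families

variable {J : Type} [Fintype J] [DecidableEq J]

theorem fn_unit_left {α : Type} (t : Finset α) (f : α → Fck J) :
    fn ((Finset.univ : Finset Unit) ×ˢ t) (fun q => f q.2) = fn t f := by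
  simp [fn, dn, l2, Finset.sum_product]

theorem fn_unit_right {α : Type} (t : Finset α) (f : α → Fck J) :
    fn (t ×ˢ (Finset.univ : Finset Unit)) (fun q => f q.1) = fn t f := by
  simp [fn, dn, l2, Finset.sum_product]

end Families

section Estimates

variable {J : Type} [Fintype J] [DecidableEq J] (c : J → List J → ℝ)

/-- The hypotheses on the cumulants. -/
structure Small : Prop where
  nil : ∀ i, c i [] = 0
  single : ∀ i j, c i [j] = if i = j then 1 else 0
  small : ∀ k, 2 ≤ k → ∑ i, ∑ u : Fin k → J, (c i (List.ofFn u)) ^ 2 ≤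
      (1 / 64 : ℝ) ^ (2 * (k + 1))

variable {c}

theorem Small.l2_le (h : Small c) {k : ℕ} (hk : 2 ≤ k) :
    l2 ((Finset.univ : Finset J) ×ˢ W k) (fun p => c p.1 p.2) ≤ (1 / 64 : ℝ) ^ (k + 1) := by
  refine Real.sqrt_le_iff.2 ⟨by positivity, ?_⟩
  rw [Finset.sum_product]
  simp only [sum_W]
  rw [← pow_mul, mul_comm (k + 1) 2]
  exact h.small k hk

theorem Small.l2_reverse_le (h : Small c) {k : ℕ} (hk : 2 ≤ k) :
    l2 ((Finset.univ : Finset J) ×ˢ W k) (fun p => c p.1 p.2.reverse) ≤
      (1 / 64 : ℝ) ^ (k + 1) := by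
  refine le_trans (le_of_eq ?_) (h.l2_le hk)
  unfold l2
  rw [Finset.sum_product, Finset.sum_product]
  refine congrArg Real.sqrt (Finset.sum_congr rfl fun i _ => ?_)
  exact sum_W_reverse k fun x => c i x ^ 2

theorem sum_W_one {M : Type} [AddCommMonoid M] (F : List J → M) :
    ∑ r ∈ W 1, F r = ∑ i : J, F [i] := by
  rw [show (1 : ℕ) = 0 + 1 from rfl, sum_W_succ]
  simp [W_zero]

/-- One `M(i,a)` applied to a family, as a new family. -/
theorem mop_family (h : Small c) {α : Type} (s : Finset α) (f : α → Fck J) (p : ℕ) :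
    fn (((Finset.univ : Finset J) ×ˢ W p) ×ˢ s) (fun q => Mop c q.1.1 q.1.2 (f q.2)) ≤
      ((if p = 0 then 1 / 2 else 0) + (1 / 64 : ℝ) ^ (p + 1)) * fn s f := by
  obtain ⟨N, hN⟩ := exists_degree_bound s f
  set w : ℕ → ℝ := fun m => if p = 0 ∧ m = 0 then 1 else (1 / 64 : ℝ) ^ (p + m + 2) with hw
  have hw0 : ∀ m, 0 ≤ w m := fun m => by rw [hw]; positivity
  refine fn_le _ _ fun D => ?_
  have hd : ∀ d, dn (((Finset.univ : Finset J) ×ˢ W p) ×ˢ s)
      (fun q => Mop c q.1.1 q.1.2 (f q.2)) d ≤
      ∑ m ∈ Finset.range N, w m * dn s f (m + 1 + d) := by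
    intro d
    unfold dn
    rw [l2_congr (h := fun q : ((J × List J) × α) × List J => ∑ m ∈ Finset.range N,
      ∑ r ∈ W (m + 1), c q.1.1.1 (q.1.1.2 ++ r) * f q.1.2 (r ++ q.2))]
    swap
    · rintro ⟨⟨⟨i, a⟩, b⟩, x⟩ hq
      simp only [Finset.mem_product] at hq
      exact Mop_apply c i a (f b) x (hN b hq.1.2)
    refine (l2_sum _ _ _).trans (Finset.sum_le_sum fun m _ => ?_)
    by_cases hpm : p = 0 ∧ m = 0
    · obtain ⟨rfl, rfl⟩ := hpm
      rw [show w 0 = 1 by simp [hw], one_mul]
      refine le_of_eq ?_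
      unfold l2
      congr 1
      simp only [Finset.sum_product, W_zero, Finset.sum_singleton, List.nil_append, zero_add,
        sum_W_one, h.single, List.singleton_append, ite_mul, one_mul, zero_mul,
        Finset.sum_ite_eq, Finset.mem_univ, if_true]
      rw [Finset.sum_comm]
      refine Finset.sum_congr rfl fun b _ => ?_
      rw [show 1 + d = d + 1 by omega, sum_W_succ]
    · have hk : 2 ≤ p + (m + 1) := by omega
      have h1 := l2_matmul ((Finset.univ : Finset J) ×ˢ W p) (s ×ˢ W d) (W (m + 1))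
        (fun z => c z.1.1 (z.1.2 ++ z.2)) (fun z => f z.1.1 (z.2 ++ z.1.2))
      have e1 : l2 (((Finset.univ : Finset J) ×ˢ W p) ×ˢ W (m + 1))
          (fun z => c z.1.1 (z.1.2 ++ z.2)) ≤ w m := by
        rw [show w m = (1 / 64 : ℝ) ^ (p + (m + 1) + 1) by simp [hw, hpm]; ring]
        refine le_trans (le_of_eq ?_) (h.l2_le hk)
        unfold l2
        simp only [Finset.sum_product, sum_W_add p (m + 1)]
      have e2 : l2 ((s ×ˢ W d) ×ˢ W (m + 1)) (fun z => f z.1.1 (z.2 ++ z.1.2)) =
          l2 (s ×ˢ W (m + 1 + d)) (fun z => f z.1 z.2) := by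
        unfold l2
        simp only [Finset.sum_product, sum_W_add (m + 1) d]
        exact congrArg Real.sqrt (Finset.sum_congr rfl fun b _ => Finset.sum_comm)
      refine le_trans (le_of_eq ?_) (h1.trans (e2 ▸ mul_le_mul_of_nonneg_right e1 (l2_nonneg _ _)))
      unfold l2
      simp only [Finset.sum_product]
  calc ∑ d ∈ Finset.range D, (2 : ℝ) ^ d * dn _ _ d
      ≤ ∑ d ∈ Finset.range D, ∑ m ∈ Finset.range N, (2 : ℝ) ^ d * (w m * dn s f (m + 1 + d)) :=
        Finset.sum_le_sum fun d _ => by
          rw [← Finset.mul_sum]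
          exact mul_le_mul_of_nonneg_left (hd d) (by positivity)
    _ = ∑ m ∈ Finset.range N, w m * ∑ d ∈ Finset.range D, (2 : ℝ) ^ d * dn s f (m + 1 + d) := by
        rw [Finset.sum_comm]
        simp only [Finset.mul_sum]
        exact Finset.sum_congr rfl fun m _ => Finset.sum_congr rfl fun d _ => by ring
    _ ≤ ∑ m ∈ Finset.range N, ((if p = 0 ∧ m = 0 then (1 / 2 : ℝ) else 0) +
          (1 / 64 : ℝ) ^ (p + 1) * ((1 / 128) ^ m / 2)) * fn s f := by
        refine Finset.sum_le_sum fun m _ => ?_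
        refine (mul_le_mul_of_nonneg_left (shift_sum_le_fn s f (m + 1) D) (hw0 m)).trans ?_
        rw [mul_div_assoc', div_le_iff₀ (by positivity)]
        have hF := fn_nonneg s f
        by_cases hpm : p = 0 ∧ m = 0
        · obtain ⟨rfl, rfl⟩ := hpm
          norm_num [hw]
          nlinarith
        · rw [if_neg hpm, zero_add]
          simp only [hw, if_neg hpm]
          rw [show (1 / 128 : ℝ) ^ m = (1 / 64) ^ m * (1 / 2) ^ m by rw [← mul_pow]; norm_num]
          have e : (1 / 2 : ℝ) ^ m * 2 ^ m = 1 := by rw [← mul_pow]; norm_num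
          calc (1 / 64 : ℝ) ^ (p + m + 2) * fn s f
              = (1 / 64 : ℝ) ^ (p + 1) * (1 / 64) ^ m * fn s f * (1 / 64) := by ring
            _ ≤ (1 / 64 : ℝ) ^ (p + 1) * (1 / 64) ^ m * fn s f * 1 :=
                mul_le_mul_of_nonneg_left (by norm_num) (by positivity)
            _ = (1 / 64 : ℝ) ^ (p + 1) * ((1 / 64) ^ m * (1 / 2) ^ m / 2) * fn s f *
                  2 ^ (m + 1) := by
                rw [pow_succ (2 : ℝ)]
                linear_combination (-(1 / 64 : ℝ) ^ (p + 1) * (1 / 64) ^ m * fn s f) * e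
    _ ≤ _ := by
        rw [← Finset.sum_mul]
        refine mul_le_mul_of_nonneg_right ?_ (fn_nonneg _ _)
        rw [Finset.sum_add_distrib]
        refine add_le_add ?_ ?_
        · by_cases hp : p = 0
          · subst hp
            simp only [true_and, Finset.sum_ite_eq', if_true]
            split_ifs <;> norm_num
          · simp [hp]
        · rw [← Finset.mul_sum, ← Finset.sum_div]
          refine mul_le_of_le_one_right (by positivity) ?_
          rw [div_le_one (by norm_num : (0 : ℝ) < 2)]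
          exact geom_le_two (by norm_num) (by norm_num) N

/-- The family `(V_b χ_a)` over `|b| = k` has norm at most that of `χ`. -/
theorem V_family (h : Small c) (k : ℕ) :
    ∀ (α : Type) (s : Finset α) (χ : α → Fck J),
      fn (W k ×ˢ s) (fun q => V c q.1 (χ q.2)) ≤ fn s χ := by
  induction k using Nat.strong_induction_on with
  | _ k ih =>
    intro α s χ
    cases k with
    | zero =>
      refine le_of_eq ?_
      simp [fn, dn, l2, Finset.sum_product, W_zero, V_nil]
    | succ k =>
      let g : ℕ → List J × α → Fck J := fun p q =>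
        match q.1 with
        | [] => 0
        | i :: w => Mop c i (w.take p) (V c (w.drop p) (χ q.2))
      have hg : fn (W (k + 1) ×ˢ s) (fun q => V c q.1 (χ q.2)) =
          fn (W (k + 1) ×ˢ s) (fun q => ∑ p ∈ Finset.range (k + 1), g p q) := by
        refine fn_congr ?_
        rintro ⟨b, a⟩ hq
        simp only [Finset.mem_product, mem_W] at hq
        cases b with
        | nil => simp at hq
        | cons i w =>
          have hl : w.length = k := by simpa using hq.1
          simp [g, V_cons, hl, LinearMap.sum_apply, Module.End.mul_apply]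
      rw [hg]
      refine (fn_sum_le _ _ _).trans ?_
      have hp : ∀ p ∈ Finset.range (k + 1), fn (W (k + 1) ×ˢ s) (g p) ≤
          ((if p = 0 then 1 / 2 else 0) + (1 / 64 : ℝ) ^ (p + 1)) * fn s χ := by
        intro p hp
        have hp' := Finset.mem_range.1 hp
        have e : fn (W (k + 1) ×ˢ s) (g p) =
            fn (((Finset.univ : Finset J) ×ˢ W p) ×ˢ (W (k - p) ×ˢ s))
              (fun q => Mop c q.1.1 q.1.2 (V c q.2.1 (χ q.2.2))) := by
          unfold fn dn l2
          refine tsum_congr fun n => ?_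
          congr 2
          simp only [Finset.sum_product]
          rw [sum_W_succ]
          refine Finset.sum_congr rfl fun i _ => ?_
          have hsplit : k = p + (k - p) := by omega
          conv_lhs => rw [hsplit, sum_W_add]
          refine Finset.sum_congr rfl fun a ha => Finset.sum_congr rfl fun b _ => ?_
          simp only [g, List.take_left' (mem_W.1 ha), List.drop_left' (mem_W.1 ha)]
        rw [e]
        refine (mop_family h _ (fun q : List J × α => V c q.1 (χ q.2)) p).trans ?_
        exact mul_le_mul_of_nonneg_left (ih (k - p) (by omega) α s χ) (by positivity)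
      refine (Finset.sum_le_sum hp).trans ?_
      rw [← Finset.sum_mul]
      refine mul_le_of_le_one_left (fn_nonneg _ _) ?_
      rw [Finset.sum_add_distrib, Finset.sum_ite_eq', if_pos (by simp)]
      have := geom_le_two (x := (1 / 64 : ℝ)) (by norm_num) (by norm_num) (k + 1)
      simp only [pow_succ, ← Finset.sum_mul]
      nlinarith

/-- Contraction of a family of multiplication operators with a family of vectors. -/
theorem contraction (h : Small c) {β γ α : Type} (s : Finset β) (O : Finset γ) (t : Finset α)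
    (φ : β × γ → Fck J) (χ : β × α → Fck J) :
    fn (O ×ˢ t) (fun q => ∑ b ∈ s, leftMul c (φ (b, q.1)) (χ (b, q.2))) ≤
      2 * fn (s ×ˢ O) φ * fn (s ×ˢ t) χ := by
  obtain ⟨N, hN⟩ := exists_degree_bound (s ×ˢ O) φ
  let A : ℕ → ℝ := fun n => dn (s ×ˢ O) φ n
  let B : ℕ → ℕ → ℝ := fun k d => dn (W k ×ˢ (s ×ˢ t)) (fun q => V c q.1 (χ q.2)) d
  refine fn_le _ _ fun D => ?_
  have hn : ∀ n, dn (O ×ˢ t) (fun q => ∑ b ∈ s, leftMul c (φ (b, q.1)) (χ (b, q.2))) n ≤
      ∑ p ∈ Finset.range (n + 1), ∑ k ∈ Finset.range N, A (p + k) * B k (n - p) := by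
    intro n
    unfold dn
    rw [l2_congr (h := fun q : (γ × α) × List J => ∑ p ∈ Finset.range (n + 1),
      ∑ k ∈ Finset.range N, ∑ r ∈ s ×ˢ W k, φ (r.1, q.1.1) (q.2.take p ++ r.2) *
        V c r.2 (χ (r.1, q.1.2)) (q.2.drop p))]
    swap
    · rintro ⟨⟨o, a⟩, x⟩ hq
      simp only [Finset.mem_product, mem_W] at hq
      rw [Finsupp.finsetSum_apply]
      calc ∑ b ∈ s, leftMul c (φ (b, o)) (χ (b, a)) x
          = ∑ b ∈ s, ∑ p ∈ Finset.range (n + 1), ∑ k ∈ Finset.range N, ∑ w ∈ W k,
              φ (b, o) (x.take p ++ w) * V c w (χ (b, a)) (x.drop p) :=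
            Finset.sum_congr rfl fun b hb => by
              rw [leftMul_coeff c _ _ x (hN (b, o) (Finset.mem_product.2 ⟨hb, hq.1.1⟩)), hq.2]
        _ = _ := by
            rw [Finset.sum_comm]
            refine Finset.sum_congr rfl fun p _ => ?_
            rw [Finset.sum_comm]
            exact Finset.sum_congr rfl fun k _ => (Finset.sum_product' s (W k) _).symm
    refine (l2_sum _ _ _).trans (Finset.sum_le_sum fun p hp => ?_)
    refine (l2_sum _ _ _).trans (Finset.sum_le_sum fun k _ => ?_)
    obtain ⟨d, rfl⟩ : ∃ d, n = p + d := ⟨n - p, by have := Finset.mem_range.1 hp; omega⟩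
    rw [add_tsub_cancel_left]
    have h1 := l2_matmul (O ×ˢ W p) (t ×ˢ W d) (s ×ˢ W k)
      (fun z => φ (z.2.1, z.1.1) (z.1.2 ++ z.2.2))
      (fun z => V c z.2.2 (χ (z.2.1, z.1.1)) z.1.2)
    have e1 : l2 ((O ×ˢ W p) ×ˢ (s ×ˢ W k)) (fun z => φ (z.2.1, z.1.1) (z.1.2 ++ z.2.2)) =
        A (p + k) := by
      simp only [A, dn, l2, Finset.sum_product, sum_W_add p k]
      exact congrArg Real.sqrt
        ((Finset.sum_congr rfl fun o _ => Finset.sum_comm).trans Finset.sum_comm)
    have e2 : l2 ((t ×ˢ W d) ×ˢ (s ×ˢ W k)) (fun z => V c z.2.2 (χ (z.2.1, z.1.1)) z.1.2) =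
        B k d := by
      simp only [B, dn, l2]
      refine congrArg Real.sqrt ?_
      rw [Finset.sum_product, Finset.sum_comm]
      simp only [Finset.sum_product]
      rw [Finset.sum_comm]
    rw [e1, e2] at h1
    refine le_trans (le_of_eq ?_) h1
    unfold l2
    refine congrArg Real.sqrt ?_
    simp only [Finset.sum_product, sum_W_add p d]
    refine Finset.sum_congr rfl fun o _ => ?_
    rw [Finset.sum_comm]
    refine Finset.sum_congr rfl fun a ha => Finset.sum_congr rfl fun b _ =>
      Finset.sum_congr rfl fun z _ => ?_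
    simp only [List.take_left' (mem_W.1 ha), List.drop_left' (mem_W.1 ha)]
  have hA : ∀ n, 0 ≤ A n := fun n => dn_nonneg _ _ _
  have hB : ∀ k d, 0 ≤ B k d := fun k d => dn_nonneg _ _ _
  calc ∑ n ∈ Finset.range D, (2 : ℝ) ^ n * dn _ _ n
      ≤ ∑ n ∈ Finset.range D, ∑ p ∈ Finset.range (n + 1),
          ∑ k ∈ Finset.range N, (2 : ℝ) ^ p * A (p + k) * (2 ^ (n - p) * B k (n - p)) :=
        Finset.sum_le_sum fun n _ => by
          refine (mul_le_mul_of_nonneg_left (hn n) (by positivity)).trans_eq ?_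
          rw [Finset.mul_sum]
          refine Finset.sum_congr rfl fun p hp => ?_
          rw [Finset.mul_sum]
          refine Finset.sum_congr rfl fun k _ => ?_
          have : (2 : ℝ) ^ n = 2 ^ p * 2 ^ (n - p) := by
            rw [← pow_add, Nat.add_sub_cancel' (Nat.lt_succ_iff.1 (Finset.mem_range.1 hp))]
          rw [this]
          ring
    _ ≤ ∑ p ∈ Finset.range D, ∑ d ∈ Finset.range D,
          ∑ k ∈ Finset.range N, (2 : ℝ) ^ p * A (p + k) * (2 ^ d * B k d) :=
        tri_le (fun p d => ∑ k ∈ Finset.range N, (2 : ℝ) ^ p * A (p + k) * (2 ^ d * B k d))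
          (fun p d => Finset.sum_nonneg fun k _ =>
            mul_nonneg (mul_nonneg (by positivity) (hA _)) (mul_nonneg (by positivity) (hB _ _))) D
    _ = ∑ k ∈ Finset.range N, (∑ p ∈ Finset.range D, (2 : ℝ) ^ p * A (p + k)) *
          ∑ d ∈ Finset.range D, 2 ^ d * B k d := by
        rw [Finset.sum_congr rfl fun p _ => Finset.sum_comm, Finset.sum_comm]
        simp only [Finset.sum_mul_sum]
    _ ≤ ∑ k ∈ Finset.range N, fn (s ×ˢ O) φ * (1 / 2) ^ k * fn (s ×ˢ t) χ := by
        refine Finset.sum_le_sum fun k _ => mul_le_mul ?_ ?_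
          (Finset.sum_nonneg fun d _ => mul_nonneg (by positivity) (hB _ _))
          (mul_nonneg (fn_nonneg _ _) (by positivity))
        · have := shift_sum_le_fn (s ×ˢ O) φ k D
          simp only [A, add_comm _ k]
          refine this.trans_eq ?_
          rw [one_div_pow]
          ring
        · exact (sum_le_fn _ _ _).trans (V_family h k _ (s ×ˢ t) χ)
    _ ≤ _ := by
        rw [← Finset.sum_mul, ← Finset.mul_sum]
        refine mul_le_mul_of_nonneg_right ?_ (fn_nonneg _ _)
        rw [mul_comm (2 : ℝ)]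
        exact mul_le_mul_of_nonneg_left (geom_le_two (by norm_num) le_rfl N) (fn_nonneg _ _)

/-- The part `∑_{|u| ≥ 2} c(j,u) annihilate_u` contracted over `j`. -/
theorem tail_contraction (h : Small c) {α : Type} (t : Finset α) (f : J × α → Fck J) :
    fn t (fun o => ∑ j, (Mop c j [] (f (j, o)) - annihilate j (f (j, o)))) ≤
      (1 / 64 : ℝ) * fn ((Finset.univ : Finset J) ×ˢ t) f := by
  obtain ⟨N, hN⟩ := exists_degree_bound ((Finset.univ : Finset J) ×ˢ t) f
  refine fn_le _ _ fun D => ?_
  have hd : ∀ d, dn t (fun o => ∑ j, (Mop c j [] (f (j, o)) - annihilate j (f (j, o)))) d ≤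
      ∑ m ∈ Finset.range N, (1 / 64 : ℝ) ^ (m + 3) *
        dn ((Finset.univ : Finset J) ×ˢ t) f (m + 2 + d) := by
    intro d
    unfold dn
    rw [l2_congr (h := fun q : α × List J => ∑ m ∈ Finset.range N,
      ∑ r ∈ (Finset.univ : Finset J) ×ˢ W (m + 2), c r.1 r.2 * f (r.1, q.1) (r.2 ++ q.2))]
    swap
    · rintro ⟨o, x⟩ hq
      have ho := (Finset.mem_product.1 hq).1
      simp only [Finsupp.finsetSum_apply, Finsupp.sub_apply, annihilate_apply,
        Finset.sum_product]
      rw [Finset.sum_comm (s := Finset.range N)]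
      refine Finset.sum_congr rfl fun j _ => ?_
      have hb : ∀ z : List J, N + 1 ≤ z.length → f (j, o) z = 0 := fun z hz =>
        hN (j, o) (Finset.mem_product.2 ⟨Finset.mem_univ _, ho⟩) z (by omega)
      rw [Mop_apply c j [] _ x hb, Finset.sum_range_succ']
      simp [sum_W_one, h.single]
    refine (l2_sum _ _ _).trans (Finset.sum_le_sum fun m _ => ?_)
    have h1 := l2_matmul (Finset.univ : Finset Unit) (t ×ˢ W d)
      ((Finset.univ : Finset J) ×ˢ W (m + 2))
      (fun z => c z.2.1 z.2.2) (fun z => f (z.2.1, z.1.1) (z.2.2 ++ z.1.2))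
    have e1 : l2 ((Finset.univ : Finset Unit) ×ˢ ((Finset.univ : Finset J) ×ˢ W (m + 2)))
        (fun z => c z.2.1 z.2.2) ≤ (1 / 64 : ℝ) ^ (m + 3) := by
      refine le_trans (le_of_eq ?_) (h.l2_le (k := m + 2) (by omega))
      simp [l2, Finset.sum_product]
    have e2 : l2 ((t ×ˢ W d) ×ˢ ((Finset.univ : Finset J) ×ˢ W (m + 2)))
        (fun z => f (z.2.1, z.1.1) (z.2.2 ++ z.1.2)) =
        l2 (((Finset.univ : Finset J) ×ˢ t) ×ˢ W (m + 2 + d)) (fun z => f z.1 z.2) := by
      unfold l2
      simp only [Finset.sum_product, sum_W_add (m + 2) d]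
      refine congrArg Real.sqrt ?_
      calc _ = ∑ o ∈ t, ∑ j : J, ∑ x ∈ W d, ∑ r ∈ W (m + 2), f (j, o) (r ++ x) ^ 2 :=
            Finset.sum_congr rfl fun _ _ => Finset.sum_comm
        _ = _ := by
            rw [Finset.sum_comm]
            exact Finset.sum_congr rfl fun _ _ => Finset.sum_congr rfl fun _ _ => Finset.sum_comm
    refine le_trans (le_of_eq ?_) (h1.trans (e2 ▸ mul_le_mul_of_nonneg_right e1 (l2_nonneg _ _)))
    unfold l2
    simp [Finset.sum_product]
  set F := fn ((Finset.univ : Finset J) ×ˢ t) f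
  have hF : 0 ≤ F := fn_nonneg _ _
  calc ∑ d ∈ Finset.range D, (2 : ℝ) ^ d * dn _ _ d
      ≤ ∑ d ∈ Finset.range D, ∑ m ∈ Finset.range N, (2 : ℝ) ^ d * ((1 / 64 : ℝ) ^ (m + 3) *
          dn ((Finset.univ : Finset J) ×ˢ t) f (m + 2 + d)) :=
        Finset.sum_le_sum fun d _ => by
          rw [← Finset.mul_sum]
          exact mul_le_mul_of_nonneg_left (hd d) (by positivity)
    _ = ∑ m ∈ Finset.range N, (1 / 64 : ℝ) ^ (m + 3) * ∑ d ∈ Finset.range D,
          (2 : ℝ) ^ d * dn ((Finset.univ : Finset J) ×ˢ t) f (m + 2 + d) := by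
        rw [Finset.sum_comm]
        simp only [Finset.mul_sum]
        exact Finset.sum_congr rfl fun m _ => Finset.sum_congr rfl fun d _ => by ring
    _ ≤ ∑ m ∈ Finset.range N, (1 / 64 : ℝ) * ((1 / 128) ^ m / 2) * F := by
        refine Finset.sum_le_sum fun m _ => ?_
        refine (mul_le_mul_of_nonneg_left (shift_sum_le_fn _ f (m + 2) D) (by positivity)).trans ?_
        rw [show (1 / 128 : ℝ) ^ m = (1 / 64) ^ m * (1 / 2) ^ m by rw [← mul_pow]; norm_num,
          show ((2 : ℝ) ^ (m + 2)) = 4 * 2 ^ m by ring, one_div_pow (2 : ℝ)]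
        have h2 : (0 : ℝ) < 2 ^ m := by positivity
        have h6 : (0 : ℝ) ≤ (1 / 64) ^ m := by positivity
        rw [show (1 / 64 : ℝ) ^ (m + 3) * (F / (4 * 2 ^ m)) =
            ((1 / 64 : ℝ) ^ m * F / 2 ^ m) * ((1 / 64) ^ 3 / 4) by ring,
          show 1 / 64 * ((1 / 64 : ℝ) ^ m * (1 / 2 ^ m) / 2) * F =
            ((1 / 64 : ℝ) ^ m * F / 2 ^ m) * (1 / 128) by ring]
        exact mul_le_mul_of_nonneg_left (by norm_num) (by positivity)
    _ ≤ _ := by
        rw [← Finset.sum_mul, ← Finset.mul_sum, ← Finset.sum_div]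
        refine mul_le_mul_of_nonneg_right ?_ hF
        have := geom_le_two (x := (1 / 128 : ℝ)) (by norm_num) (by norm_num) N
        linarith

/-- Contraction of creation operators. -/
theorem create_contraction {α : Type} (t : Finset α) (f : J × α → Fck J) :
    fn t (fun o => ∑ j, create j (f (j, o))) ≤
      2 * fn ((Finset.univ : Finset J) ×ˢ t) f := by
  have hval : ∀ o x, (∑ j, create j (f (j, o))) x =
      match x with | [] => 0 | i :: z => f (i, o) z := by
    intro o x
    have hc : ∀ j : J, create j = prepend [j] := fun j => rfl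
    simp only [Finsupp.finsetSum_apply, hc, prepend_apply]
    cases x with
    | nil => simp
    | cons i z => simp [List.cons_prefix_cons]
  have h0 : dn t (fun o => ∑ j, create j (f (j, o))) 0 = 0 := by
    unfold dn
    rw [l2_congr (h := fun _ => 0)]
    · exact l2_zero _
    · rintro ⟨o, x⟩ hq
      simp only [Finset.mem_product, mem_W, List.length_eq_zero_iff] at hq
      rw [hq.2]
      exact hval o []
  have hs : ∀ n, dn t (fun o => ∑ j, create j (f (j, o))) (n + 1) =
      dn ((Finset.univ : Finset J) ×ˢ t) f n := by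
    intro n
    unfold dn l2
    simp only [Finset.sum_product, sum_W_succ, hval]
    rw [Finset.sum_comm]
  refine fn_le _ _ fun D => ?_
  cases D with
  | zero => simpa using mul_nonneg (by norm_num : (0 : ℝ) ≤ 2) (fn_nonneg _ f)
  | succ D =>
    rw [Finset.sum_range_succ', h0, mul_zero, add_zero]
    simp only [hs, pow_succ, mul_comm ((2 : ℝ) ^ _) 2, mul_assoc, ← Finset.mul_sum]
    exact mul_le_mul_of_nonneg_left (sum_le_fn _ _ _) (by norm_num)

variable (c)

/-- `A_j φ = J_j φ - annihilate_j φ + L(G_j) φ`. -/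
def Aop (G : J → Fck J) (j : J) : FckOp J := modelOp c j - annihilate j + leftMul c (G j)

/-- `Mx [] = vac`, `Mx (j :: w) = A_j (Mx w)`. -/
def Mx (G : J → Fck J) : List J → Fck J
  | [] => vac
  | j :: w => Aop c G j (Mx G w)

/-- `Mx` extended to tensors of degree `k`. -/
def Mxs (G : J → Fck J) (k : ℕ) (C : List J → ℝ) : Fck J := ∑ w ∈ W k, C w • Mx c G w

theorem Mxs_zero (G : J → Fck J) (C : List J → ℝ) : Mxs c G 0 C = C [] • vac := by
  simp [Mxs, W_zero, Mx]

theorem Mxs_succ (G : J → Fck J) (k : ℕ) (C : List J → ℝ) :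
    Mxs c G (k + 1) C = ∑ j, Aop c G j (Mxs c G k fun w => C (j :: w)) := by
  simp [Mxs, sum_W_succ, Mx, map_sum]

variable {c}

theorem leftMul_family (h : Small c) (G : J → Fck J) {α : Type} (t : Finset α)
    (f : J × α → Fck J) :
    fn t (fun o => ∑ j, leftMul c (G j) (f (j, o))) ≤
      2 * fn Finset.univ G * fn ((Finset.univ : Finset J) ×ˢ t) f := by
  have := contraction h (Finset.univ : Finset J) (Finset.univ : Finset Unit) t
    (fun q => G q.1) f
  rw [fn_unit_right Finset.univ G] at this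
  rwa [fn_unit_left t fun o => ∑ j, leftMul c (G j) (f (j, o))] at this

theorem aop_contraction (h : Small c) (G : J → Fck J) (hG : fn Finset.univ G ≤ 1 / 64)
    {α : Type} (t : Finset α) (f : J × α → Fck J) :
    fn t (fun o => ∑ j, Aop c G j (f (j, o))) ≤
      3 * fn ((Finset.univ : Finset J) ×ˢ t) f := by
  have e : fn t (fun o => ∑ j, Aop c G j (f (j, o))) = fn t (fun o =>
      ((∑ j, create j (f (j, o))) + ∑ j, (Mop c j [] (f (j, o)) - annihilate j (f (j, o)))) +
        ∑ j, leftMul c (G j) (f (j, o))) := by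
    refine fn_congr fun o _ => ?_
    simp only [Aop, modelOp_eq c _ (h.nil _), LinearMap.add_apply, LinearMap.sub_apply,
      Finset.sum_add_distrib, Finset.sum_sub_distrib]
    abel
  rw [e]
  refine (fn_add_le _ _ _).trans ?_
  refine (add_le_add ((fn_add_le _ _ _).trans (add_le_add (create_contraction t f)
    (tail_contraction h t f))) (leftMul_family h G t f)).trans ?_
  have := mul_le_mul_of_nonneg_right hG (fn_nonneg ((Finset.univ : Finset J) ×ˢ t) f)
  nlinarith [fn_nonneg ((Finset.univ : Finset J) ×ˢ t) f]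

theorem l2_shift {α : Type} (t : Finset α) (C : α → List J → ℝ) (k : ℕ) :
    l2 (((Finset.univ : Finset J) ×ˢ t) ×ˢ W k) (fun q => C q.1.2 (q.1.1 :: q.2)) =
      l2 (t ×ˢ W (k + 1)) (fun q => C q.1 q.2) := by
  unfold l2
  simp only [Finset.sum_product, sum_W_succ]
  rw [Finset.sum_comm]

theorem fn_smul_vac {α : Type} (t : Finset α) (C : α → List J → ℝ) :
    fn t (fun o => C o [] • (vac : Fck J)) ≤ l2 (t ×ˢ W 0) (fun q => C q.1 q.2) := by
  have h0 : dn t (fun o => C o [] • (vac : Fck J)) 0 = l2 (t ×ˢ W 0) (fun q => C q.1 q.2) := by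
    simp [dn, l2, W_zero, vac]
  have hs : ∀ n, dn t (fun o => C o [] • (vac : Fck J)) (n + 1) = 0 := by
    intro n
    unfold dn
    rw [l2_congr (h := fun _ => 0)]
    · exact l2_zero _
    · rintro ⟨o, x⟩ hq
      simp only [Finset.mem_product, mem_W] at hq
      cases x with
      | nil => simp at hq
      | cons i z => simp [vac]
  refine fn_le _ _ fun D => ?_
  cases D with
  | zero => simpa using l2_nonneg _ _
  | succ D => simp [Finset.sum_range_succ', h0, hs]

theorem Mxs_bound (h : Small c) (G : J → Fck J) (hG : fn Finset.univ G ≤ 1 / 64) :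
    ∀ (k : ℕ) (α : Type) (t : Finset α) (C : α → List J → ℝ),
      fn t (fun o => Mxs c G k (C o)) ≤ 3 ^ k * l2 (t ×ˢ W k) (fun q => C q.1 q.2) := by
  intro k
  induction k with
  | zero =>
    intro α t C
    simp only [Mxs_zero, pow_zero, one_mul]
    exact fn_smul_vac t C
  | succ k ih =>
    intro α t C
    simp only [Mxs_succ]
    refine (aop_contraction h G hG t fun q => Mxs c G k fun w => C q.2 (q.1 :: w)).trans ?_
    refine (mul_le_mul_of_nonneg_left (ih _ ((Finset.univ : Finset J) ×ˢ t)
      fun q w => C q.2 (q.1 :: w)) (by norm_num : (0 : ℝ) ≤ 3)).trans_eq ?_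
    rw [l2_shift t C k]
    ring

theorem Mxs_diff (h : Small c) (G G' : J → Fck J) (hG : fn Finset.univ G ≤ 1 / 64)
    (hG' : fn Finset.univ G' ≤ 1 / 64) :
    ∀ (k : ℕ) (α : Type) (t : Finset α) (C : α → List J → ℝ),
      fn t (fun o => Mxs c G k (C o) - Mxs c G' k (C o)) ≤
        (k : ℝ) * 3 ^ k * fn Finset.univ (fun j => G j - G' j) *
          l2 (t ×ˢ W k) (fun q => C q.1 q.2) := by
  intro k
  induction k with
  | zero =>
    intro α t C
    simp only [Mxs_zero, sub_self]
    refine fn_le _ _ fun D => le_of_eq ?_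
    simp [dn, l2]
  | succ k ih =>
    intro α t C
    set d := fn Finset.univ (fun j => G j - G' j) with hd
    set y : (J → Fck J) → J × α → Fck J := fun G q => Mxs c G k fun w => C q.2 (q.1 :: w) with hy
    have e : fn t (fun o => Mxs c G (k + 1) (C o) - Mxs c G' (k + 1) (C o)) =
        fn t (fun o => (∑ j, Aop c G j (y G (j, o) - y G' (j, o))) +
          ∑ j, leftMul c ((fun j => G j - G' j) j) (y G' (j, o))) := by
      refine fn_congr fun o _ => ?_
      simp only [Mxs_succ, hy, Aop, map_sub, LinearMap.add_apply, LinearMap.sub_apply,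
        Finset.sum_add_distrib, Finset.sum_sub_distrib]
      abel
    rw [e]
    refine (fn_add_le _ _ _).trans ?_
    refine (add_le_add (aop_contraction h G hG t fun q => y G q - y G' q)
      (leftMul_family h (fun j => G j - G' j) t (y G'))).trans ?_
    have h1 := ih _ ((Finset.univ : Finset J) ×ˢ t) fun q w => C q.2 (q.1 :: w)
    have h2 := Mxs_bound h G' hG' k _ ((Finset.univ : Finset J) ×ˢ t) fun q w => C q.2 (q.1 :: w)
    rw [l2_shift t C k] at h1 h2
    set L := l2 (t ×ˢ W (k + 1)) (fun q => C q.1 q.2)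
    have hd0 : 0 ≤ d := fn_nonneg _ _
    have hL : 0 ≤ L := l2_nonneg _ _
    calc 3 * fn _ (fun q => y G q - y G' q) + 2 * d * fn _ (y G')
        ≤ 3 * ((k : ℝ) * 3 ^ k * d * L) + 2 * d * (3 ^ k * L) :=
          add_le_add (mul_le_mul_of_nonneg_left h1 (by norm_num))
            (mul_le_mul_of_nonneg_left h2 (by positivity))
      _ ≤ ((k + 1 : ℕ) : ℝ) * 3 ^ (k + 1) * d * L := by
          push_cast
          rw [pow_succ]
          have : 0 ≤ (3 : ℝ) ^ k * d * L := by positivity
          nlinarith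

variable (c)

/-- The iteration for the corrections of the conjugate variables. -/
def iter : ℕ → J → Fck J
  | 0 => fun _ => 0
  | m + 1 => fun j => -∑ k ∈ Finset.range (m + 1), Mxs c (iter m) (k + 2) fun w => c j w.reverse

variable {c}

theorem iter_bound (h : Small c) : ∀ m, fn Finset.univ (iter c m) ≤ 1 / 64 := by
  intro m
  induction m with
  | zero =>
    refine fn_le _ _ fun D => ?_
    simp [iter, dn, l2]
  | succ m ih =>
    simp only [iter]
    rw [fn_neg]
    refine (fn_sum_le _ _ _).trans ?_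
    refine (Finset.sum_le_sum fun k _ => (Mxs_bound h _ ih (k + 2) J Finset.univ
      fun j w => c j w.reverse).trans (mul_le_mul_of_nonneg_left
        (h.l2_reverse_le (by omega)) (by positivity))).trans ?_
    have : ∀ k : ℕ, (3 : ℝ) ^ (k + 2) * (1 / 64) ^ (k + 2 + 1) =
        (9 / 262144) * (3 / 64) ^ k := fun k => by
      rw [show (3 / 64 : ℝ) ^ k = 3 ^ k * (1 / 64) ^ k by rw [← mul_pow]; norm_num]
      ring
    simp only [this, ← Finset.mul_sum]
    have := geom_le_two (x := (3 / 64 : ℝ)) (by norm_num) (by norm_num) (m + 1)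
    linarith

theorem iter_diff (h : Small c) :
    ∀ m, fn Finset.univ (fun j => iter c (m + 1) j - iter c m j) ≤ (1 / 2 : ℝ) ^ m := by
  intro m
  induction m with
  | zero =>
    exact (le_of_eq (fn_congr (g := iter c 1) fun j _ => sub_zero _)).trans
      ((iter_bound h 1).trans (by norm_num))
  | succ m ih =>
    have e : fn Finset.univ (fun j => iter c (m + 1 + 1) j - iter c (m + 1) j) =
        fn Finset.univ (fun j => -((∑ k ∈ Finset.range (m + 1),
          (Mxs c (iter c (m + 1)) (k + 2) (fun w => c j w.reverse) -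
            Mxs c (iter c m) (k + 2) (fun w => c j w.reverse))) +
          Mxs c (iter c (m + 1)) (m + 1 + 2) (fun w => c j w.reverse))) := by
      refine fn_congr fun j _ => ?_
      conv_lhs => rw [iter, iter]
      simp only [Finset.sum_range_succ (n := m + 1), Finset.sum_sub_distrib]
      rw [show iter c (m + 1) = fun j => -∑ k ∈ Finset.range (m + 1),
        Mxs c (iter c m) (k + 2) fun w => c j w.reverse from rfl]
      abel
    rw [e, fn_neg]
    refine (fn_add_le _ _ _).trans ?_
    refine (add_le_add ((fn_sum_le _ _ _).trans (Finset.sum_le_sum fun k _ =>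
      (Mxs_diff h _ _ (iter_bound h (m + 1)) (iter_bound h m) (k + 2) J Finset.univ
        fun j w => c j w.reverse).trans (mul_le_mul_of_nonneg_left (h.l2_reverse_le (by omega))
          (mul_nonneg (by positivity) (fn_nonneg _ _)))))
      ((Mxs_bound h _ (iter_bound h (m + 1)) (m + 1 + 2) J Finset.univ
        fun j w => c j w.reverse).trans (mul_le_mul_of_nonneg_left (h.l2_reverse_le (by omega))
          (by positivity)))).trans ?_
    set d := fn Finset.univ (fun j => iter c (m + 1) j - iter c m j)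
    have hd : 0 ≤ d := fn_nonneg _ _
    have hterm : ∀ k ∈ Finset.range (m + 1),
        ((k + 2 : ℕ) : ℝ) * 3 ^ (k + 2) * d * (1 / 64) ^ (k + 2 + 1) ≤
          (36 / 262144) * (6 / 64) ^ k * d := by
      intro k _
      have h2 : ((k + 2 : ℕ) : ℝ) ≤ (2 : ℝ) ^ (k + 2) := by
        exact_mod_cast (Nat.lt_two_pow_self (n := k + 2)).le
      refine le_trans (mul_le_mul_of_nonneg_right (mul_le_mul_of_nonneg_right
        (mul_le_mul_of_nonneg_right h2 (by positivity)) hd) (by positivity)) (le_of_eq ?_)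
      rw [show (6 / 64 : ℝ) ^ k = 2 ^ k * 3 ^ k * (1 / 64) ^ k by
        rw [← mul_pow, ← mul_pow]; norm_num]
      ring
    have hlast : (3 : ℝ) ^ (m + 1 + 2) * (1 / 64) ^ (m + 1 + 2 + 1) ≤ (1 / 4) * (1 / 2) ^ m := by
      rw [show (3 : ℝ) ^ (m + 1 + 2) * (1 / 64) ^ (m + 1 + 2 + 1) =
        (27 / 16777216) * (3 / 64) ^ m by
          rw [show (3 / 64 : ℝ) ^ m = 3 ^ m * (1 / 64) ^ m by rw [← mul_pow]; norm_num]; ring]
      exact mul_le_mul (by norm_num) (pow_le_pow_left₀ (by norm_num) (by norm_num) m)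
        (by positivity) (by norm_num)
    refine (add_le_add (Finset.sum_le_sum hterm) hlast).trans ?_
    rw [← Finset.sum_mul, ← Finset.mul_sum, pow_succ]
    have := geom_le_two (x := (6 / 64 : ℝ)) (by norm_num) (by norm_num) (m + 1)
    nlinarith

/-- The error functional `ψ_j(v) = (L(φ_j) v)[] - v[j]`. -/
def psi (c : J → List J → ℝ) (φ : J → Fck J) (j : J) : Fck J →ₗ[ℝ] ℝ :=
  (Finsupp.lapply []).comp (leftMul c (φ j)) - Finsupp.lapply [j]

omit [Fintype J] [DecidableEq J] in
theorem psi_apply (φ : J → Fck J) (j : J) (v : Fck J) :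
    psi c φ j v = leftMul c (φ j) v [] - v [j] := rfl

theorem right_family {α : Type} (t : Finset α) (v : α → Fck J) :
    fn ((Finset.univ : Finset J) ×ˢ t) (fun q => annihilateRight q.1 (v q.2)) ≤ fn t v / 2 := by
  have hd : ∀ d, dn ((Finset.univ : Finset J) ×ˢ t) (fun q => annihilateRight q.1 (v q.2)) d =
      dn t v (1 + d) := by
    intro d
    unfold dn l2
    simp only [Finset.sum_product, annihilateRight_apply, add_comm 1 d, sum_W_add d 1, sum_W_one]
    rw [Finset.sum_comm]
    exact congrArg Real.sqrt (Finset.sum_congr rfl fun o _ => Finset.sum_comm)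
  refine fn_le _ _ fun D => ?_
  simp only [hd]
  simpa using shift_sum_le_fn t v 1 D

theorem E_bound (h : Small c) (G : J → Fck J) (hG : fn Finset.univ G ≤ 1 / 64) (e : ℝ)
    (he : 0 ≤ e)
    (hψ : ∀ y : J → Fck J,
      |∑ j, psi c (fun j => word [j] + G j) j (y j)| ≤ e * fn Finset.univ y) :
    ∀ (k : ℕ) (α : Type) (t : Finset α) (C : α → List J → ℝ) (v : α → Fck J),
      |∑ o ∈ t, (leftMul c (Mxs c G k (C o)) (v o) [] - ∑ w ∈ W k, C o w * v o w.reverse)| ≤
        4 * 3 ^ k * e * l2 (t ×ˢ W k) (fun q => C q.1 q.2) * fn t v := by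
  intro k
  induction k with
  | zero =>
    intro α t C v
    have : ∀ o ∈ t,
        leftMul c (Mxs c G 0 (C o)) (v o) [] - ∑ w ∈ W 0, C o w * v o w.reverse = 0 := by
      intro o _
      simp [Mxs_zero, W_zero, leftMul_nil]
    rw [Finset.sum_eq_zero this, abs_zero]
    exact mul_nonneg (mul_nonneg (by positivity) (l2_nonneg _ _)) (fn_nonneg _ _)
  | succ k ih =>
    intro α t C v
    set Y : J × α → Fck J := fun q => Mxs c G k fun w => C q.2 (q.1 :: w) with hY
    have step : ∀ (j : J) (o : α), leftMul c (Aop c G j (Y (j, o))) (v o) [] =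
        psi c (fun j => word [j] + G j) j (leftMul c (Y (j, o)) (v o)) +
          leftMul c (Y (j, o)) (annihilateRight j (v o)) [] := by
      intro j o
      have e1 : modelOp c j = leftMul c (word [j]) := (leftMul_single c j (h.nil j)).symm
      rw [psi_apply, Aop, LinearMap.add_apply, LinearMap.sub_apply, map_add, map_sub, e1,
        leftMul_leftMul, leftMul_leftMul, map_add]
      simp only [LinearMap.add_apply, LinearMap.sub_apply, Module.End.mul_apply,
        Finsupp.add_apply, Finsupp.sub_apply]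
      rw [leftMul_at_single c h.nil j (Y (j, o)) (v o)]
      ring
    have expand : ∑ o ∈ t, (leftMul c (Mxs c G (k + 1) (C o)) (v o) [] -
        ∑ w ∈ W (k + 1), C o w * v o w.reverse) =
        (∑ j, psi c (fun j => word [j] + G j) j (∑ o ∈ t, leftMul c (Y (j, o)) (v o))) +
        ∑ q ∈ (Finset.univ : Finset J) ×ˢ t,
          (leftMul c (Y q) (annihilateRight q.1 (v q.2)) [] -
            ∑ w ∈ W k, C q.2 (q.1 :: w) * annihilateRight q.1 (v q.2) w.reverse) := by
      simp only [map_sum, Finset.sum_product, Mxs_succ, LinearMap.sum_apply,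
        Finsupp.finsetSum_apply, sum_W_succ, annihilateRight_apply, List.reverse_cons]
      rw [Finset.sum_comm (t := t), Finset.sum_comm (t := t), ← Finset.sum_add_distrib]
      refine Finset.sum_congr rfl fun o _ => ?_
      rw [← Finset.sum_sub_distrib, ← Finset.sum_add_distrib]
      refine Finset.sum_congr rfl fun j _ => ?_
      rw [show (fun w => C o (j :: w)) = fun w => C (j, o).2 ((j, o).1 :: w) from rfl]
      rw [show Mxs c G k (fun w => C (j, o).2 ((j, o).1 :: w)) = Y (j, o) from rfl, step]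
      ring
    rw [expand]
    refine (abs_add_le _ _).trans ?_
    set L := l2 (t ×ˢ W (k + 1)) (fun q => C q.1 q.2) with hL
    have hyv : fn Finset.univ (fun j => ∑ o ∈ t, leftMul c (Y (j, o)) (v o)) ≤
        2 * (3 ^ k * L) * fn t v := by
      have h1 := contraction h t (Finset.univ : Finset J) (Finset.univ : Finset Unit)
        (fun q => Y (q.2, q.1)) (fun q => v q.1)
      rw [fn_unit_right t v,
        fn_unit_right Finset.univ fun j => ∑ o ∈ t, leftMul c (Y (j, o)) (v o)] at h1
      refine h1.trans (mul_le_mul_of_nonneg_right (mul_le_mul_of_nonneg_left ?_ (by norm_num))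
        (fn_nonneg _ _))
      refine (Mxs_bound h G hG k _ (t ×ˢ (Finset.univ : Finset J))
        fun q w => C q.1 (q.2 :: w)).trans_eq ?_
      rw [hL]
      simp only [l2, Finset.sum_product, sum_W_succ]
    have h2 := ih _ ((Finset.univ : Finset J) ×ˢ t) (fun q w => C q.2 (q.1 :: w))
      (fun q => annihilateRight q.1 (v q.2))
    rw [l2_shift t C k] at h2
    refine (add_le_add ((hψ _).trans (mul_le_mul_of_nonneg_left hyv he))
      (h2.trans (mul_le_mul_of_nonneg_left (right_family t v)
        (mul_nonneg (by positivity) (l2_nonneg _ _))))).trans ?_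
    rw [← hL]
    have : 0 ≤ 3 ^ k * e * L * fn t v :=
      mul_nonneg (mul_nonneg (by positivity) (l2_nonneg _ _)) (fn_nonneg _ _)
    rw [pow_succ]
    nlinarith

theorem single_value (h : Small c) (j : J) (v : Fck J) {N : ℕ}
    (hN : ∀ z : List J, N ≤ z.length → v z = 0) :
    leftMul c (word [j]) v [] =
      v [j] + ∑ k ∈ Finset.range N, ∑ r ∈ W (k + 2), c j r * v r := by
  have hc : create j v [] = 0 := by
    rw [show create j = prepend [j] from rfl, prepend_apply]
    simp
  rw [leftMul_single c j (h.nil j), modelOp_eq c j (h.nil j), LinearMap.add_apply,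
    Finsupp.add_apply, hc, zero_add,
    Mop_apply c j [] v [] (N := N + 1) fun z hz => hN z (by omega), Finset.sum_range_succ', add_comm]
  simp [sum_W_one, h.single]

theorem tail_bound (h : Small c) (v : J → Fck J) (a N : ℕ) :
    |∑ k ∈ Finset.Ico a N, ∑ j, ∑ r ∈ W (k + 2), c j r * v j r| ≤
      (1 / 64 : ℝ) ^ a * fn Finset.univ v := by
  refine (Finset.abs_sum_le_sum_abs _ _).trans ?_
  refine (Finset.sum_le_sum fun k _ => ?_).trans
    (b := ∑ k ∈ Finset.Ico a N, (1 / 64 : ℝ) ^ (k + 3) * fn Finset.univ v) ?_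
  · rw [← Finset.sum_product' (f := fun j r => c j r * v j r)]
    refine (abs_sum_mul_le ((Finset.univ : Finset J) ×ˢ W (k + 2)) (fun p => c p.1 p.2)
      fun p => v p.1 p.2).trans ?_
    refine mul_le_mul (h.l2_le (by omega)) ?_ (l2_nonneg _ _) (by positivity)
    exact (dn_le_fn _ v (k + 2)).trans
      (div_le_self (fn_nonneg _ _) (one_le_pow₀ (by norm_num)))
  · rw [← Finset.sum_mul, Finset.sum_Ico_eq_sum_range]
    refine mul_le_mul_of_nonneg_right ?_ (fn_nonneg _ _)
    have : ∀ i : ℕ, (1 / 64 : ℝ) ^ (a + i + 3) = (1 / 64) ^ a * (1 / 262144) * (1 / 64) ^ i :=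
      fun i => by ring
    simp only [this, ← Finset.mul_sum]
    have h2 := geom_le_two (x := (1 / 64 : ℝ)) (by norm_num) (by norm_num) (N - a)
    have h3 : (0 : ℝ) ≤ (1 / 64) ^ a := by positivity
    nlinarith

theorem psi_bound (h : Small c) :
    ∀ (m : ℕ) (v : J → Fck J),
      |∑ j, psi c (fun j => word [j] + iter c m j) j (v j)| ≤
        (1 / 2 : ℝ) ^ m * fn Finset.univ v := by
  intro m
  induction m with
  | zero =>
    intro v
    obtain ⟨N, hN⟩ := exists_degree_bound Finset.univ v
    have e : ∀ j, psi c (fun j => word [j] + iter c 0 j) j (v j) =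
        ∑ k ∈ Finset.Ico 0 N, ∑ r ∈ W (k + 2), c j r * v j r := by
      intro j
      rw [psi_apply, show iter c 0 j = 0 from rfl, add_zero,
        single_value h j (v j) (hN j (Finset.mem_univ j)), ← Finset.range_eq_Ico]
      ring
    rw [Finset.sum_congr rfl fun j _ => e j, Finset.sum_comm]
    exact tail_bound h v 0 N
  | succ m ih =>
    intro v
    obtain ⟨N₀, hN₀⟩ := exists_degree_bound Finset.univ v
    obtain ⟨N, hN, hmN⟩ : ∃ N, (∀ j : J, ∀ z : List J, N ≤ z.length → v j z = 0) ∧ m + 1 ≤ N :=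
      ⟨max N₀ (m + 1), fun j z hz => hN₀ j (Finset.mem_univ j) z (le_of_max_le_left hz),
        le_max_right _ _⟩
    have e : ∀ j, psi c (fun j => word [j] + iter c (m + 1) j) j (v j) =
        (∑ k ∈ Finset.Ico (m + 1) N, ∑ r ∈ W (k + 2), c j r * v j r) -
          ∑ k ∈ Finset.range (m + 1),
            (leftMul c (Mxs c (iter c m) (k + 2) fun w => c j w.reverse) (v j) [] -
              ∑ w ∈ W (k + 2), c j w.reverse * v j w.reverse) := by
      intro j
      rw [psi_apply, map_add, LinearMap.add_apply, Finsupp.add_apply,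
        single_value h j (v j) (hN j), show iter c (m + 1) j = -∑ k ∈ Finset.range (m + 1),
          Mxs c (iter c m) (k + 2) fun w => c j w.reverse from rfl, map_neg, LinearMap.neg_apply,
        map_sum, LinearMap.sum_apply, Finsupp.neg_apply, Finsupp.finsetSum_apply,
        Finset.sum_sub_distrib, Finset.sum_congr (s₁ := Finset.range (m + 1)) rfl
          fun k _ => sum_W_reverse (k + 2) fun w => c j w * v j w,
        ← Finset.sum_range_add_sum_Ico _ hmN]
      ring
    rw [Finset.sum_congr rfl fun j _ => e j, Finset.sum_sub_distrib, Finset.sum_comm,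
      Finset.sum_comm (γ := J)]
    refine (abs_sub _ _).trans ?_
    refine (add_le_add (tail_bound h v (m + 1) N) ((Finset.abs_sum_le_sum_abs _ _).trans
      (Finset.sum_le_sum fun k _ => (E_bound h _ (iter_bound h m) _ (by positivity) ih (k + 2) J
        Finset.univ (fun j w => c j w.reverse) v).trans (mul_le_mul_of_nonneg_right
          (mul_le_mul_of_nonneg_left (h.l2_reverse_le (by omega)) (by positivity))
          (fn_nonneg _ _))))).trans ?_
    have h64 : (1 / 64 : ℝ) ^ (m + 1) ≤ (1 / 4) * (1 / 2) ^ m := by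
      rw [pow_succ, mul_comm]
      exact mul_le_mul (by norm_num) (pow_le_pow_left₀ (by norm_num) (by norm_num) m)
        (by positivity) (by norm_num)
    have hk : ∀ k : ℕ, 4 * (3 : ℝ) ^ (k + 2) * (1 / 2) ^ m * (1 / 64) ^ (k + 2 + 1) *
        fn Finset.univ v = (36 / 262144) * (3 / 64) ^ k * ((1 / 2) ^ m * fn Finset.univ v) := by
      intro k
      rw [show (3 / 64 : ℝ) ^ k = 3 ^ k * (1 / 64) ^ k by rw [← mul_pow]; norm_num]
      ring
    simp only [hk, ← Finset.sum_mul, ← Finset.mul_sum]
    have h2 := geom_le_two (x := (3 / 64 : ℝ)) (by norm_num) (by norm_num) (m + 1)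
    have hF := fn_nonneg Finset.univ v
    have hP : 0 ≤ (1 / 2 : ℝ) ^ m * fn Finset.univ v := by positivity
    rw [pow_succ (1 / 2 : ℝ)]
    nlinarith

end Estimates

end Conjugate

open Conjugate in
theorem conjugateStatement : ConjugateStatement := by
  intro J _ _ c h0 h1 h2
  have h : Small c := ⟨h0, h1, h2⟩
  refine ⟨fun m j => word [j] + iter c m j, fun m => ?_, fun m => ?_, fun j v => ?_⟩
  · simp only [famNorm_eq, add_sub_cancel_left]
    exact iter_bound h m
  · simp only [famNorm_eq, add_sub_add_left_eq_sub]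
    exact iter_diff h m
  · rw [tendsto_iff_norm_sub_tendsto_zero]
    refine squeeze_zero (fun m => norm_nonneg _) (g := fun m : ℕ =>
      (1 / 2 : ℝ) ^ m * fn Finset.univ (fun i => if i = j then v else 0)) (fun m => ?_) ?_
    · have := psi_bound h m (fun i => if i = j then v else 0)
      rw [Finset.sum_eq_single j (fun i _ hi => by simp [hi]) (by simp), if_pos rfl,
        psi_apply] at this
      simpa [Real.norm_eq_abs] using this
    · simpa using (tendsto_pow_atTop_nhds_zero_of_lt_one (by norm_num : (0 : ℝ) ≤ 1 / 2)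
        (by norm_num)).mul_const (fn Finset.univ (fun i => if i = j then v else 0))

end

end Vale.Agent.P087
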