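import Vale.Agent.P087.Interfaces

/-!
# P087: module Conjugate, part 1 — norms of families and the structure of `leftMul`

`L_w = ∑_{w = a b} create_a V_b`, with `V_{i w} = ∑_{w = a b} M(i,a) V_b` and
`M(i,a) = ∑_{r ≠ []} c(i, a r) annihilate_r`.
-/

namespace Vale.Agent.P087

noncomputable section

namespace Conjugate

open Finset

section LTwo

variable {P : Type}

/-- Finite `ℓ²` norm. -/
def l2 (S : Finset P) (g : P → ℝ) : ℝ := Real.sqrt (∑ p ∈ S, g p ^ 2)

theorem l2_nonneg (S : Finset P) (g : P → ℝ) : 0 ≤ l2 S g := Real.sqrt_nonneg _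

theorem l2_congr {S : Finset P} {g h : P → ℝ} (H : ∀ p ∈ S, g p = h p) : l2 S g = l2 S h := by
  unfold l2
  rw [Finset.sum_congr rfl fun p hp => by rw [H p hp]]

theorem l2_zero (S : Finset P) : l2 S (fun _ => 0) = 0 := by simp [l2]

theorem abs_sum_mul_le (S : Finset P) (g h : P → ℝ) :
    |∑ p ∈ S, g p * h p| ≤ l2 S g * l2 S h := by
  rw [abs_le]
  refine ⟨?_, Real.sum_mul_le_sqrt_mul_sqrt S g h⟩
  have := Real.sum_mul_le_sqrt_mul_sqrt S (fun p => -g p) h
  simp only [neg_sq, neg_mul, Finset.sum_neg_distrib] at this
  unfold l2
  linarith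

theorem l2_add (S : Finset P) (g h : P → ℝ) :
    l2 S (fun p => g p + h p) ≤ l2 S g + l2 S h := by
  have hg : 0 ≤ ∑ p ∈ S, g p ^ 2 := Finset.sum_nonneg fun _ _ => sq_nonneg _
  have hh : 0 ≤ ∑ p ∈ S, h p ^ 2 := Finset.sum_nonneg fun _ _ => sq_nonneg _
  refine (Real.sqrt_le_iff).2 ⟨add_nonneg (l2_nonneg _ _) (l2_nonneg _ _), ?_⟩
  have := Real.sum_mul_le_sqrt_mul_sqrt S g h
  simp only [add_sq, Finset.sum_add_distrib, mul_assoc, ← Finset.mul_sum]
  unfold l2
  rw [Real.sq_sqrt hg, Real.sq_sqrt hh]
  linarith

theorem l2_sum {K : Type} (S : Finset P) (I : Finset K) (g : K → P → ℝ) :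
    l2 S (fun p => ∑ k ∈ I, g k p) ≤ ∑ k ∈ I, l2 S (g k) := by
  classical
  induction I using Finset.induction with
  | empty => simp [l2]
  | insert k I hk ih =>
    simp only [Finset.sum_insert hk]
    exact (l2_add S (g k) _).trans (by linarith)

/-- The Cauchy–Schwarz bound of a matrix product in Hilbert–Schmidt norm. -/
theorem l2_matmul {A B R : Type} (SA : Finset A) (SB : Finset B) (SR : Finset R)
    (f : A × R → ℝ) (g : B × R → ℝ) :
    l2 (SA ×ˢ SB) (fun p => ∑ r ∈ SR, f (p.1, r) * g (p.2, r)) ≤
      l2 (SA ×ˢ SR) f * l2 (SB ×ˢ SR) g := by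
  unfold l2
  rw [← Real.sqrt_mul (Finset.sum_nonneg fun _ _ => sq_nonneg _)]
  refine Real.sqrt_le_sqrt ?_
  rw [Finset.sum_product, Finset.sum_product, Finset.sum_product, Finset.sum_mul_sum]
  exact Finset.sum_le_sum fun a _ => Finset.sum_le_sum fun b _ =>
    Finset.sum_mul_sq_le_sq_mul_sq SR (fun r => f (a, r)) (fun r => g (b, r))

end LTwo

section Words

variable {J : Type} [Fintype J] [DecidableEq J]

/-- The finite set of words of length `n`. -/
def W (n : ℕ) : Finset (List J) := Finset.univ.image (List.ofFn (n := n))

@[simp] theorem mem_W {n : ℕ} {x : List J} : x ∈ W n ↔ x.length = n := by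
  simp only [W, Finset.mem_image, Finset.mem_univ, true_and]
  constructor
  · rintro ⟨w, rfl⟩
    exact List.length_ofFn
  · rintro rfl
    exact ⟨x.get, List.ofFn_get x⟩

theorem sum_W {M : Type} [AddCommMonoid M] (n : ℕ) (F : List J → M) :
    ∑ x ∈ W n, F x = ∑ w : Fin n → J, F (List.ofFn w) :=
  Finset.sum_image fun _ _ _ _ h => List.ofFn_injective h

theorem W_zero : W 0 = ({[]} : Finset (List J)) := by
  ext x
  simp

theorem sum_W_add {M : Type} [AddCommMonoid M] (p d : ℕ) (F : List J → M) :
    ∑ x ∈ W (p + d), F x = ∑ a ∈ W p, ∑ z ∈ W d, F (a ++ z) := by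
  rw [← Finset.sum_product']
  refine Finset.sum_nbij' (fun x => (x.take p, x.drop p)) (fun q => q.1 ++ q.2) ?_ ?_ ?_ ?_ ?_
  · intro x hx
    simp_all
  · intro q hq
    simp_all
  · intro x _
    simp
  · intro q hq
    simp only [Finset.mem_product, mem_W] at hq
    simp [List.take_left' hq.1, List.drop_left' hq.1]
  · intro x _
    simp

theorem sum_W_succ {M : Type} [AddCommMonoid M] (d : ℕ) (F : List J → M) :
    ∑ x ∈ W (d + 1), F x = ∑ i : J, ∑ z ∈ W d, F (i :: z) := by
  rw [sum_W, ← (Fin.consEquiv fun _ : Fin (d + 1) => J).sum_comp, Fintype.sum_prod_type]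
  refine Finset.sum_congr rfl fun i _ => ?_
  rw [sum_W]
  simp [List.ofFn_succ]

theorem sum_W_reverse {M : Type} [AddCommMonoid M] (d : ℕ) (F : List J → M) :
    ∑ x ∈ W d, F x.reverse = ∑ x ∈ W d, F x :=
  Finset.sum_nbij' List.reverse List.reverse (by simp) (by simp) (by simp) (by simp)
    (fun _ _ => rfl)

/-- Norm of the degree `n` part of a family. -/
def dn {α : Type} (s : Finset α) (f : α → Fck J) (n : ℕ) : ℝ :=
  l2 (s ×ˢ W n) fun p => f p.1 p.2

/-- Weighted norm of a family. -/
def fn {α : Type} (s : Finset α) (f : α → Fck J) : ℝ := ∑' n : ℕ, (2 : ℝ) ^ n * dn s f n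

theorem famNorm_eq {α : Type} [Fintype α] (f : α → Fck J) : famNorm f = fn Finset.univ f := by
  unfold famNorm fn dn l2 degSq
  refine tsum_congr fun n => ?_
  simp only [Finset.sum_product, sum_W]

omit [Fintype J] [DecidableEq J] in
theorem exists_degree_bound {α : Type} (s : Finset α) (f : α → Fck J) :
    ∃ N, ∀ a ∈ s, ∀ x : List J, N ≤ x.length → f a x = 0 := by
  classical
  refine ⟨((s.biUnion fun a => (f a).support).sup List.length) + 1, fun a ha x hx => ?_⟩
  by_contra hne
  have h1 : x ∈ s.biUnion fun a => (f a).support :=
    Finset.mem_biUnion.2 ⟨a, ha, Finsupp.mem_support_iff.2 hne⟩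
  have h2 : x.length ≤ (s.biUnion fun a => (f a).support).sup List.length :=
    Finset.le_sup (f := List.length) h1
  omega

theorem dn_nonneg {α : Type} (s : Finset α) (f : α → Fck J) (n : ℕ) : 0 ≤ dn s f n :=
  l2_nonneg _ _

theorem fn_summable {α : Type} (s : Finset α) (f : α → Fck J) :
    Summable fun n : ℕ => (2 : ℝ) ^ n * dn s f n := by
  obtain ⟨N, hN⟩ := exists_degree_bound s f
  refine summable_of_ne_finset_zero (s := Finset.range N) fun n hn => ?_
  have : dn s f n = 0 := by
    unfold dn
    rw [l2_congr (h := fun _ => 0)]
    · exact l2_zero _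
    · rintro ⟨a, x⟩ hp
      simp only [Finset.mem_product, mem_W] at hp
      exact hN a hp.1 x (by simp only [Finset.mem_range, not_lt] at hn; omega)
  rw [this, mul_zero]

theorem fn_nonneg {α : Type} (s : Finset α) (f : α → Fck J) : 0 ≤ fn s f :=
  tsum_nonneg fun _ => mul_nonneg (by positivity) (dn_nonneg _ _ _)

theorem fn_le {α : Type} (s : Finset α) (f : α → Fck J) {B : ℝ}
    (h : ∀ N, ∑ n ∈ Finset.range N, (2 : ℝ) ^ n * dn s f n ≤ B) : fn s f ≤ B :=
  Real.tsum_le_of_sum_range_le (fun _ => mul_nonneg (by positivity) (dn_nonneg _ _ _)) h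

theorem sum_le_fn {α : Type} (s : Finset α) (f : α → Fck J) (I : Finset ℕ) :
    ∑ n ∈ I, (2 : ℝ) ^ n * dn s f n ≤ fn s f :=
  (fn_summable s f).sum_le_tsum I fun _ _ => mul_nonneg (by positivity) (dn_nonneg _ _ _)

theorem shift_sum_le_fn {α : Type} (s : Finset α) (f : α → Fck J) (k D : ℕ) :
    ∑ d ∈ Finset.range D, (2 : ℝ) ^ d * dn s f (k + d) ≤ fn s f / 2 ^ k := by
  rw [le_div_iff₀ (by positivity), Finset.sum_mul]
  refine le_trans ?_ (sum_le_fn s f ((Finset.range D).image (k + ·)))
  rw [Finset.sum_image fun _ _ _ _ h => by simpa using h]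
  refine le_of_eq (Finset.sum_congr rfl fun d _ => ?_)
  rw [pow_add]
  ring

theorem dn_le_fn {α : Type} (s : Finset α) (f : α → Fck J) (n : ℕ) :
    dn s f n ≤ fn s f / 2 ^ n := by
  simpa using shift_sum_le_fn s f n 1

theorem fn_congr {α : Type} {s : Finset α} {f g : α → Fck J} (h : ∀ a ∈ s, f a = g a) :
    fn s f = fn s g := by
  unfold fn dn
  refine tsum_congr fun n => ?_
  rw [l2_congr (h := fun p => g p.1 p.2)]
  rintro ⟨a, x⟩ hp
  rw [h a (Finset.mem_product.1 hp).1]

theorem fn_sum_le {α K : Type} (s : Finset α) (I : Finset K) (f : K → α → Fck J) :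
    fn s (fun a => ∑ k ∈ I, f k a) ≤ ∑ k ∈ I, fn s (f k) := by
  refine fn_le s _ fun N => ?_
  calc ∑ n ∈ Finset.range N, (2 : ℝ) ^ n * dn s (fun a => ∑ k ∈ I, f k a) n
      ≤ ∑ n ∈ Finset.range N, ∑ k ∈ I, (2 : ℝ) ^ n * dn s (f k) n := by
        refine Finset.sum_le_sum fun n _ => ?_
        rw [← Finset.mul_sum]
        refine mul_le_mul_of_nonneg_left ?_ (by positivity)
        simp only [dn, Finsupp.finsetSum_apply]
        exact l2_sum (s ×ˢ W n) I (fun (k : K) (p : α × List J) => f k p.1 p.2)
    _ = ∑ k ∈ I, ∑ n ∈ Finset.range N, (2 : ℝ) ^ n * dn s (f k) n := Finset.sum_comm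
    _ ≤ ∑ k ∈ I, fn s (f k) := Finset.sum_le_sum fun k _ => sum_le_fn _ _ _

theorem fn_add_le {α : Type} (s : Finset α) (f g : α → Fck J) :
    fn s (fun a => f a + g a) ≤ fn s f + fn s g := by
  refine fn_le s _ fun N => ?_
  refine le_trans ?_ (add_le_add (sum_le_fn s f (Finset.range N)) (sum_le_fn s g (Finset.range N)))
  rw [← Finset.sum_add_distrib]
  refine Finset.sum_le_sum fun n _ => ?_
  rw [← mul_add]
  refine mul_le_mul_of_nonneg_left ?_ (by positivity)
  unfold dn
  simp only [Finsupp.add_apply]
  exact l2_add (s ×ˢ W n) (fun p => f p.1 p.2) fun p => g p.1 p.2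

theorem fn_neg {α : Type} (s : Finset α) (f : α → Fck J) : fn s (fun a => -f a) = fn s f := by
  simp [fn, dn, l2]

omit [Fintype J] in
/-- Reindexing of a sum over the support. -/
theorem sum_supp {B : Type} (Bs : Finset B) (e : B → List J) (he : Set.InjOn e Bs) (y : Fck J)
    (p : List J → Prop) [DecidablePred p] (F : List J → ℝ)
    (h1 : ∀ b ∈ Bs, p (e b)) (h2 : ∀ z ∈ y.support, p z → ∃ b ∈ Bs, e b = z) :
    ∑ z ∈ y.support, (if p z then y z * F z else 0) = ∑ b ∈ Bs, y (e b) * F (e b) := by
  rw [← Finset.sum_filter, ← Finset.sum_image (f := fun z => y z * F z) he]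
  refine Finset.sum_subset (fun z hz => ?_) fun z hz hz' => ?_
  · obtain ⟨hz1, hz2⟩ := Finset.mem_filter.1 hz
    exact Finset.mem_image.2 (h2 z hz1 hz2)
  · obtain ⟨b, hb, rfl⟩ := Finset.mem_image.1 hz
    have : e b ∉ y.support := fun h => hz' (Finset.mem_filter.2 ⟨h, h1 b hb⟩)
    simp [Finsupp.notMem_support_iff.1 this]

end Words

section Structure

variable {J : Type}

theorem ext_word {E : Type} [AddCommGroup E] [Module ℝ E] {f g : Fck J →ₗ[ℝ] E}
    (h : ∀ x, f (word x) = g (word x)) : f = g :=
  Finsupp.basisSingleOne.ext fun x => by simpa [word] using h x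

theorem onWords_apply (F : List J → Fck J) (y : Fck J) (x : List J) :
    onWords F y x = ∑ z ∈ y.support, y z * F z x := by
  simp [onWords, Finsupp.linearCombination_apply, Finsupp.sum, Finsupp.finsetSum_apply]

/-- `M(i,a) = ∑_{r ≠ []} c(i, a r) annihilate_r`. -/
def Mop (c : J → List J → ℝ) (i : J) (a : List J) : FckOp J := onWords fun z =>
  ∑ m ∈ Finset.range z.length, c i (a ++ z.take (m + 1)) • word (z.drop (m + 1))

/-- Left concatenation of a word. -/
def prepend (a : List J) : FckOp J := onWords fun z => word (a ++ z)

theorem prepend_nil : prepend ([] : List J) = 1 := ext_word fun x => by simp [prepend]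

/-- The annihilation part `V_w` of `L_w`. -/
def V (c : J → List J → ℝ) : List J → FckOp J
  | [] => 1
  | i :: w => ∑ l : Fin (w.length + 1), Mop c i (w.take l) * V c (w.drop l)
  termination_by w => w.length
  decreasing_by simp

theorem V_nil (c : J → List J → ℝ) : V c [] = 1 := by rw [V]

theorem V_cons (c : J → List J → ℝ) (i : J) (w : List J) :
    V c (i :: w) =
      ∑ p ∈ Finset.range (w.length + 1), Mop c i (w.take p) * V c (w.drop p) := by
  rw [V, Finset.sum_range]

variable [DecidableEq J]

theorem prepend_apply (a : List J) (y : Fck J) (x : List J) :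
    prepend a y x = if a <+: x then y (x.drop a.length) else 0 := by
  induction y using Finsupp.induction_linear with
  | zero => simp
  | add y y' h h' => simp [h, h', ite_add_zero]
  | single z r =>
    rw [prepend, onWords, Finsupp.linearCombination_single]
    by_cases h : a <+: x
    · obtain ⟨x', rfl⟩ := h
      simp [word, Finsupp.single_apply]
    · have : a ++ z ≠ x := fun e => h ⟨z, e⟩
      simp [word, h, this]

omit [DecidableEq J] in
theorem modelOp_mul_prepend (c : J → List J → ℝ) (i : J) (a : List J) :
    modelOp c i * prepend a = prepend (i :: a) +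
      ∑ l ∈ Finset.range (a.length + 1), c i (a.take l) • prepend (a.drop l) + Mop c i a :=
  ext_word fun z => by
    simp only [Module.End.mul_apply, LinearMap.add_apply, LinearMap.sum_apply,
      LinearMap.smul_apply, prepend, modelOp, Mop, onWords_word, List.cons_append]
    rw [← Finset.sum_range fun l => c i ((a ++ z).take l) • word ((a ++ z).drop l),
      show (a ++ z).length + 1 = a.length + 1 + z.length by simp; omega,
      Finset.sum_range_add, add_assoc]
    congr 1
    refine congrArg₂ (· + ·) (Finset.sum_congr rfl fun l hl => ?_)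
      (Finset.sum_congr rfl fun m _ => ?_)
    · have hl' : l ≤ a.length := Nat.lt_succ_iff.1 (Finset.mem_range.1 hl)
      rw [List.take_append_of_le_length hl', List.drop_append_of_le_length hl']
    · rw [show a.length + 1 + m = a.length + (m + 1) by omega, List.take_append, List.drop_append]
      simp [List.take_of_length_le, List.drop_eq_nil_of_le]

omit [DecidableEq J] in
theorem modelOp_eq (c : J → List J → ℝ) (i : J) (h0 : c i [] = 0) :
    modelOp c i = create i + Mop c i [] := by
  have h := modelOp_mul_prepend c i []
  simp only [prepend_nil, mul_one, List.length_nil, zero_add, Finset.sum_range_one,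
    List.take_zero, h0, zero_smul, add_zero] at h
  rw [h]
  rfl

theorem sum_triangle {M : Type} [AddCommMonoid M] (n : ℕ) (f : ℕ → ℕ → M) :
    ∑ p ∈ Finset.range (n + 1), ∑ l ∈ Finset.range (p + 1), f l p =
      ∑ l ∈ Finset.range (n + 1), ∑ q ∈ Finset.range (n - l + 1), f l (l + q) := by
  rw [Finset.sum_sigma', Finset.sum_sigma']
  refine Finset.sum_nbij' (fun p => (⟨p.2, p.1 - p.2⟩ : Σ _ : ℕ, ℕ))
    (fun p => (⟨p.1 + p.2, p.1⟩ : Σ _ : ℕ, ℕ)) ?_ ?_ ?_ ?_ ?_
  · rintro ⟨p, l⟩ h; simp at h ⊢; omega
  · rintro ⟨l, q⟩ h; simp at h ⊢; omega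
  · rintro ⟨p, l⟩ h; simp at h ⊢; omega
  · rintro ⟨l, q⟩ h; simp
  · rintro ⟨p, l⟩ h; simp at h; simp [show l + (p - l) = p by omega]

omit [DecidableEq J] in
/-- `L_w = ∑_{w = a b} prepend_a V_b`. -/
theorem appell_expand (c : J → List J → ℝ) :
    ∀ w : List J, appellOf (modelOp c) c w =
      ∑ p ∈ Finset.range (w.length + 1), prepend (w.take p) * V c (w.drop p)
  | [] => by simp [appellOf, V_nil, prepend_nil]
  | i :: w => by
    have ih : ∀ l : ℕ, appellOf (modelOp c) c (w.drop l) =
        ∑ q ∈ Finset.range ((w.drop l).length + 1),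
          prepend ((w.drop l).take q) * V c ((w.drop l).drop q) := fun l => appell_expand c _
    have ih0 := appell_expand c w
    rw [appellOf, ih0,
      ← Finset.sum_range fun l => c i (w.take l) • appellOf (modelOp c) c (w.drop l),
      Finset.mul_sum]
    simp only [ih, ← mul_assoc, modelOp_mul_prepend, add_mul, Finset.sum_mul,
      Finset.sum_add_distrib, smul_mul_assoc, List.length_drop, Finset.smul_sum]
    have key : ∑ p ∈ Finset.range (w.length + 1),
        ∑ l ∈ Finset.range ((w.take p).length + 1),
          c i ((w.take p).take l) • (prepend ((w.take p).drop l) * V c (w.drop p)) =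
        ∑ l ∈ Finset.range (w.length + 1), ∑ q ∈ Finset.range (w.length - l + 1),
          c i (w.take l) • (prepend ((w.drop l).take q) * V c ((w.drop l).drop q)) := by
      calc _ = ∑ p ∈ Finset.range (w.length + 1), ∑ l ∈ Finset.range (p + 1),
            c i (w.take l) • (prepend ((w.take p).drop l) * V c (w.drop p)) := by
            refine Finset.sum_congr rfl fun p hp => ?_
            have hp' := Finset.mem_range.1 hp
            rw [List.length_take, min_eq_left (by omega)]
            refine Finset.sum_congr rfl fun l hl => ?_
            have hl' := Finset.mem_range.1 hl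
            rw [List.take_take, min_eq_left (by omega)]
        _ = _ := by
            rw [sum_triangle w.length fun l p =>
              c i (w.take l) • (prepend ((w.take p).drop l) * V c (w.drop p))]
            refine Finset.sum_congr rfl fun l _ => Finset.sum_congr rfl fun q _ => ?_
            rw [List.drop_take, List.drop_drop, add_tsub_cancel_left]
    rw [key, show (i :: w).length + 1 = w.length + 1 + 1 from rfl,
      Finset.sum_range_succ' (n := w.length + 1) (f := fun p =>
        prepend ((i :: w).take p) * V c ((i :: w).drop p))]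
    simp only [List.take_succ_cons, List.drop_succ_cons, List.take_zero, List.drop_zero,
      prepend_nil, one_mul, V_cons]
    abel
  termination_by w => w.length
  decreasing_by all_goals simp

omit [DecidableEq J] in
theorem leftMul_word (c : J → List J → ℝ) (w : List J) :
    leftMul c (word w) = appellOf (modelOp c) c w := onWords_word _ _

omit [DecidableEq J] in
theorem leftMul_nil (c : J → List J → ℝ) : leftMul c (vac : Fck J) = 1 :=
  (leftMul_word c []).trans (by rw [appellOf])

omit [DecidableEq J] in
theorem leftMul_single (c : J → List J → ℝ) (i : J) (h0 : c i [] = 0) :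
    leftMul c (word [i]) = modelOp c i := by
  rw [leftMul_word, appellOf]
  simp [appellOf, h0]

omit [DecidableEq J] in
theorem leftMul_modelOp (c : J → List J → ℝ) (i : J) (v : Fck J) :
    leftMul c (modelOp c i v) = modelOp c i * leftMul c v := by
  have : (leftMul c).comp (modelOp c i) =
      (LinearMap.mulLeft ℝ (modelOp c i)).comp (leftMul c) := by
    refine ext_word (E := FckOp J) fun w => ?_
    simp only [LinearMap.comp_apply, LinearMap.mulLeft_apply, modelOp, onWords_word, map_add,
      map_sum, map_smul, leftMul_word]
    rw [appellOf]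
    simp [modelOp]
  exact DFunLike.congr_fun this v

omit [DecidableEq J] in
theorem leftMul_appell (c : J → List J → ℝ) :
    ∀ (w : List J) (v : Fck J),
      leftMul c (appellOf (modelOp c) c w v) = appellOf (modelOp c) c w * leftMul c v
  | [], v => by simp [appellOf]
  | i :: w, v => by
    rw [appellOf]
    simp only [LinearMap.sub_apply, LinearMap.sum_apply, LinearMap.smul_apply,
      Module.End.mul_apply, map_sub, map_sum, map_smul, leftMul_modelOp]
    rw [leftMul_appell c w v]
    have h : ∀ l : ℕ, leftMul c (appellOf (modelOp c) c (w.drop l) v) =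
        appellOf (modelOp c) c (w.drop l) * leftMul c v := fun l => leftMul_appell c _ v
    refine LinearMap.ext fun u => ?_
    simp only [h, LinearMap.sub_apply, Module.End.mul_apply, LinearMap.sum_apply,
      LinearMap.smul_apply]
  termination_by w => w.length
  decreasing_by all_goals simp

/-- `L(L(φ) v) = L(φ) L(v)`. -/
theorem leftMul_leftMul (c : J → List J → ℝ) (φ v : Fck J) :
    leftMul c (leftMul c φ v) = leftMul c φ * leftMul c v := by
  induction φ using Finsupp.induction_linear with
  | zero => simp
  | add x y h h' => simp [h, h', add_mul]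
  | single w r =>
    have : Finsupp.single w r = r • word w := by simp [word]
    rw [this, map_smul, LinearMap.smul_apply, map_smul, leftMul_word, leftMul_appell,
      smul_mul_assoc]

theorem annihilate_apply (j : J) (y : Fck J) (x : List J) : annihilate j y x = y (j :: x) := by
  induction y using Finsupp.induction_linear with
  | zero => simp
  | add y y' h h' => simp [h, h']
  | single z r =>
    rw [annihilate, onWords, Finsupp.linearCombination_single]
    cases z with
    | nil => simp
    | cons b z => by_cases h : j = b <;> simp [word, Finsupp.single_apply, h]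

theorem annihilateRight_apply (j : J) (y : Fck J) (x : List J) :
    annihilateRight j y x = y (x ++ [j]) := by
  induction y using Finsupp.induction_linear with
  | zero => simp
  | add y y' h h' => simp [h, h']
  | single z r =>
    rw [annihilateRight, onWords, Finsupp.linearCombination_single]
    rcases List.eq_nil_or_concat z with rfl | ⟨z, b, rfl⟩
    · simp
    · by_cases h : b = j <;> simp [word, Finsupp.single_apply, h]

end Structure

section Coefficients

variable {J : Type} [Fintype J] [DecidableEq J] (c : J → List J → ℝ)

theorem Mop_apply (i : J) (a : List J) (y : Fck J) (x : List J) {N : ℕ}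
    (hN : ∀ z : List J, N ≤ z.length → y z = 0) :
    Mop c i a y x =
      ∑ m ∈ Finset.range N, ∑ r ∈ W (m + 1), c i (a ++ r) * y (r ++ x) := by
  rw [Mop, onWords_apply]
  have hlt : ∀ z ∈ y.support, z.length ≤ N := fun z hz => by
    by_contra h
    exact (Finsupp.mem_support_iff.1 hz) (hN z (by omega))
  calc ∑ z ∈ y.support, y z *
        (∑ m ∈ Finset.range z.length, c i (a ++ z.take (m + 1)) • word (z.drop (m + 1))) x
      = ∑ z ∈ y.support, ∑ m ∈ Finset.range N,
          if m + 1 ≤ z.length ∧ z.drop (m + 1) = x then
            y z * c i (a ++ z.take (m + 1)) else 0 := by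
        refine Finset.sum_congr rfl fun z hz => ?_
        rw [Finsupp.finsetSum_apply, Finset.mul_sum]
        have hsub : Finset.range z.length ⊆ Finset.range N :=
          Finset.range_subset_range.2 (hlt z hz)
        rw [← Finset.sum_subset hsub fun m _ hm => ?_]
        · refine Finset.sum_congr rfl fun m hm => ?_
          have := Finset.mem_range.1 hm
          by_cases h : z.drop (m + 1) = x <;> simp [word, h] <;> omega
        · simp only [Finset.mem_range, not_lt] at hm
          rw [if_neg]
          rintro ⟨h, -⟩
          omega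
    _ = ∑ m ∈ Finset.range N, ∑ r ∈ W (m + 1),
          y (r ++ x) * c i (a ++ (r ++ x).take (m + 1)) := by
        rw [Finset.sum_comm]
        refine Finset.sum_congr rfl fun m _ => ?_
        refine sum_supp (W (m + 1)) (fun r => r ++ x) (fun r _ r' _ h => by simpa using h) y
          (fun z => m + 1 ≤ z.length ∧ z.drop (m + 1) = x)
          (fun z => c i (a ++ z.take (m + 1))) ?_ ?_
        · intro r hr
          simp only [mem_W] at hr
          simp [List.drop_left' hr, hr]
        · rintro z _ ⟨h1, h2⟩
          exact ⟨z.take (m + 1), by simp [h1], by rw [← h2, List.take_append_drop]⟩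
    _ = _ := by
        refine Finset.sum_congr rfl fun m _ => Finset.sum_congr rfl fun r hr => ?_
        rw [List.take_left' (mem_W.1 hr), mul_comm]

theorem leftMul_coeff (φ v : Fck J) (x : List J) {N : ℕ}
    (hN : ∀ z : List J, N ≤ z.length → φ z = 0) :
    leftMul c φ v x = ∑ p ∈ Finset.range (x.length + 1), ∑ k ∈ Finset.range N,
      ∑ b ∈ W k, φ (x.take p ++ b) * V c b v (x.drop p) := by
  have h1 : leftMul c φ v x =
      ∑ z ∈ φ.support, φ z * appellOf (modelOp c) c z v x := by
    simp [leftMul, onWords, Finsupp.linearCombination_apply, Finsupp.sum,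
      Finsupp.finsetSum_apply]
  rw [h1]
  calc ∑ z ∈ φ.support, φ z * appellOf (modelOp c) c z v x
      = ∑ z ∈ φ.support, ∑ p ∈ Finset.range (x.length + 1),
          if p ≤ z.length ∧ z.take p = x.take p then
            φ z * V c (z.drop p) v (x.drop p) else 0 := by
        refine Finset.sum_congr rfl fun z _ => ?_
        rw [appell_expand, LinearMap.sum_apply, Finsupp.finsetSum_apply, Finset.mul_sum]
        have hl : ∑ p ∈ Finset.range (z.length + 1),
            φ z * (prepend (z.take p) * V c (z.drop p)) v x =
            ∑ p ∈ (Finset.range (z.length + 1)).filter (fun p => z.take p <+: x),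
              φ z * V c (z.drop p) v (x.drop p) := by
          rw [Finset.sum_filter]
          refine Finset.sum_congr rfl fun p hp => ?_
          have hp' := Finset.mem_range.1 hp
          rw [Module.End.mul_apply, prepend_apply, List.length_take, min_eq_left (by omega)]
          split_ifs <;> simp
        rw [hl, ← Finset.sum_filter]
        refine Finset.sum_congr (Finset.ext fun p => ?_) fun _ _ => rfl
        simp only [Finset.mem_filter, Finset.mem_range]
        constructor
        · rintro ⟨h1, h2⟩
          have hlen := h2.length_le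
          rw [List.length_take, min_eq_left (by omega)] at hlen
          obtain ⟨r, hr⟩ := h2
          refine ⟨by omega, by omega, ?_⟩
          rw [← hr, List.take_left' (by rw [List.length_take]; omega)]
        · rintro ⟨h1, h2, h3⟩
          exact ⟨by omega, h3 ▸ List.take_prefix _ _⟩
    _ = ∑ p ∈ Finset.range (x.length + 1), ∑ q ∈ (Finset.range N).sigma fun k => W k,
          φ (x.take p ++ q.2) * V c ((x.take p ++ q.2).drop p) v (x.drop p) := by
        rw [Finset.sum_comm]
        refine Finset.sum_congr rfl fun p hp => ?_
        have hp' := Finset.mem_range.1 hp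
        have hlen : (x.take p).length = p := by rw [List.length_take]; omega
        refine sum_supp ((Finset.range N).sigma fun k => W k) (fun q => x.take p ++ q.2)
          ?_ φ (fun z => p ≤ z.length ∧ z.take p = x.take p)
          (fun z => V c (z.drop p) v (x.drop p)) ?_ ?_
        · rintro ⟨k, b⟩ hq ⟨k', b'⟩ hq' h
          simp only [List.append_cancel_left_eq] at h
          subst h
          simp only [Finset.coe_sigma, Set.mem_sigma_iff, Finset.mem_coe, mem_W] at hq hq'
          obtain rfl : k = k' := hq.2.symm.trans hq'.2
          rfl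
        · intro q _
          simp [List.take_left' hlen]; omega
        · rintro z hz ⟨h1, h2⟩
          refine ⟨⟨z.length - p, z.drop p⟩, ?_, ?_⟩
          · simp only [Finset.mem_sigma, Finset.mem_range, mem_W, List.length_drop, and_true]
            by_contra h
            exact (Finsupp.mem_support_iff.1 hz) (hN z (by omega))
          · simp [← h2]
    _ = _ := by
        refine Finset.sum_congr rfl fun p hp => ?_
        have hp' := Finset.mem_range.1 hp
        rw [Finset.sum_sigma]
        refine Finset.sum_congr rfl fun k _ => Finset.sum_congr rfl fun b _ => ?_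
        rw [List.drop_left' (show (x.take p).length = p by rw [List.length_take]; omega)]

/-- The defect `r_j^* L_w v - L_w r_j^* v`. -/
def defect (j : J) (v : Fck J) : List J → Fck J
  | [] => 0
  | a :: w => create a (defect j v w) +
      if a = j then (appellOf (modelOp c) c w v []) • vac else 0

omit [Fintype J] [DecidableEq J] in
/-- Weighted sum of the suffixes of a word. -/
def peel (f : List J → ℝ) : FckOp J := onWords fun x =>
  ∑ l ∈ Finset.range (x.length + 1), f (x.take l) • word (x.drop l)

omit [Fintype J] [DecidableEq J] in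
theorem peel_vac (f : List J → ℝ) : peel f (vac : Fck J) = f [] • vac := by
  rw [show (vac : Fck J) = word [] from rfl, peel, onWords_word]
  simp

omit [Fintype J] [DecidableEq J] in
theorem peel_create (f : List J → ℝ) (a : J) (z : Fck J) :
    peel f (create a z) = f [] • create a z + peel (fun u => f (a :: u)) z := by
  have : (peel f).comp (create a) =
      f [] • create a + peel (fun u => f (a :: u)) := ext_word fun x => by
    simp [peel, create, Finset.sum_range_succ' (n := x.length + 1)]
    abel
  simpa using DFunLike.congr_fun this z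

omit [Fintype J] [DecidableEq J] in
theorem modelOp_eq_peel (i : J) (z : Fck J) :
    modelOp c i z = create i z + peel (c i) z := by
  have : modelOp c i = create i + peel (c i) := ext_word fun x => by
    simp only [modelOp, peel, create, onWords_word, LinearMap.add_apply]
    rw [Finset.sum_range]
  rw [this, LinearMap.add_apply]

omit [Fintype J] in
theorem sum_smul_defect (j : J) (v : Fck J) :
    ∀ (w : List J) (f : List J → ℝ), f [] • (0 : Fck J) = 0 ∧
      ∑ l ∈ Finset.range (w.length + 1), f (w.take l) • defect c j v (w.drop l) =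
        peel f (defect c j v w)
  | [], f => by simp [defect]
  | a :: w, f => by
    refine ⟨by simp, ?_⟩
    rw [show (a :: w).length + 1 = w.length + 1 + 1 from rfl, Finset.sum_range_succ']
    simp only [List.take_succ_cons, List.drop_succ_cons, List.take_zero, List.drop_zero]
    rw [(sum_smul_defect j v w fun u => f (a :: u)).2, defect, map_add, peel_create]
    split_ifs
    · rw [map_smul, peel_vac, smul_add, smul_smul, smul_smul, mul_comm (f [])]
      abel
    · simp only [map_zero, add_zero]
      abel

omit [Fintype J] in
theorem annihilateRight_word (j : J) (z : List J) (b : J) :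
    annihilateRight j (word (z ++ [b])) = if b = j then word z else 0 := by
  rw [annihilateRight, onWords_word]
  simp

omit [Fintype J] in
theorem annihilateRight_nil (j : J) : annihilateRight j (word ([] : List J)) = 0 := by
  rw [annihilateRight, onWords_word]
  simp

omit [Fintype J] in
theorem annihilateRight_modelOp (h0 : ∀ i, c i [] = 0) (i j : J) (v : Fck J) :
    annihilateRight j (modelOp c i v) =
      modelOp c i (annihilateRight j v) + if i = j then v [] • vac else 0 := by
  induction v using Finsupp.induction_linear with
  | zero => simp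
  | add y y' h h' =>
    rw [map_add, map_add, h, h', map_add, map_add, Finsupp.add_apply]
    split_ifs
    · rw [add_smul]; abel
    · abel
  | single z r =>
    have hz : Finsupp.single z r = r • word z := by simp [word]
    rw [hz, map_smul, map_smul, map_smul, map_smul, Finsupp.smul_apply]
    rcases List.eq_nil_or_concat z with rfl | ⟨z, b, rfl⟩
    · rw [annihilateRight_nil, map_zero, smul_zero, zero_add, modelOp_eq_peel,
        show create i (word ([] : List J)) = word ([] ++ [i]) from onWords_word _ _,
        show peel (c i) (word ([] : List J)) = 0 from by simp [peel, h0], add_zero,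
        annihilateRight_word]
      by_cases h : i = j <;> simp [h, word, vac]
    · rw [List.concat_eq_append, modelOp_eq_peel, map_add,
        show create i (word (z ++ [b])) = word ((i :: z) ++ [b]) from onWords_word _ _,
        annihilateRight_word, annihilateRight_word,
        show peel (c i) (word (z ++ [b])) = _ from onWords_word _ _, map_sum,
        show (z ++ [b]).length + 1 = z.length + 1 + 1 by simp, Finset.sum_range_succ, map_smul,
        show (z ++ [b]).drop (z.length + 1) = [] from List.drop_eq_nil_of_le (by simp),
        annihilateRight_nil, smul_zero, add_zero]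
      have hmid : ∀ l ∈ Finset.range (z.length + 1), annihilateRight j
          (c i ((z ++ [b]).take l) • word ((z ++ [b]).drop l)) =
          if b = j then c i (z.take l) • word (z.drop l) else 0 := by
        intro l hl
        have hl' : l ≤ z.length := Nat.lt_succ_iff.1 (Finset.mem_range.1 hl)
        rw [List.take_append_of_le_length hl', List.drop_append_of_le_length hl', map_smul,
          annihilateRight_word]
        by_cases h : b = j <;> simp [h]
      rw [Finset.sum_congr rfl hmid]
      have hv : ∀ x : J, word (z ++ [x]) [] = (0 : ℝ) := fun x => by simp [word]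
      by_cases h : b = j <;> simp [h, hv, modelOp_eq_peel, peel, create]

omit [Fintype J] in
/-- `r_j^*` commutes with `L_w` up to the defect. -/
theorem annihilateRight_appell (h0 : ∀ i, c i [] = 0) (j : J) (v : Fck J) :
    ∀ w : List J, annihilateRight j (appellOf (modelOp c) c w v) =
      appellOf (modelOp c) c w (annihilateRight j v) + defect c j v w
  | [] => by simp [appellOf, defect]
  | i :: w => by
    have ih := annihilateRight_appell h0 j v w
    have ih' : ∀ l : ℕ, annihilateRight j (appellOf (modelOp c) c (w.drop l) v) =
        appellOf (modelOp c) c (w.drop l) (annihilateRight j v) + defect c j v (w.drop l) :=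
      fun l => annihilateRight_appell h0 j v _
    rw [appellOf]
    simp only [LinearMap.sub_apply, LinearMap.sum_apply, LinearMap.smul_apply,
      Module.End.mul_apply, map_sub, map_sum, map_smul, annihilateRight_modelOp c h0, ih, ih',
      map_add, smul_add, Finset.sum_add_distrib]
    rw [← Finset.sum_range fun l => c i (w.take l) • defect c j v (w.drop l),
      (sum_smul_defect c j v w (c i)).2, modelOp_eq_peel c i (defect c j v w), defect]
    abel
  termination_by w => w.length
  decreasing_by all_goals simp

/-- `(L(φ) v)[j] = (L(annihilate_j φ) v)[] + (L(φ) (r_j^* v))[]`. -/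
theorem leftMul_at_single (h0 : ∀ i, c i [] = 0) (j : J) (φ v : Fck J) :
    leftMul c φ v [j] =
      leftMul c (annihilate j φ) v [] + leftMul c φ (annihilateRight j v) [] := by
  induction φ using Finsupp.induction_linear with
  | zero => simp
  | add x y h h' => simp [h, h']; abel
  | single w r =>
    have hw : Finsupp.single w r = r • word w := by simp [word]
    rw [hw]
    simp only [map_smul, LinearMap.smul_apply, Finsupp.smul_apply, smul_eq_mul, ← mul_add]
    congr 1
    rw [leftMul_word, show [j] = ([] : List J) ++ [j] from rfl, ← annihilateRight_apply,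
      annihilateRight_appell c h0, Finsupp.add_apply, add_comm]
    congr 1
    cases w with
    | nil => simp [defect, annihilate, onWords_word]
    | cons a w =>
      have hc : create a (defect c j v w) [] = 0 := by
        rw [show create a = prepend [a] from rfl, prepend_apply]
        simp
      rw [defect, Finsupp.add_apply, hc, zero_add, annihilate, onWords_word]
      by_cases h : a = j
      · simp [h, leftMul_word, vac]
      · simp [h, Ne.symm h]

end Coefficients

end Conjugate

end

end Vale.Agent.P087
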