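import Vale.Agent.P087.Defs

/-!
# P087: algebraic core shared by the modules

Finitely supported vectors over words, creation and annihilation, Wick words, Appell words.
-/

namespace Vale.Agent.P087

noncomputable section

section Generic

variable {J ι A : Type} {R : Type} [CommRing R] [Ring A] [Algebra R A]

/-- Wick word of a free semicircular family `s`. -/
def wickOf [DecidableEq ι] (s : ι → A) : List ι → A
  | [] => 1
  | [a] => s a
  | a :: b :: w => s a * wickOf s (b :: w) - if a = b then wickOf s w else 0

/-- Appell words of a tuple `X` for given cumulants `c i u = κ(i, u)`. -/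
def appellOf (X : J → A) (c : J → List J → R) : List J → A
  | [] => 1
  | i :: w => X i * appellOf X c w -
      ∑ l : Fin (w.length + 1), c i (w.take l) • appellOf X c (w.drop l)
  termination_by w => w.length
  decreasing_by all_goals simp

/-- Appell words of `X` with respect to the functional `φ`, defined without reference to
cumulants. -/
def appell (φ : A →ₗ[R] R) (X : J → A) : List J → A
  | [] => 1
  | i :: w => X i * appell φ X w -
      ∑ l : Fin (w.length + 1), φ (X i * appell φ X (w.take l)) • appell φ X (w.drop l)
  termination_by w => w.length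
  decreasing_by all_goals simp

/-- Free cumulant `κ(i, u₁, …, u_r)` of `X`. -/
def cumulant (φ : A →ₗ[R] R) (X : J → A) (i : J) (u : List J) : R := φ (X i * appell φ X u)

end Generic

/-- Finitely supported real vectors indexed by words. -/
abbrev Fck (ι : Type) := List ι →₀ ℝ

/-- Real linear operators on finitely supported vectors. -/
abbrev FckOp (ι : Type) := Module.End ℝ (Fck ι)

section Fock

variable {ι : Type}

/-- The vacuum vector. -/
def vac : Fck ι := Finsupp.single [] 1

/-- Basis vector of a word. -/
def word (w : List ι) : Fck ι := Finsupp.single w 1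

/-- The linear map given on basis vectors. -/
def onWords {E : Type} [AddCommGroup E] [Module ℝ E] (f : List ι → E) : Fck ι →ₗ[ℝ] E :=
  Finsupp.linearCombination ℝ f

@[simp] theorem onWords_word {E : Type} [AddCommGroup E] [Module ℝ E] (f : List ι → E)
    (w : List ι) : onWords f (word w) = f w := by
  simp [onWords, word]

/-- Left creation. -/
def create (a : ι) : FckOp ι := onWords fun w => word (a :: w)

/-- Left annihilation. -/
def annihilate [DecidableEq ι] (a : ι) : FckOp ι := onWords fun w =>
  match w with
  | [] => 0
  | b :: w => if a = b then word w else 0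

/-- Semicircular operator `l(a) + l(a)*`. -/
def semi [DecidableEq ι] (a : ι) : FckOp ι := create a + annihilate a

/-- Right annihilation: removal of the last letter `a`. -/
def annihilateRight [DecidableEq ι] (a : ι) : FckOp ι := onWords fun w =>
  if w.getLast? = some a then word w.dropLast else 0

/-- The vacuum state on operators. -/
def vacState : FckOp ι →ₗ[ℝ] ℝ where
  toFun A := A vac []
  map_add' A B := by simp
  map_smul' c A := by simp

/-- Right concatenation of a word. -/
def appendWord (q : List ι) : FckOp ι := onWords fun v => word (v ++ q)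

/-- Vectors supported on words with all letters in `P`. -/
def SupportedOn (P : Set ι) (v : Fck ι) : Prop := ∀ w ∈ v.support, ∀ a ∈ w, a ∈ P

/-- Finite `ℓ²` inner product. -/
def dot (v u : Fck ι) : ℝ := v.sum fun w x => x * u w

/-- Product of operators along a word. -/
def opProd {J : Type} (X : J → FckOp ι) (w : List J) : FckOp ι := (w.map X).prod

end Fock

section Degree

variable {J : Type} [Fintype J]

/-- Sum of squares of the coefficients of degree `k` of a finite family. -/
def degSq {α : Type} [Fintype α] (f : α → Fck J) (k : ℕ) : ℝ :=
  ∑ a, ∑ w : Fin k → J, (f a (List.ofFn w)) ^ 2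

/-- Weighted norm `∑ₖ 2ᵏ (degSq f k)^(1/2)` of a finite family. -/
def famNorm {α : Type} [Fintype α] (f : α → Fck J) : ℝ :=
  ∑' k : ℕ, (2 : ℝ) ^ k * Real.sqrt (degSq f k)

variable [DecidableEq J]

/-- The Fock model `l_i + ∑_u c(i,u) l_u*` on coordinates. -/
def modelOp (c : J → List J → ℝ) (i : J) : FckOp J := onWords fun w =>
  word (i :: w) + ∑ l : Fin (w.length + 1), c i (w.take l) • word (w.drop l)

/-- Left multiplication operator of a coordinate vector. -/
def leftMul (c : J → List J → ℝ) : Fck J →ₗ[ℝ] FckOp J :=
  onWords (appellOf (modelOp c) c)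

end Degree

/-! ## The concrete tuple -/

/-- Words of length `L` in two letters. -/
abbrev Code (L : ℕ) := Fin L → Fin 2

/-- Index set of the tuple: two latent variables and one variable for each code word. -/
abbrev Idx (L : ℕ) := Fin 2 ⊕ Code L

/-- Letters: latent letters, intrinsic noise, heat noise. -/
abbrev Letter (L : ℕ) := Fin 2 ⊕ (Idx L ⊕ Idx L)

/-- The latent letter. -/
def latent {L : ℕ} (i : Fin 2) : Letter L := Sum.inl i

/-- The letter of intrinsic noise. -/
def noise {L : ℕ} (j : Idx L) : Letter L := Sum.inr (Sum.inl j)

/-- The letter of heat noise. -/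
def heat {L : ℕ} (j : Idx L) : Letter L := Sum.inr (Sum.inr j)

/-- The palindrome `w 0 rev(w)` of length `2L+1`. -/
def palindrome {L : ℕ} (w : Code L) : List (Fin 2) :=
  List.ofFn w ++ [0] ++ (List.ofFn w).reverse

/-- The tuple: `X_i = s(a_i) + ε s(g_i)` and `X_w = W_{w 0 rev w}(s(a)) + s(g_w)`. -/
def tuple {R A : Type} [CommRing R] [Ring A] [Algebra R A] {L : ℕ} (s : Letter L → A) (ε : R) :
    Idx L → A
  | Sum.inl i => s (latent i) + ε • s (noise (Sum.inl i))
  | Sum.inr w => wickOf (fun i => s (latent i)) (palindrome w) + s (noise (Sum.inr w))

/-- Letters used by the tuple. -/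
def baseLetters (L : ℕ) : Set (Letter L) := Set.range latent ∪ Set.range noise

end

end Vale.Agent.P087
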