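import Mathlib

/-!
# P087: microstates and nonmicrostates free entropy — definitions

A tracial von Neumann algebra with faithful normal trace is represented on a Hilbert space `H`
with a unit vector `Ω` whose vector state is tracial and faithful on the algebra (normality of
a vector state is automatic).  Then `L²(W*(X),τ)` is the closure of the polynomials in `X`
applied to `Ω`.
-/

open scoped InnerProductSpace ENNReal
open MeasureTheory Filter

namespace Vale.Agent.P087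

noncomputable section

variable {H : Type} [NormedAddCommGroup H] [InnerProductSpace ℂ H] [CompleteSpace H]

/-- The vector state `a ↦ ⟨Ω, aΩ⟩`. -/
def trace (Ω : H) (a : H →L[ℂ] H) : ℂ := ⟪Ω, a Ω⟫_ℂ

/-- `Ω` is a unit vector whose vector state on `M` is a faithful trace. -/
def IsFaithfulTracialState (M : VonNeumannAlgebra H) (Ω : H) : Prop :=
  ‖Ω‖ = 1 ∧ (∀ a ∈ M, ∀ b ∈ M, trace Ω (a * b) = trace Ω (b * a)) ∧
    ∀ a ∈ M, trace Ω (star a * a) = 0 → a = 0

/-- The monomial `X_{i₁} ⋯ X_{i_p}`. -/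
def monomial {n : ℕ} (X : Fin n → H →L[ℂ] H) (w : List (Fin n)) : H →L[ℂ] H := (w.map X).prod

/-- Free independence of a family of subsets (unital algebras): alternating products of centred
elements are centred. -/
def IsFreeFamily (Ω : H) {ι : Type} (A : ι → Set (H →L[ℂ] H)) : Prop :=
  ∀ (p : ℕ) (i : Fin p → ι) (a : Fin p → H →L[ℂ] H), 0 < p → (∀ l, a l ∈ A (i l)) →
    (∀ l, trace Ω (a l) = 0) → (∀ l l' : Fin p, l.val + 1 = l'.val → i l ≠ i l') →
    trace Ω (List.ofFn a).prod = 0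

/-- `S` is a free family of semicircular elements of variance one. -/
def IsFreeSemicircular (Ω : H) {n : ℕ} (S : Fin n → H →L[ℂ] H) : Prop :=
  (∀ (j : Fin n) (p : ℕ), trace Ω (S j ^ p) = if Even p then (catalan (p / 2) : ℂ) else 0) ∧
    IsFreeFamily Ω fun j => (Algebra.adjoin ℂ {S j} : Set (H →L[ℂ] H))

/-- The unital algebras generated by `X` and by `S` are freely independent. -/
def IsFreeFrom (Ω : H) {n : ℕ} (X S : Fin n → H →L[ℂ] H) : Prop :=
  IsFreeFamily Ω fun b : Bool =>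
    ((if b then Algebra.adjoin ℂ (Set.range X) else Algebra.adjoin ℂ (Set.range S)) :
      Set (H →L[ℂ] H))

/-- The self-adjoint `k × k` matrix with orthonormal coordinates `x` for `⟨A,B⟩ = Tr (AB)`:
diagonal entries `x a a`, off-diagonal real and imaginary parts scaled by `1/√2`. -/
def hermitian {k : ℕ} (x : Fin k → Fin k → ℝ) : Matrix (Fin k) (Fin k) ℂ := fun a b =>
  if a = b then (x a a : ℂ)
  else if a < b then ((x a b : ℂ) + Complex.I * (x b a : ℂ)) / (Real.sqrt 2 : ℝ)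
  else ((x b a : ℂ) - Complex.I * (x a b : ℂ)) / (Real.sqrt 2 : ℝ)

/-- Microstates `Γ_R(X; m, k, ε)`, in orthonormal coordinates on `(M_k^sa)^n`. -/
def microstates (Ω : H) {n : ℕ} (X : Fin n → H →L[ℂ] H) (R : ℝ) (m k : ℕ) (ε : ℝ) :
    Set (Fin n → Fin k → Fin k → ℝ) :=
  {x | (∀ j, ‖Matrix.toEuclideanCLM (𝕜 := ℂ) (hermitian (x j))‖ ≤ R) ∧
    ∀ w : List (Fin n), 1 ≤ w.length → w.length ≤ m →
      ‖(k : ℂ)⁻¹ * ((w.map fun j => hermitian (x j)).prod).trace - trace Ω (monomial X w)‖ < ε}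

/-- `χ_R(X) = inf_{m,ε} limsup_k (k⁻² log vol Γ_R + (n/2) log k)`. -/
def chiR (Ω : H) {n : ℕ} (X : Fin n → H →L[ℂ] H) (R : ℝ) : EReal :=
  ⨅ (m : ℕ) (ε : ℝ) (_ : 0 < ε), limsup (fun k : ℕ =>
    ((((k : ℝ) ^ 2)⁻¹ : ℝ) : EReal) * ENNReal.log (volume (microstates Ω X R m k ε)) +
      (((n : ℝ) / 2 * Real.log k : ℝ) : EReal)) atTop

/-- Voiculescu's microstates free entropy `χ(X) = sup_{R>0} χ_R(X)`. -/
def chi (Ω : H) {n : ℕ} (X : Fin n → H →L[ℂ] H) : EReal :=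
  ⨆ (R : ℝ) (_ : 0 < R), chiR Ω X R

/-- `(τ ⊗ τ)(∂_j (x_{i₁} ⋯ x_{i_p}))` evaluated at `X`. -/
def diffQuotTrace (Ω : H) {n : ℕ} (X : Fin n → H →L[ℂ] H) (j : Fin n) (w : List (Fin n)) : ℂ :=
  ∑ l : Fin w.length, if w.get l = j then
    trace Ω (monomial X (w.take l)) * trace Ω (monomial X (w.drop (l + 1))) else 0

/-- `η` is the vector of the conjugate variable `ξ_j` in `L²(W*(X),τ)`: it lies in the closure of
the polynomials applied to `Ω` and `⟨η, P(X)Ω⟩ = (τ⊗τ)(∂_j P(X))`. -/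
def IsConjugate (Ω : H) {n : ℕ} (X : Fin n → H →L[ℂ] H) (j : Fin n) (η : H) : Prop :=
  η ∈ (Submodule.span ℂ (Set.range fun w => monomial X w Ω)).topologicalClosure ∧
    ∀ w, ⟪η, monomial X w Ω⟫_ℂ = diffQuotTrace Ω X j w

/-- Free Fisher information: `∑ ‖ξ_j‖₂²`, and `∞` if conjugate variables do not exist. -/
def fisher (Ω : H) {n : ℕ} (X : Fin n → H →L[ℂ] H) : ℝ≥0∞ :=
  ⨅ (η : Fin n → H) (_ : ∀ j, IsConjugate Ω X j (η j)), ∑ j, ENNReal.ofReal (‖η j‖ ^ 2)

/-- The perturbed tuple `X + √t S`. -/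
def perturbed {n : ℕ} (X S : Fin n → H →L[ℂ] H) (t : ℝ) (j : Fin n) : H →L[ℂ] H :=
  X j + (Real.sqrt t : ℂ) • S j

/-- `χ*(X) = ½ ∫_0^∞ (n/(1+t) - Φ*(X+√t S)) dt + (n/2) log (2πe)`, the integral being the integral
of the positive part minus that of the negative part. -/
def chiStar (Ω : H) {n : ℕ} (X S : Fin n → H →L[ℂ] H) : EReal :=
  ((1 / 2 : ℝ) : EReal) *
      (((∫⁻ t in Set.Ioi (0 : ℝ),
          (ENNReal.ofReal ((n : ℝ) / (1 + t)) - fisher Ω (perturbed X S t)) : ℝ≥0∞) : EReal) -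
       ((∫⁻ t in Set.Ioi (0 : ℝ),
          (fisher Ω (perturbed X S t) - ENNReal.ofReal ((n : ℝ) / (1 + t))) : ℝ≥0∞) : EReal)) +
    (((n : ℝ) / 2 * Real.log (2 * Real.pi * Real.exp 1) : ℝ) : EReal)

/-- The negative answer to the question: a tracial von Neumann algebra with an `n`-tuple `X` and a
free semicircular family `S` free from `X` such that `-∞ < χ(X) < χ*(X)`. -/
def Counterexample : Prop :=
  ∃ (H : Type) (_ : NormedAddCommGroup H) (_ : InnerProductSpace ℂ H) (_ : CompleteSpace H)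
    (M : VonNeumannAlgebra H) (Ω : H) (n : ℕ) (X S : Fin n → H →L[ℂ] H),
    1 ≤ n ∧ IsFaithfulTracialState M Ω ∧ (∀ j, X j ∈ M ∧ IsSelfAdjoint (X j)) ∧
      (∀ j, S j ∈ M ∧ IsSelfAdjoint (S j)) ∧ IsFreeSemicircular Ω S ∧ IsFreeFrom Ω X S ∧
      ⊥ < chi Ω X ∧ chi Ω X < chiStar Ω X S

end

end Vale.Agent.P087
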