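import Vale.Agent.P087.Concrete

/-!
# P087: right annihilation as a derivation (dual system)
-/

namespace Vale.Agent.P087

noncomputable section

variable {ι J : Type}

theorem opProd_nil (Z : J → FckOp ι) : opProd Z [] = 1 := by simp [opProd]

theorem opProd_cons (Z : J → FckOp ι) (j : J) (u : List J) :
    opProd Z (j :: u) = Z j * opProd Z u := by simp [opProd]

/-- If `[D, Z_j] = γ_j P_Ω` and `DΩ = 0`, then `D` acts on monomials as a derivation. -/
theorem derivation_opProd (D : FckOp ι) (Z : J → FckOp ι) (γ : J → ℝ) (h0 : D vac = 0)
    (hD : ∀ j x, D (Z j x) = Z j (D x) + (γ j * x []) • vac) :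
    ∀ u : List J, D (opProd Z u vac) = ∑ l : Fin u.length,
      (γ (u.get l) * (opProd Z (u.drop (l + 1)) vac) []) • opProd Z (u.take l) vac
  | [] => by simp [opProd_nil, h0]
  | j :: u => by
      rw [opProd_cons, Module.End.mul_apply, hD, derivation_opProd D Z γ h0 hD u, map_sum]
      simp only [List.length_cons, Fin.sum_univ_succ, map_smul]
      rw [add_comm]
      congr 1

variable [DecidableEq ι]

@[simp] theorem annihilateRight_vac (g : ι) : annihilateRight g (vac : Fck ι) = 0 := by
  simp [annihilateRight, vac_eq_word]

theorem annihilateRight_word (g : ι) (w : List ι) :
    annihilateRight g (word w) = if w.getLast? = some g then word w.dropLast else 0 := by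
  simp [annihilateRight]

theorem annihilateRight_semi (g a : ι) (x : Fck ι) :
    annihilateRight g (semi a x) =
      semi a (annihilateRight g x) + ((if a = g then (1 : ℝ) else 0) * x []) • vac := by
  induction x using fck_induction with
  | h0 => simp
  | hadd u u' hu hu' =>
      simp only [map_add, hu, hu', Finsupp.add_apply, mul_add, add_smul]
      abel
  | hw w r =>
      simp only [map_smul, Finsupp.smul_apply, smul_eq_mul]
      rcases w with _ | ⟨b, w⟩
      · rw [semi_word_nil]
        by_cases h : a = g <;> simp [annihilateRight_word, word_apply, h, vac_eq_word]
      · rcases w with _ | ⟨c, w⟩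
        · rw [semi_word_cons]
          by_cases h2 : b = g
          · subst h2
            by_cases h1 : a = b <;> simp [annihilateRight_word, word_apply, h1, semi_word_nil]
          · by_cases h1 : a = b <;> simp [annihilateRight_word, word_apply, h1, h2, semi_word_nil]
        · rw [semi_word_cons]
          have e1 : (a :: b :: c :: w).getLast? = (b :: c :: w).getLast? := by simp
          have e2 : (c :: w).getLast? = (b :: c :: w).getLast? := by simp
          have e3 : (a :: b :: c :: w).dropLast = a :: (b :: c :: w).dropLast := by simp
          have e4 : (b :: c :: w).dropLast = b :: (c :: w).dropLast := by simp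
          by_cases h : (b :: c :: w).getLast? = some g
          · simp only [map_add, annihilateRight_word, e1, h, if_true, e3]
            rw [e4, semi_word_cons]
            by_cases h1 : a = b
            · simp only [h1, if_true, annihilateRight_word]
              rw [e2, if_pos h]
              simp [word_apply]
            · simp [h1, word_apply]
          · simp only [map_add, annihilateRight_word, e1, h, if_false]
            by_cases h1 : a = b
            · simp only [h1, if_true, annihilateRight_word]
              rw [e2, if_neg h]
              simp [word_apply]
            · simp [h1, word_apply]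

theorem apply_nil_annihilateRight (g : ι) (x : Fck ι) : annihilateRight g x [] = x [g] := by
  induction x using fck_induction with
  | h0 => simp
  | hadd u u' hu hu' => simp [hu, hu']
  | hw w r =>
      simp only [map_smul, Finsupp.smul_apply, smul_eq_mul, annihilateRight_word, word_apply]
      rcases w with _ | ⟨b, w⟩
      · simp
      · rcases w with _ | ⟨c, w⟩
        · by_cases h : b = g <;> simp [word_apply, h]
        · split_ifs <;> simp_all [word_apply]

/-- Semicircular letters different from `g` commute with the annihilation of `g`; so do their
Wick words. -/
theorem annihilateRight_wickOf {K : Type} [DecidableEq K] (g : ι) (f : K → ι)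
    (hf : ∀ k, f k ≠ g) :
    ∀ (w : List K) (x : Fck ι), annihilateRight g (wickOf (fun k => semi (f k)) w x) =
      wickOf (fun k => semi (f k)) w (annihilateRight g x)
  | [], x => rfl
  | [a], x => by simp [wickOf, annihilateRight_semi, hf]
  | a :: b :: w, x => by
      simp only [wickOf, LinearMap.sub_apply, Module.End.mul_apply, map_sub,
        annihilateRight_semi, hf, if_false, zero_mul, zero_smul, add_zero,
        annihilateRight_wickOf g f hf (b :: w)]
      split_ifs
      · rw [annihilateRight_wickOf g f hf w]
      · simp

end

end Vale.Agent.P087
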