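import Vale.Agent.P087.Defs

/-!
# P087: bounds on free Fisher information
-/

open scoped InnerProductSpace ENNReal

namespace Vale.Agent.P087

noncomputable section

variable {H : Type} [NormedAddCommGroup H] [InnerProductSpace ℂ H] [CompleteSpace H]
variable {Ω : H} {n : ℕ} {X : Fin n → H →L[ℂ] H}

/-- Any vectors implementing the difference quotients bound the free Fisher information. -/
theorem fisher_le (η : Fin n → H)
    (hη : ∀ j w, ⟪η j, monomial X w Ω⟫_ℂ = diffQuotTrace Ω X j w) :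
    fisher Ω X ≤ ENNReal.ofReal (∑ j, ‖η j‖ ^ 2) := by
  set K := (Submodule.span ℂ (Set.range fun w => monomial X w Ω)).topologicalClosure with hK
  have : CompleteSpace K :=
    (Submodule.isClosed_topologicalClosure _).completeSpace_coe
  have hmem : ∀ w, monomial X w Ω ∈ K := fun w =>
    Submodule.le_topologicalClosure _ (Submodule.subset_span ⟨w, rfl⟩)
  have hconj : ∀ j, IsConjugate Ω X j (K.starProjection (η j)) := fun j =>
    ⟨K.starProjection_apply_mem _, fun w => by
      have h := K.starProjection_inner_eq_zero (η j) _ (hmem w)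
      rw [inner_sub_left, sub_eq_zero] at h
      rw [← h, hη]⟩
  refine (iInf₂_le (fun j => K.starProjection (η j)) hconj).trans ?_
  rw [ENNReal.ofReal_sum_of_nonneg (fun _ _ => sq_nonneg _)]
  refine Finset.sum_le_sum fun j _ => ENNReal.ofReal_le_ofReal ?_
  exact pow_le_pow_left₀ (norm_nonneg _) (K.norm_starProjection_apply_le (η j)) 2

/-- Free Cramér–Rao: `Φ*(X) ≥ ∑ 1/‖X_j Ω‖²`. -/
theorem le_fisher (hΩ : ‖Ω‖ = 1) (v : Fin n → ℝ) (hv : ∀ j, 0 < v j)
    (hX : ∀ j, ‖X j Ω‖ ^ 2 = v j) : ENNReal.ofReal (∑ j, 1 / v j) ≤ fisher Ω X := by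
  refine le_iInf₂ fun η hη => ?_
  rw [ENNReal.ofReal_sum_of_nonneg (fun j _ => (one_div_pos.mpr (hv j)).le)]
  refine Finset.sum_le_sum fun j _ => ENNReal.ofReal_le_ofReal ?_
  have h := (hη j).2 [j]
  have hd : diffQuotTrace Ω X j [j] = 1 := by
    simp [diffQuotTrace, trace, monomial, inner_self_eq_norm_sq_to_K, hΩ]
  rw [hd] at h
  have h2 := norm_inner_le_norm (𝕜 := ℂ) (η j) (monomial X [j] Ω)
  rw [h] at h2
  simp only [norm_one, monomial, List.map_cons, List.map_nil, List.prod_singleton] at h2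
  rw [div_le_iff₀ (hv j), ← hX j]
  calc (1 : ℝ) = 1 ^ 2 := by norm_num
    _ ≤ (‖η j‖ * ‖X j Ω‖) ^ 2 := pow_le_pow_left₀ zero_le_one h2 2
    _ = ‖η j‖ ^ 2 * ‖X j Ω‖ ^ 2 := by ring

end

end Vale.Agent.P087
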