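import Vale.Agent.P087.Core

/-!
# P087: interfaces between the modules

Each module proves one of these propositions; the assembly derives `Counterexample` from them.
-/

open scoped InnerProductSpace ENNReal NNReal
open MeasureTheory Filter

namespace Vale.Agent.P087

noncomputable section

/-- Module Hilbert: the free semicircular von Neumann algebra on full Fock space. -/
def RealisationStatement : Prop :=
  ∀ (ι : Type) [DecidableEq ι], ∃ (H : Type) (_ : NormedAddCommGroup H)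
    (_ : InnerProductSpace ℂ H) (_ : CompleteSpace H) (M : VonNeumannAlgebra H) (Ω : H)
    (s : ι → H →L[ℂ] H) (emb : Fck ι → H),
    IsFaithfulTracialState M Ω ∧
    (∀ a, s a ∈ M ∧ IsSelfAdjoint (s a)) ∧
    emb vac = Ω ∧
    (∀ v u, emb (v + u) = emb v + emb u) ∧
    (∀ (c : ℝ) v, emb (c • v) = (c : ℂ) • emb v) ∧
    (∀ v u, ⟪emb v, emb u⟫_ℂ = (dot v u : ℂ)) ∧
    (∀ a v, s a (emb v) = emb (semi a v)) ∧
    (∀ (a : ι) (p : ℕ),
      trace Ω (s a ^ p) = if Even p then (catalan (p / 2) : ℂ) else 0) ∧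
    ∀ (κ : Type) (P : κ → Set ι), Pairwise (fun i j => Disjoint (P i) (P j)) →
      IsFreeFamily Ω fun i => (Algebra.adjoin ℂ (s '' P i) : Set (H →L[ℂ] H))

/-- Module Bridge: cumulant bounds and the intertwiner of the normalised tuple
`(X_i + √t s(h_i)) / √(v_i + t)` with the coordinate model. -/
def BridgeStatement : Prop :=
  ∀ (ι J : Type) [DecidableEq ι] [Fintype J] [DecidableEq J] (P : Set ι) (X : J → FckOp ι)
    (h : J → ι) (v : J → ℝ) (σ t : ℝ),
    Function.Injective h → (∀ j, h j ∉ P) →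
    (∀ j x y, dot (X j x) y = dot x (X j y)) →
    (∀ j x, SupportedOn P x → SupportedOn P (X j x)) →
    (∀ j x q, SupportedOn P x → (∀ a, q.head? = some a → a ∉ P) →
      X j (appendWord q x) = appendWord q (X j x)) →
    (∀ i w, vacState (X i * opProd X w) = vacState (opProd X w * X i)) →
    (∀ i, vacState (X i) = 0) →
    (∀ i j, vacState (X i * X j) = if i = j then v i else 0) →
    (∀ i, 1 ≤ v i) → 1 ≤ σ →
    (∀ k, ∑ w : Fin k → J, (vacState (opProd X (List.ofFn w))) ^ 2 ≤ σ ^ (2 * k)) →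
    (2 ^ 13 * σ) ^ 2 ≤ t →
    ∃ (c : J → List J → ℝ) (Ψ : Fck J →ₗ[ℝ] Fck ι),
      (∀ i, c i [] = 0) ∧ (∀ i j, c i [j] = if i = j then 1 else 0) ∧
      (∀ k, 2 ≤ k → ∑ i, ∑ u : Fin k → J, (c i (List.ofFn u)) ^ 2 ≤
        (1 / 64 : ℝ) ^ (2 * (k + 1))) ∧
      Ψ vac = vac ∧
      (∀ i φ, Ψ (modelOp c i φ) =
        (Real.sqrt (v i + t))⁻¹ • (X i + Real.sqrt t • semi (h i)) (Ψ φ)) ∧
      (∀ φ, Ψ φ [] = φ []) ∧
      ∀ (α : Type) [Fintype α] (f : α → Fck J),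
        ∑ a, dot (Ψ (f a)) (Ψ (f a)) ≤ famNorm f ^ 2

/-- Module Conjugate: approximate conjugate variables in the coordinate model. -/
def ConjugateStatement : Prop :=
  ∀ (J : Type) [Fintype J] [DecidableEq J] (c : J → List J → ℝ),
    (∀ i, c i [] = 0) → (∀ i j, c i [j] = if i = j then 1 else 0) →
    (∀ k, 2 ≤ k → ∑ i, ∑ u : Fin k → J, (c i (List.ofFn u)) ^ 2 ≤
      (1 / 64 : ℝ) ^ (2 * (k + 1))) →
    ∃ φ : ℕ → J → Fck J,
      (∀ m, famNorm (fun j => φ m j - word [j]) ≤ 1 / 64) ∧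
      (∀ m, famNorm (fun j => φ (m + 1) j - φ m j) ≤ (1 / 2 : ℝ) ^ m) ∧
      ∀ j v, Tendsto (fun m => leftMul c (φ m j) v []) atTop (nhds (v [j]))

/-- Module OpNorm: `ℓ²` growth of the moments of the concrete tuple. -/
def MomentStatement : Prop :=
  ∀ (M : ℕ) (ε : ℝ), |ε| ≤ 1 → ∀ k : ℕ,
    ∑ w : Fin k → Idx (2 * M),
        (vacState (opProd (tuple (semi : Letter (2 * M) → FckOp (Letter (2 * M))) ε)
          (List.ofFn w))) ^ 2 ≤
      (32 + (4 * (M : ℝ) + 4) ^ 2 * 2 ^ M) ^ k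

/-- Gaussian measure of variance `1/k` on coordinates of families of self-adjoint `k × k`
matrices. -/
def gueMeasure (Λ : Type) [Fintype Λ] (k : ℕ) : Measure (Λ → Fin k → Fin k → ℝ) :=
  Measure.pi fun _ => Measure.pi fun _ => Measure.pi fun _ =>
    ProbabilityTheory.gaussianReal 0 ((k : ℝ≥0))⁻¹

/-- Module GUE: asymptotic freeness and norm boundedness of independent GUE matrices. -/
def GUEStatement : Prop :=
  ∀ (Λ : Type) [Fintype Λ] [DecidableEq Λ], ∃ R : ℝ, 0 < R ∧ ∀ (m : ℕ) (ε : ℝ), 0 < ε →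
    ∀ᶠ k in atTop, (2 : ℝ≥0∞)⁻¹ ≤ gueMeasure Λ k
      {x | (∀ a, ‖Matrix.toEuclideanCLM (𝕜 := ℂ) (hermitian (x a))‖ ≤ R) ∧
        ∀ w : List Λ, w.length ≤ m →
          ‖(k : ℂ)⁻¹ * ((w.map fun a => hermitian (x a)).prod).trace -
            ((vacState (opProd semi w) : ℝ) : ℂ)‖ < ε}

/-- Module Lower: finiteness of `χ` for the concrete tuple. -/
def LowerStatement : Prop :=
  ∀ (H : Type) [NormedAddCommGroup H] [InnerProductSpace ℂ H] [CompleteSpace H] (Ω : H)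
    (L n : ℕ) (s : Letter L → H →L[ℂ] H) (e : Fin n ≃ Idx L) (ε : ℝ),
    (∀ w : List (Letter L), trace Ω (w.map s).prod = ((vacState (opProd semi w) : ℝ) : ℂ)) →
    0 < ε → ⊥ < chi Ω (fun j => tuple s (ε : ℂ) (e j))

/-- Module Upper: the Gaussian volume bound for a triangular tuple. -/
def UpperStatement : Prop :=
  ∀ (H : Type) [NormedAddCommGroup H] [InnerProductSpace ℂ H] [CompleteSpace H] (Ω : H)
    (W : Type) [Fintype W] (n : ℕ) (e : Fin n ≃ Fin 2 ⊕ W) (X : Fin 2 ⊕ W → H →L[ℂ] H)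
    (d : Fin 2 ⊕ W → ℝ) (p : W → FreeAlgebra ℂ (Fin 2)),
    ‖Ω‖ = 1 →
    (∀ j, IsSelfAdjoint (X j)) → (∀ j, 0 < d j) →
    (∀ (w : W) (k : ℕ) (A : Fin 2 → Matrix (Fin k) (Fin k) ℂ), (∀ i, (A i).IsHermitian) →
      (FreeAlgebra.lift ℂ A (p w)).IsHermitian) →
    (∀ i, (trace Ω (X (Sum.inl i) * X (Sum.inl i))).re ≤ d (Sum.inl i)) →
    (∀ w, (trace Ω ((X (Sum.inr w) - FreeAlgebra.lift ℂ (fun i => X (Sum.inl i)) (p w)) *
        (X (Sum.inr w) - FreeAlgebra.lift ℂ (fun i => X (Sum.inl i)) (p w)))).re ≤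
      d (Sum.inr w)) →
    chi Ω (fun j => X (e j)) ≤
      (((n : ℝ) / 2 * Real.log (2 * Real.pi * Real.exp 1) + 1 / 2 * ∑ j, Real.log (d j) : ℝ) :
        EReal)

end

end Vale.Agent.P087
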