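import Vale.Agent.P087.Derivation

/-!
# P087: the seeds determine the latent part up to a small error
-/

namespace Vale.Agent.P087

noncomputable section

variable {ι : Type}

/-- The `ℓ¹` norm of a finitely supported vector. -/
def sumAbs (x : Fck ι) : ℝ := x.sum fun _ a => |a|

theorem sumAbs_eq [DecidableEq ι] (x : Fck ι) {s : Finset (List ι)} (h : x.support ⊆ s) :
    sumAbs x = ∑ w ∈ s, |x w| := by
  rw [sumAbs, Finsupp.sum_of_support_subset x h (fun _ a => |a|) (fun _ _ => by simp)]

theorem sumAbs_nonneg (x : Fck ι) : 0 ≤ sumAbs x :=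
  Finset.sum_nonneg fun _ _ => abs_nonneg _

@[simp] theorem sumAbs_zero : sumAbs (0 : Fck ι) = 0 := by simp [sumAbs]

@[simp] theorem sumAbs_word (w : List ι) : sumAbs (word w) = 1 := by simp [sumAbs, word]

theorem sumAbs_smul (r : ℝ) (x : Fck ι) : sumAbs (r • x) = |r| * sumAbs x := by
  rw [sumAbs, Finsupp.sum_smul_index (by intros; simp), sumAbs, Finsupp.mul_sum]
  exact Finsupp.sum_congr fun _ _ => by simp [abs_mul]

theorem sumAbs_add (x y : Fck ι) : sumAbs (x + y) ≤ sumAbs x + sumAbs y := by
  classical
  rw [sumAbs_eq (x + y) (s := x.support ∪ y.support) Finsupp.support_add,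
    sumAbs_eq x (s := x.support ∪ y.support) Finset.subset_union_left,
    sumAbs_eq y (s := x.support ∪ y.support) Finset.subset_union_right,
    ← Finset.sum_add_distrib]
  exact Finset.sum_le_sum fun w _ => by simpa using abs_add_le (x w) (y w)

theorem sumAbs_sub (x y : Fck ι) : sumAbs (x - y) ≤ sumAbs x + sumAbs y := by
  have h := sumAbs_add x ((-1 : ℝ) • y)
  rw [sumAbs_smul, abs_neg, abs_one, one_mul, neg_one_smul, ← sub_eq_add_neg] at h
  exact h

theorem sumAbs_semi [DecidableEq ι] (a : ι) (x : Fck ι) :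
    sumAbs (semi a x) ≤ 2 * sumAbs x := by
  classical
  have hw : ∀ w : List ι, sumAbs (semi a (word w)) ≤ 2 := fun w => by
    rcases w with _ | ⟨b, w⟩
    · simp [semi_word_nil]
    · rw [semi_word_cons]
      refine (sumAbs_add _ _).trans ?_
      split_ifs <;> simp <;> norm_num
  have hx : x = ∑ w ∈ x.support, x w • word w := by
    conv_lhs => rw [← Finsupp.sum_single x]
    exact Finset.sum_congr rfl fun w _ => by simp [word]
  conv_lhs => rw [hx, map_sum]
  conv_rhs => rw [sumAbs, Finsupp.sum, Finset.mul_sum]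
  refine (Finset.le_sum_of_subadditive (fun y : Fck ι => sumAbs y) sumAbs_zero.le
    (fun y z => sumAbs_add y z) _ _).trans (Finset.sum_le_sum fun w _ => ?_)
  rw [map_smul, sumAbs_smul, mul_comm]
  exact mul_le_mul_of_nonneg_right (hw w) (abs_nonneg _)

theorem dot_self_le_sumAbs_sq (x : Fck ι) : dot x x ≤ sumAbs x ^ 2 := by
  rw [sumAbs, dot, Finsupp.sum, Finsupp.sum, pow_two, Finset.sum_mul]
  refine Finset.sum_le_sum fun w hw => ?_
  calc x w * x w ≤ |x w| * |x w| := le_of_eq (abs_mul_abs_self _).symm
    _ ≤ |x w| * ∑ u ∈ x.support, |x u| :=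
        mul_le_mul_of_nonneg_left (Finset.single_le_sum (fun u _ => abs_nonneg (x u)) hw)
          (abs_nonneg _)

variable [DecidableEq ι]

/-- A seed `semi a + ε semi g`. -/
def seed {K : Type} (a g : K → ι) (ε : ℝ) (k : K) : FckOp ι := semi (a k) + ε • semi (g k)

theorem sumAbs_seed {K : Type} (a g : K → ι) {ε : ℝ} (hε : |ε| ≤ 1) (k : K) (x : Fck ι) :
    sumAbs (seed a g ε k x) ≤ 4 * sumAbs x := by
  simp only [seed, LinearMap.add_apply, LinearMap.smul_apply]
  refine (sumAbs_add _ _).trans ?_
  rw [sumAbs_smul]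
  have h1 := sumAbs_semi (a k) x
  have h2 : |ε| * sumAbs (semi (g k) x) ≤ 1 * (2 * sumAbs x) :=
    mul_le_mul hε (sumAbs_semi _ _) (sumAbs_nonneg _) zero_le_one
  linarith

theorem sumAbs_wickOf_seed {K : Type} [DecidableEq K] (a g : K → ι) {ε : ℝ} (hε : |ε| ≤ 1) :
    ∀ w : List K, sumAbs (wickOf (seed a g ε) w vac) ≤ 5 ^ w.length
  | [] => by simp [wickOf, vac_eq_word]
  | [k] => by
      have h := sumAbs_seed a g hε k vac
      simp [wickOf, vac_eq_word] at h ⊢
      linarith
  | k :: l :: w => by
      simp only [wickOf, LinearMap.sub_apply, Module.End.mul_apply, List.length_cons]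
      refine (sumAbs_sub _ _).trans ?_
      have h1 := (sumAbs_seed a g hε k (wickOf (seed a g ε) (l :: w) vac))
      have h2 := sumAbs_wickOf_seed a g hε (l :: w)
      have h3 := sumAbs_wickOf_seed a g hε w
      have h4 : (0 : ℝ) ≤ 5 ^ w.length := by positivity
      simp only [List.length_cons] at h2
      split_ifs
      · ring_nf at h2 ⊢; linarith
      · simp only [LinearMap.zero_apply, sumAbs_zero]; ring_nf at h2 ⊢; linarith

theorem sumAbs_wickOf_seed_sub {K : Type} [DecidableEq K] (a g : K → ι) {ε : ℝ} (hε : |ε| ≤ 1) :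
    ∀ w : List K,
      sumAbs (wickOf (seed a g ε) w vac - wickOf (fun k => semi (a k)) w vac) ≤
        |ε| * 6 ^ w.length
  | [] => by simp [wickOf]
  | [k] => by
      simp only [wickOf, seed, LinearMap.add_apply, LinearMap.smul_apply, add_sub_cancel_left,
        sumAbs_smul, List.length_singleton, pow_one]
      have h := sumAbs_semi (g k) vac
      simp only [vac_eq_word, sumAbs_word] at h ⊢
      exact mul_le_mul_of_nonneg_left (by linarith) (abs_nonneg _)
  | k :: l :: w => by
      have h2 := sumAbs_wickOf_seed a g hε (l :: w)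
      have h5 := sumAbs_wickOf_seed_sub a g hε (l :: w)
      have h6 := sumAbs_wickOf_seed_sub a g hε w
      simp only [List.length_cons] at h2 h5 ⊢
      simp only [wickOf, LinearMap.sub_apply, Module.End.mul_apply]
      set u := wickOf (seed a g ε) (l :: w) vac
      set u' := wickOf (fun k => semi (a k)) (l :: w) vac
      set z := (if k = l then wickOf (seed a g ε) w else 0) vac
      set z' := (if k = l then wickOf (fun k => semi (a k)) w else 0) vac
      have e : seed a g ε k u - z - (semi (a k) u' - z') =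
          (semi (a k) (u - u') + ε • semi (g k) u) - (z - z') := by
        simp only [seed, LinearMap.add_apply, LinearMap.smul_apply, map_sub]
        abel
      rw [e]
      refine (sumAbs_sub _ _).trans ?_
      have hz : sumAbs (z - z') ≤ |ε| * 6 ^ w.length := by
        simp only [z, z']
        split_ifs
        · exact h6
        · simp only [LinearMap.zero_apply, sub_zero, sumAbs_zero]; positivity
      have ha := sumAbs_semi (a k) (u - u')
      have hg := sumAbs_semi (g k) u
      have hsum := sumAbs_add (semi (a k) (u - u')) (ε • semi (g k) u)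
      rw [sumAbs_smul] at hsum
      have hmul : |ε| * sumAbs (semi (g k) u) ≤ |ε| * (2 * 5 ^ (w.length + 1)) :=
        mul_le_mul_of_nonneg_left (hg.trans (by linarith)) (abs_nonneg _)
      have h56 : |ε| * (5 : ℝ) ^ w.length ≤ |ε| * 6 ^ w.length :=
        mul_le_mul_of_nonneg_left (pow_le_pow_left₀ (by norm_num) (by norm_num) _) (abs_nonneg _)
      have hpos : 0 ≤ |ε| * (6 : ℝ) ^ w.length := by positivity
      ring_nf at h5 hmul hz h56 hpos ⊢
      linarith

end

end Vale.Agent.P087
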