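import Vale.Agent.P087.NearConjugate
import Vale.Agent.P087.Seeds
import Vale.Agent.P087.Fisher
import Vale.Agent.P087.ChiStar

/-!
# P087: the bounds for the concrete tuple
-/

open scoped InnerProductSpace ENNReal
open Filter

namespace Vale.Agent.P087

noncomputable section

theorem dot_add_right {ι : Type} (x y y' : Fck ι) : dot x (y + y') = dot x y + dot x y' := by
  simp only [dot, Finsupp.add_apply, mul_add, Finsupp.sum_add]

theorem isFreeFamily_mono {H : Type} [NormedAddCommGroup H] [InnerProductSpace ℂ H]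
    [CompleteSpace H] {Ω : H} {κ : Type} {A B : κ → Set (H →L[ℂ] H)} (h : IsFreeFamily Ω B)
    (hAB : ∀ i, A i ⊆ B i) : IsFreeFamily Ω A :=
  fun p i a hp ha h0 hne => h p i a hp (fun l => hAB _ (ha l)) h0 hne

theorem wickOf_mem {K A σ : Type} [DecidableEq K] [Ring A] [SetLike σ A] [SubringClass σ A]
    (S : σ) (s : K → A) (h : ∀ k, s k ∈ S) : ∀ w : List K, wickOf s w ∈ S
  | [] => one_mem S
  | [a] => h a
  | a :: b :: w => by
      simp only [wickOf]
      refine sub_mem (mul_mem (h a) (wickOf_mem S s h (b :: w))) ?_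
      split_ifs
      · exact wickOf_mem S s h w
      · exact zero_mem S

/-- Transport of difference quotients along a relabelling. -/
theorem diffQuotTrace_relabel {H J : Type} [NormedAddCommGroup H] [InnerProductSpace ℂ H]
    [CompleteSpace H] [DecidableEq J] (Ω : H) {n : ℕ} (e : Fin n ≃ J) (Z : J → H →L[ℂ] H)
    (j : Fin n) (w : List (Fin n)) :
    diffQuotTrace Ω (fun i => Z (e i)) j w = ∑ l : Fin (w.map e).length,
      if (w.map e).get l = e j then
        trace Ω (((w.map e).take l).map Z).prod * trace Ω (((w.map e).drop (l + 1)).map Z).prod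
      else 0 := by
  unfold diffQuotTrace
  refine Fintype.sum_equiv (finCongr (List.length_map _).symm) _ _ fun l => ?_
  simp [monomial, List.map_drop, List.map_take, List.map_map, Function.comp_def]

theorem card_code (M : ℕ) : (Fintype.card (Code (2 * M)) : ℝ) = 4 ^ M := by
  simp [pow_mul]

theorem card_idx (M : ℕ) : (Fintype.card (Idx (2 * M)) : ℝ) = 2 + 4 ^ M := by
  simp [Fintype.card_sum, pow_mul]

theorem vacState_mul_of_symm {ι : Type} {A B : FckOp ι}
    (hA : ∀ u u', dot (A u) u' = dot u (A u')) : vacState (A * B) = dot (A vac) (B vac) := by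
  rw [hA, dot_vac_left]; rfl

section

variable {L : ℕ} {H : Type} [NormedAddCommGroup H] [InnerProductSpace ℂ H] [CompleteSpace H]
  (E : FockEmbedding (Letter L) H) (Mvn : VonNeumannAlgebra H) (s : Letter L → H →L[ℂ] H)

theorem tuple_mem_selfAdjoint (hs : ∀ a, s a ∈ Mvn ∧ IsSelfAdjoint (s a)) (ε : ℝ) :
    ∀ j, tuple s (ε : ℂ) j ∈ Mvn ∧ IsSelfAdjoint (tuple s (ε : ℂ) j) := by
  have hcM : ∀ (z : ℂ) (a : H →L[ℂ] H), a ∈ Mvn → z • a ∈ Mvn := fun z a ha =>
    SMulMemClass.smul_mem (s := Mvn.toStarSubalgebra) z ha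
  rintro (i | w)
  · exact ⟨add_mem (hs _).1 (hcM _ _ (hs _).1),
      (hs _).2.add (IsSelfAdjoint.smul (by simp [IsSelfAdjoint]) (hs _).2)⟩
  · refine ⟨add_mem (wickOf_mem Mvn _ (fun i => (hs _).1) _) (hs _).1,
      IsSelfAdjoint.add ?_ (hs _).2⟩
    show star _ = _
    rw [star_wickOf _ (fun i => (hs _).2.star_eq), palindrome_reverse]

theorem dot_seed_residual (ε : ℝ) (hε : |ε| ≤ 1) (w : Code L) :
    let Q : FckOp (Letter L) :=
      wickOf (fun i => tuple (semi : Letter L → FckOp (Letter L)) ε (Sum.inl i)) (palindrome w)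
    dot ((tuple semi ε (Sum.inr w) - Q) vac) ((tuple semi ε (Sum.inr w) - Q) vac) ≤
      1 + ε ^ 2 * 36 ^ (2 * L + 1) := by
  intro Q
  have hQ : Q = wickOf (seed latent (fun i => noise (Sum.inl i)) ε) (palindrome w) := rfl
  set y : Fck (Letter L) := wickOf (fun i => semi (latent i)) (palindrome w) vac - Q vac with hy
  have hv : (tuple semi ε (Sum.inr w) - Q) vac = word [noise (Sum.inr w)] + y := by
    simp only [tuple, LinearMap.sub_apply, LinearMap.add_apply, hy, vac_eq_word, semi_word_nil]
    abel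
  have hyg : y [noise (Sum.inr w)] = 0 := by
    let P' : Set (Letter L) := Set.range latent ∪ Set.range fun i => noise (Sum.inl i)
    have hl : ∀ i, ActsLocally P' (semi (latent i)) := fun i =>
      actsLocally_semi (Or.inl ⟨i, rfl⟩)
    have hg : ∀ i, ActsLocally P' (semi (noise (Sum.inl i))) := fun i =>
      actsLocally_semi (Or.inr ⟨i, rfl⟩)
    have hvs : SupportedOn P' (vac : Fck (Letter L)) := supportedOn_word (by simp)
    have hys : SupportedOn P' y := by
      refine SupportedOn.sub ((ActsLocally.wickOf hl _).1 _ hvs) ?_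
      rw [hQ]
      exact (ActsLocally.wickOf (fun i => (hl i).add ((hg i).smul ε)) _).1 _ hvs
    refine apply_eq_zero_of_supportedOn hys (List.mem_singleton_self _) ?_
    rintro (⟨i, hi⟩ | ⟨i, hi⟩) <;> simp [latent, noise] at hi
  have hyy : dot y y ≤ ε ^ 2 * 36 ^ (2 * L + 1) := by
    refine (dot_self_le_sumAbs_sq y).trans ?_
    have hb := sumAbs_wickOf_seed_sub latent (fun i => noise (L := L) (Sum.inl i)) hε (palindrome w)
    rw [length_palindrome] at hb
    have hneg : sumAbs y =
        sumAbs (Q vac - wickOf (fun i => semi (latent i)) (palindrome w) vac) := by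
      rw [hy, ← neg_sub, ← neg_one_smul ℝ, sumAbs_smul, abs_neg, abs_one, one_mul]
    rw [hneg, hQ]
    refine (pow_le_pow_left₀ (sumAbs_nonneg _) hb 2).trans (le_of_eq ?_)
    rw [mul_pow, sq_abs, ← pow_mul, mul_comm (2 * L + 1) 2, pow_mul]
    norm_num
  rw [hv, dot_add_left, dot_add_right, dot_add_right, dot_word, dot_word, hyg]
  have hyc : dot y (word [noise (Sum.inr w)]) = 0 := by
    rw [dot]
    refine Finset.sum_eq_zero fun u hu => ?_
    simp only [word_apply]
    split_ifs with h
    · exact absurd (h ▸ hyg) (Finsupp.mem_support_iff.mp hu)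
    · simp
  rw [hyc, word_apply, if_pos rfl]
  linarith

variable {E Mvn s}

/-- The upper bound on `χ`. -/
theorem chi_tuple_le (hU : UpperStatement) (hL : 1 ≤ L)
    (hM : IsFaithfulTracialState Mvn (E.emb vac)) (hs : ∀ a, s a ∈ Mvn ∧ IsSelfAdjoint (s a))
    (hrel : ∀ a, E.Rel (s a) (semi a)) {ε : ℝ} (hε : |ε| ≤ 1) {n : ℕ} (e : Fin n ≃ Idx L) :
    chi (E.emb vac) (fun j => tuple s (ε : ℂ) (e j)) ≤
      (((n : ℝ) / 2 * Real.log (2 * Real.pi * Real.exp 1) + 1 / 2 *
        (2 * Real.log (1 + ε ^ 2) +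
          (Fintype.card (Code L) : ℝ) * Real.log (1 + ε ^ 2 * 36 ^ (2 * L + 1))) : ℝ) : EReal) := by
  have hx := tuple_mem_selfAdjoint Mvn s hs ε
  have hrelx : ∀ j, E.Rel (tuple s (ε : ℂ) j) (tuple semi ε j) := fun j =>
    FockEmbedding.Rel.tuple hrel ε j
  have hsq : ∀ (a : H →L[ℂ] H) (A : FckOp (Letter L)), E.Rel a A → IsSelfAdjoint a →
      (trace (E.emb vac) (a * a)).re = dot (A vac) (A vac) := by
    intro a A hr hsa
    rw [(hr.mul hr).trace_eq, Complex.ofReal_re, vacState_mul_of_symm (hr.dot_symm hsa)]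
  let d : Fin 2 ⊕ Code L → ℝ :=
    Sum.elim (fun _ => 1 + ε ^ 2) (fun _ => 1 + ε ^ 2 * 36 ^ (2 * L + 1))
  let p : Code L → FreeAlgebra ℂ (Fin 2) := fun w => wickOf (FreeAlgebra.ι ℂ) (palindrome w)
  have hlift : ∀ {A : Type} [Ring A] [Algebra ℂ A] (f : Fin 2 → A) (w : Code L),
      FreeAlgebra.lift ℂ f (p w) = wickOf f (palindrome w) := by
    intro A _ _ f w
    have := map_wickOf (FreeAlgebra.lift ℂ f).toRingHom (FreeAlgebra.ι ℂ) (palindrome w)
    simpa [p] using this
  have h := hU H (E.emb vac) (Code L) n e (tuple s (ε : ℂ)) d p hM.1 (fun j => (hx j).2)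
    (by rintro (i | w) <;> simp [d] <;> positivity) ?_ ?_ ?_
  · refine h.trans (le_of_eq ?_)
    simp [d, Fintype.sum_sum_type]
  · intro w k A hA
    rw [hlift]
    show IsSelfAdjoint _
    rw [IsSelfAdjoint, star_wickOf A (fun i => hA i), palindrome_reverse]
  · intro i
    rw [hsq _ _ (hrelx _) (hx _).2, tuple_vac, dot_tupleVec hL, if_pos rfl]
    rfl
  · intro w
    rw [hlift]
    have hqsa : IsSelfAdjoint (wickOf (fun i => tuple s (ε : ℂ) (Sum.inl i)) (palindrome w)) := by
      show star _ = _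
      rw [star_wickOf _ (fun i => (hx _).2.star_eq), palindrome_reverse]
    rw [hsq _ _ ((hrelx _).sub (FockEmbedding.Rel.wickOf (fun i => hrelx _) _))
      ((hx _).2.sub hqsa)]
    exact dot_seed_residual ε hε w

/-- The amplitude of the Gaussian noise already present in a component. -/
def noiseAmplitude (ε : ℝ) : Idx L → ℝ := Sum.elim (fun _ => ε) (fun _ => 1)

/-- Right annihilation in the direction of the exact candidate. -/
def candidateDeriv (ε t : ℝ) (j : Idx L) : FckOp (Letter L) :=
  noiseAmplitude ε j • annihilateRight (noise j) + Real.sqrt t • annihilateRight (heat j)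

theorem candidateDeriv_comm {ε t : ℝ} (ht : 0 < t) (j k : Idx L) (f : Fck (Letter L)) :
    candidateDeriv ε t j ((tuple semi ε k + Real.sqrt t • semi (heat k)) f) =
      (tuple semi ε k + Real.sqrt t • semi (heat k)) (candidateDeriv ε t j f) +
        ((if k = j then noiseAmplitude ε j ^ 2 + t else 0) * f []) • vac := by
  rcases k with i | w
  · by_cases h : Sum.inl i = j
    · subst h
      simp [candidateDeriv, tuple, noiseAmplitude, annihilateRight_semi, smul_add, smul_smul,
        noise, heat, latent]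
      match_scalars <;> ring_nf <;> simp [Real.sq_sqrt ht.le] <;> ring
    · simp [candidateDeriv, tuple, annihilateRight_semi, smul_add, smul_smul, noise,
        heat, latent, h]
      match_scalars <;> ring
  · by_cases h : Sum.inr w = j
    · subst h
      simp [candidateDeriv, tuple, noiseAmplitude, annihilateRight_semi, annihilateRight_wickOf,
        smul_add, smul_smul, noise, heat, latent]
      match_scalars <;> ring_nf <;> simp [Real.sq_sqrt ht.le] <;> ring
    · simp [candidateDeriv, tuple, annihilateRight_semi, annihilateRight_wickOf, smul_add,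
        smul_smul, noise, heat, latent, h]
      match_scalars <;> ring

/-- The exact candidate bound, valid for all `t > 0`. -/
theorem fisher_le_candidate (hrel : ∀ a, E.Rel (s a) (semi a)) {ε : ℝ} (hε : 0 < ε) {n : ℕ}
    (e : Fin n ≃ Idx L) {t : ℝ} (ht : 0 < t) :
    fisher (E.emb vac)
        (perturbed (fun j => tuple s (ε : ℂ) (e j)) (fun j => s (heat (e j))) t) ≤
      ENNReal.ofReal (∑ j : Idx L, 1 / (noiseAmplitude ε j ^ 2 + t)) := by
  have hc : ∀ j : Idx L, 0 < noiseAmplitude ε j ^ 2 + t := fun j => by positivity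
  set Z0 : Idx L → FckOp (Letter L) := fun k => tuple semi ε k + Real.sqrt t • semi (heat k)
  set Zc : Idx L → H →L[ℂ] H := fun k =>
    tuple s (ε : ℂ) k + (Real.sqrt t : ℂ) • s (heat k) with hZc
  have hrelZ : ∀ k, E.Rel (Zc k) (Z0 k) := fun k =>
    (FockEmbedding.Rel.tuple hrel ε k).add ((hrel _).smul _)
  set η : Idx L → H := fun j => (((noiseAmplitude ε j ^ 2 + t)⁻¹ : ℝ) : ℂ) •
    E.emb (noiseAmplitude ε j • word [noise j] + Real.sqrt t • word [heat j]) with hηdef
  have hη : ∀ (j : Idx L) (u : List (Idx L)), ⟪η j, (u.map Zc).prod (E.emb vac)⟫_ℂ =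
      ∑ l : Fin u.length, if u.get l = j then
        trace (E.emb vac) ((u.take l).map Zc).prod *
          trace (E.emb vac) ((u.drop (l + 1)).map Zc).prod
      else 0 := by
    intro j u
    simp only [hηdef]
    rw [FockEmbedding.Rel.list_prod hrelZ u vac, inner_smul_left, E.inner_emb,
      Complex.conj_ofReal, dot_add_left, dot_smul_left, dot_smul_left, dot_word, dot_word,
      ← apply_nil_annihilateRight, ← apply_nil_annihilateRight]
    have := congrArg (fun f : Fck (Letter L) => f [])
      (derivation_opProd (candidateDeriv ε t j) Z0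
        (fun k => if k = j then noiseAmplitude ε j ^ 2 + t else 0) (by simp [candidateDeriv])
        (fun k f => candidateDeriv_comm ht j k f) u)
    simp only [candidateDeriv, LinearMap.add_apply, LinearMap.smul_apply, Finsupp.add_apply,
      Finsupp.smul_apply, smul_eq_mul, Finsupp.finsetSum_apply, opProd] at this
    rw [this, Complex.ofReal_sum, Finset.mul_sum]
    refine Finset.sum_congr rfl fun l _ => ?_
    simp only [(FockEmbedding.Rel.list_prod hrelZ _).trace_eq]
    by_cases h : u.get l = j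
    · rw [if_pos h, if_pos h]
      simp only [show ∀ A : FckOp (Letter L), vacState A = A vac [] from fun A => rfl]
      push_cast
      have : ((noiseAmplitude ε j : ℂ) ^ 2 + (t : ℂ)) ≠ 0 := by exact_mod_cast (hc j).ne'
      field_simp
    · rw [if_neg h, if_neg h]; simp
  have hηn : ∀ j, ‖η j‖ ^ 2 = 1 / (noiseAmplitude ε j ^ 2 + t) := fun j => by
    simp only [hηdef]
    rw [norm_smul, mul_pow, E.norm_sq, Complex.norm_real, Real.norm_eq_abs, sq_abs]
    have hgh : noise j ≠ heat j := by simp [noise, heat]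
    simp [dot_add_left, dot_smul_left, dot_word, word_apply, hgh, hgh.symm]
    rw [Real.mul_self_sqrt ht.le]
    have := (hc j).ne'
    field_simp
  refine (fisher_le (fun j => η (e j)) fun j w => ?_).trans (ENNReal.ofReal_le_ofReal ?_)
  · show _ = diffQuotTrace (E.emb vac) (fun i => Zc (e i)) j w
    rw [diffQuotTrace_relabel (E.emb vac) e Zc j w]
    have := hη (e j) (w.map e)
    rw [List.map_map] at this
    exact this
  · rw [Equiv.sum_comp e (fun j => ‖η j‖ ^ 2)]
    exact le_of_eq (Finset.sum_congr rfl fun j _ => hηn j)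

/-- The near-linear candidate bound, valid for large `t`. -/
theorem fisher_le_near (hB : BridgeStatement) (hC : ConjugateStatement) (hL : 1 ≤ L)
    (hM : IsFaithfulTracialState Mvn (E.emb vac)) (hs : ∀ a, s a ∈ Mvn ∧ IsSelfAdjoint (s a))
    (hrel : ∀ a, E.Rel (s a) (semi a)) {ε σ : ℝ} (hσ : 1 ≤ σ)
    (hmom : ∀ k, ∑ w : Fin k → Idx L,
      (vacState (opProd (tuple (semi : Letter L → FckOp (Letter L)) ε) (List.ofFn w))) ^ 2 ≤
        σ ^ (2 * k))
    {n : ℕ} (e : Fin n ≃ Idx L) {t : ℝ} (ht : (2 ^ 13 * σ) ^ 2 ≤ t) :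
    fisher (E.emb vac)
        (perturbed (fun j => tuple s (ε : ℂ) (e j)) (fun j => s (heat (e j))) t) ≤
      ENNReal.ofReal (∑ j : Idx L, 1 / (variance ε j + t) + (1 / 64) ^ 2 / t) := by
  have ht0 : 0 < t := lt_of_lt_of_le (by positivity) ht
  have hx := tuple_mem_selfAdjoint Mvn s hs ε
  have hrelx : ∀ j, E.Rel (tuple s (ε : ℂ) j) (tuple semi ε j) := fun j =>
    FockEmbedding.Rel.tuple hrel ε j
  have hsym : ∀ j u u', dot (tuple semi ε j u) u' = dot u (tuple semi ε j u') := fun j u u' =>
    (hrelx j).dot_symm (hx j).2 u u'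
  have hmem : ∀ w : List (Idx L), (w.map (tuple s (ε : ℂ))).prod ∈ Mvn := fun w =>
    list_prod_mem fun a ha => by
      obtain ⟨j, _, rfl⟩ := List.mem_map.mp ha
      exact (hx j).1
  have hv0 : ∀ i : Idx L, 1 ≤ variance ε i := fun i => by
    rcases i with i | w <;> simp [variance] <;> positivity
  obtain ⟨c, Ψ, hc0, hc1, hc2, hΨ0, hΨ, hΨnil, hΨbd⟩ :=
    hB (Letter L) (Idx L) (baseLetters L) (tuple semi ε) heat (variance ε) σ t
      (fun a b h => by simpa [heat] using h)
      (fun j => by rintro (⟨i, hi⟩ | ⟨i, hi⟩) <;> simp [latent, noise, heat] at hi)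
      hsym (fun j => (actsLocally_tuple ε j).1)
      (fun j u q hu hq => (actsLocally_tuple ε j).2 u q hu hq)
      (fun i w => by
        have h1 := ((hrelx i).mul (FockEmbedding.Rel.list_prod hrelx w)).trace_eq
        have h2 := ((FockEmbedding.Rel.list_prod hrelx w).mul (hrelx i)).trace_eq
        rw [hM.2.1 _ (hx i).1 _ (hmem w), h2] at h1
        exact (Complex.ofReal_injective h1).symm)
      (fun i => (congrArg (fun f : Fck (Letter L) => f []) (tuple_vac ε i)).trans
        (tupleVec_apply_nil ε i))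
      (fun i j => by
        rw [vacState_mul_of_symm (hsym i), tuple_vac, tuple_vac, dot_tupleVec hL])
      hv0 hσ hmom ht
  obtain ⟨φ, hφ0, hφ1, hφ2⟩ := hC (Idx L) c hc0 hc1 hc2
  obtain ⟨η, hη, hηn⟩ := exists_nearConjugate E Mvn hM (tuple s (ε : ℂ)) (fun j => s (heat j))
    (tuple semi ε) heat hrelx (fun i => hrel _) hx (fun i => hs _) (variance ε)
    (fun i => zero_le_one.trans (hv0 i)) t ht0 c Ψ hc0 hc1 hΨ0 hΨ hΨnil (hΨbd (Idx L))
    φ hφ0 hφ1 hφ2
  refine (fisher_le (fun j => η (e j)) fun j w => ?_).trans (ENNReal.ofReal_le_ofReal ?_)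
  · show _ = diffQuotTrace (E.emb vac)
      (fun i => tuple s (ε : ℂ) (e i) + (Real.sqrt t : ℂ) • s (heat (e i))) j w
    rw [diffQuotTrace_relabel (E.emb vac) e
      (fun i => tuple s (ε : ℂ) i + (Real.sqrt t : ℂ) • s (heat i)) j w]
    have := hη (e j) (w.map e)
    rw [List.map_map] at this
    exact this
  · rw [Equiv.sum_comp e (fun j => ‖η j‖ ^ 2)]
    exact hηn

end

end

end Vale.Agent.P087
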