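import Vale.Agent.P087.Derivation

/-!
# P087: the near-linear conjugate variables of the perturbed tuple
-/

open scoped InnerProductSpace
open Filter

namespace Vale.Agent.P087

noncomputable section

variable {J : Type} [Fintype J] [DecidableEq J]

/-- The coordinate model satisfies the dual-system relation. -/
theorem annihilateRight_modelOp (c : J → List J → ℝ) (hc : ∀ i, c i [] = 0) (j i : J)
    (x : Fck J) :
    annihilateRight j (modelOp c i x) =
      modelOp c i (annihilateRight j x) + ((if i = j then (1 : ℝ) else 0) * x []) • vac := by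
  induction x using fck_induction with
  | h0 => simp
  | hadd u u' hu hu' =>
      simp only [map_add, hu, hu', Finsupp.add_apply, mul_add, add_smul]
      abel
  | hw w r =>
      have key : annihilateRight j (modelOp c i (word w)) = modelOp c i (annihilateRight j (word w))
          + ((if i = j then (1 : ℝ) else 0) * (word w : Fck J) []) • vac := by
        rcases List.eq_nil_or_concat' w with rfl | ⟨u, b, rfl⟩
        · by_cases h : i = j <;>
            simp [modelOp_word, annihilateRight_word, hc, h, word_apply, vac_eq_word]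
        · have h0 : (word (u ++ [b]) : Fck J) [] = 0 := by simp [word_apply]
          rw [h0, mul_zero, zero_smul, add_zero, modelOp_word, map_add, map_sum]
          simp only [map_smul, annihilateRight_word]
          have hlen : (u ++ [b]).length + 1 = (u.length + 1) + 1 := by simp
          rw [Fin.sum_congr' _ hlen.symm |>.symm]
          rw [Fin.sum_univ_castSucc]
          have e1 : (i :: (u ++ [b])).getLast? = some b := by
            rw [← List.cons_append, List.getLast?_concat]
          have e2 : (i :: (u ++ [b])).dropLast = i :: u := by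
            rw [← List.cons_append, List.dropLast_concat]
          have e3 : ∀ l : Fin (u.length + 1),
              (u ++ [b]).drop l = u.drop l ++ [b] ∧ (u ++ [b]).take l = u.take l := fun l =>
            ⟨List.drop_append_of_le_length (by omega), List.take_append_of_le_length (by omega)⟩
          by_cases hb : b = j
          · subst hb
            simp [e1, e2, e3, List.dropLast_concat, modelOp_word]
          · simp [e1, e3, hb]
      simp only [map_smul, Finsupp.smul_apply, smul_eq_mul, key, smul_add, smul_smul]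
      congr 2
      ring

variable {ι H : Type} [NormedAddCommGroup H] [InnerProductSpace ℂ H] [CompleteSpace H]

theorem norm_star_apply_eq {M : VonNeumannAlgebra H} {Ω : H} (hM : IsFaithfulTracialState M Ω)
    {a : H →L[ℂ] H} (ha : a ∈ M) : ‖star a Ω‖ = ‖a Ω‖ := by
  have h := hM.2.1 a ha (star a) (star_mem ha)
  simp only [trace, ContinuousLinearMap.mul_def, ContinuousLinearMap.comp_apply,
    ContinuousLinearMap.star_eq_adjoint, ContinuousLinearMap.adjoint_inner_right] at h
  rw [← ContinuousLinearMap.adjoint_inner_left, inner_self_eq_norm_sq_to_K,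
    inner_self_eq_norm_sq_to_K] at h
  have h' : ‖(ContinuousLinearMap.adjoint a) Ω‖ ^ 2 = ‖a Ω‖ ^ 2 := by
    apply Complex.ofReal_injective
    push_cast
    simpa using h
  rw [ContinuousLinearMap.star_eq_adjoint]
  exact (pow_left_inj₀ (norm_nonneg _) (norm_nonneg _) two_ne_zero).mp h'

variable [DecidableEq ι]

/-- From approximate conjugate variables in the coordinate model to conjugate variables of
`Z_i = x_i + √t s_i` with free Fisher information at most `∑ 1/(v_i+t) + (1/64)²/t`. -/
theorem exists_nearConjugate (E : FockEmbedding ι H) (M : VonNeumannAlgebra H)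
    (hM : IsFaithfulTracialState M (E.emb vac)) (x S : J → H →L[ℂ] H) (X : J → FckOp ι)
    (g : J → ι) (hx : ∀ i, E.Rel (x i) (X i)) (hS : ∀ i, E.Rel (S i) (semi (g i)))
    (hxM : ∀ i, x i ∈ M ∧ IsSelfAdjoint (x i)) (hSM : ∀ i, S i ∈ M ∧ IsSelfAdjoint (S i))
    (v : J → ℝ) (hv : ∀ i, 0 ≤ v i) (t : ℝ) (ht : 0 < t)
    (c : J → List J → ℝ) (Ψ : Fck J →ₗ[ℝ] Fck ι) (hc0 : ∀ i, c i [] = 0)
    (hc1 : ∀ i j, c i [j] = if i = j then 1 else 0) (hΨ0 : Ψ vac = vac)
    (hΨ : ∀ i φ, Ψ (modelOp c i φ) =
        (Real.sqrt (v i + t))⁻¹ • (X i + Real.sqrt t • semi (g i)) (Ψ φ))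
    (hΨnil : ∀ φ, Ψ φ [] = φ [])
    (hΨbd : ∀ f : J → Fck J, ∑ a, dot (Ψ (f a)) (Ψ (f a)) ≤ famNorm f ^ 2)
    (φ : ℕ → J → Fck J) (hφ0 : ∀ m, famNorm (fun j => φ m j - word [j]) ≤ 1 / 64)
    (hφ1 : ∀ m, famNorm (fun j => φ (m + 1) j - φ m j) ≤ (1 / 2 : ℝ) ^ m)
    (hφ2 : ∀ j f, Tendsto (fun m => leftMul c (φ m j) f []) atTop (nhds (f [j]))) :
    ∃ η : J → H,
      (∀ (j : J) (u : List J),
        ⟪η j, (u.map fun i => x i + (Real.sqrt t : ℂ) • S i).prod (E.emb vac)⟫_ℂ =
          ∑ l : Fin u.length, if u.get l = j then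
            trace (E.emb vac) ((u.take l).map fun i => x i + (Real.sqrt t : ℂ) • S i).prod *
            trace (E.emb vac) ((u.drop (l + 1)).map fun i => x i + (Real.sqrt t : ℂ) • S i).prod
          else 0) ∧
      ∑ j, ‖η j‖ ^ 2 ≤ ∑ j, 1 / (v j + t) + (1 / 64) ^ 2 / t := by
  classical
  set Ω := E.emb vac with hΩ
  set r : J → ℝ := fun i => (Real.sqrt (v i + t))⁻¹ with hr
  set Z : J → H →L[ℂ] H := fun i => x i + (Real.sqrt t : ℂ) • S i with hZ
  set Q : J → H →L[ℂ] H := fun i => (r i : ℂ) • Z i with hQ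
  have hsmul : ∀ (z : ℂ) (a : H →L[ℂ] H), a ∈ M → z • a ∈ M := fun z a ha =>
    SMulMemClass.smul_mem (s := M.toStarSubalgebra) z ha
  have hQM : ∀ i, Q i ∈ M := fun i =>
    hsmul _ _ (add_mem (hxM i).1 (hsmul _ _ (hSM i).1))
  have hQsa : ∀ i, IsSelfAdjoint (Q i) := fun i => by
    refine IsSelfAdjoint.smul ?_ ((hxM i).2.add (IsSelfAdjoint.smul ?_ (hSM i).2))
    · simp [IsSelfAdjoint]
    · simp [IsSelfAdjoint]
  have hrel : ∀ i, E.Rel (Q i) (r i • (X i + Real.sqrt t • semi (g i))) := fun i =>
    ((hx i).add ((hS i).smul _)).smul _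
  -- the intertwiner
  set Φ : Fck J → H := fun f => E.emb (Ψ f) with hΦ
  have hΦJ : ∀ i f, Φ (modelOp c i f) = Q i (Φ f) := fun i f => by
    rw [hrel i (Ψ f)]; simp [hΦ, hΨ, hr]
  have hΦ0 : Φ vac = Ω := by simp [hΦ, hΨ0, hΩ]
  have hΦinner : ∀ f, ⟪Ω, Φ f⟫_ℂ = (f [] : ℂ) := fun f => by
    rw [hΩ, hΦ, E.inner_vac, hΨnil]
  set P : List J → H →L[ℂ] H := fun w => appellOf Q (fun i u => (c i u : ℂ)) w with hP
  have hΦP : ∀ (w : List J) (f : Fck J), Φ (appellOf (modelOp c) c w f) = P w (Φ f) := by
    intro w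
    induction hn : w.length using Nat.strong_induction_on generalizing w with
    | _ n ih =>
      intro f
      subst hn
      cases w with
      | nil => simp [hP, appellOf_nil]
      | cons i w =>
          have e1 := ih w.length (by simp) w rfl f
          simp only [hP] at e1 ⊢
          rw [appellOf_cons, appellOf_cons, ← hP] at *
          simp only [LinearMap.sub_apply, Module.End.mul_apply, LinearMap.sum_apply,
            LinearMap.smul_apply, ContinuousLinearMap.sub_apply, ContinuousLinearMap.mul_apply,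
            FunLike.coe_sum, Finset.sum_apply, ContinuousLinearMap.smul_apply]
          simp only [hΦ, map_sub, map_sum, map_smul, E.map_sub, E.map_sum, E.map_smul]
          congr 1
          · have := hΦJ i (appellOf (modelOp c) c w f)
            simp only [hΦ] at this e1
            rw [this, e1]
          · refine Finset.sum_congr rfl fun l _ => ?_
            have := ih (w.drop l).length (by simp) (w.drop l) rfl f
            simp only [hΦ, hP] at this
            rw [this]
  have hPM : ∀ w, P w ∈ M := by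
    intro w
    induction hn : w.length using Nat.strong_induction_on generalizing w with
    | _ n ih =>
      subst hn
      cases w with
      | nil => simp only [hP, appellOf_nil]; exact one_mem M
      | cons i w =>
          simp only [hP, appellOf_cons]
          exact sub_mem (mul_mem (hQM i) (ih _ (by simp) w rfl))
            (sum_mem fun l _ => hsmul _ _ (ih _ (by simp) _ rfl))
  set PV : Fck J → H →L[ℂ] H := fun f => f.sum fun w a => (a : ℂ) • P w with hPV
  have hPVM : ∀ f, PV f ∈ M := fun f => sum_mem fun w _ => hsmul _ _ (hPM w)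
  have hPVΦ : ∀ f f', Φ (leftMul c f f') = PV f (Φ f') := fun f f' => by
    simp only [hPV, leftMul, onWords, Finsupp.linearCombination_apply, Finsupp.sum,
      LinearMap.sum_apply, LinearMap.smul_apply, FunLike.coe_sum, Finset.sum_apply,
      ContinuousLinearMap.smul_apply, hΦ, map_sum, map_smul, E.map_sum, E.map_smul]
    refine Finset.sum_congr rfl fun w _ => ?_
    have := hΦP w f'
    simp only [hΦ] at this
    rw [this]
  have hPVΩ : ∀ f, PV f Ω = Φ f := fun f => by
    conv_lhs => rw [← hΦ0, ← hPVΦ, leftMul_vac]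
  have hPVsub : ∀ f f', PV (f - f') = PV f - PV f' := fun f f' => by
    simp only [hPV]
    exact Finsupp.sum_sub_index fun w a b => by simp [sub_smul]
  have hPVone : ∀ j, PV (word [j]) = Q j := fun j => by
    simp [hPV, word, hP, appellOf_singleton, hc0]
  -- the approximants
  set η : ℕ → J → H := fun m j => star (PV (φ m j)) Ω with hη
  have hηin : ∀ m j f, ⟪η m j, Φ f⟫_ℂ = ((leftMul c (φ m j) f [] : ℝ) : ℂ) := fun m j f => by
    simp only [hη]
    rw [ContinuousLinearMap.star_eq_adjoint, ContinuousLinearMap.adjoint_inner_left,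
      ← hPVΦ, hΦinner]
  have hnormΦ : ∀ f : J → Fck J, ∑ j, ‖Φ (f j)‖ ^ 2 ≤ famNorm f ^ 2 := fun f => by
    simp only [hΦ, E.norm_sq]; exact hΨbd f
  have hfam0 : ∀ f : J → Fck J, 0 ≤ famNorm f := fun f =>
    tsum_nonneg fun k => mul_nonneg (by positivity) (Real.sqrt_nonneg _)
  have hdiff : ∀ (f f' : J → Fck J) (j : J),
      ‖star (PV (f j)) Ω - star (PV (f' j)) Ω‖ = ‖Φ (f j - f' j)‖ := fun f f' j => by
    rw [← ContinuousLinearMap.sub_apply, ← star_sub, ← hPVsub,
      norm_star_apply_eq hM (hPVM _), hPVΩ]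
  have hstep : ∀ m j, dist (η m j) (η (m + 1) j) ≤ 1 * (1 / 2 : ℝ) ^ m := fun m j => by
    simp only [hη]
    rw [dist_comm, dist_eq_norm, one_mul, hdiff (φ (m + 1)) (φ m) j]
    refine le_trans ?_ (hφ1 m)
    have h1 : ‖Φ (φ (m + 1) j - φ m j)‖ ^ 2 ≤
        famNorm (fun j => φ (m + 1) j - φ m j) ^ 2 :=
      le_trans (Finset.single_le_sum (fun i _ => sq_nonneg (‖Φ (φ (m + 1) i - φ m i)‖))
        (Finset.mem_univ j)) (hnormΦ fun j => φ (m + 1) j - φ m j)
    exact (abs_le_of_sq_le_sq' h1 (hfam0 _)).2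
  have hlim : ∀ j, ∃ l, Tendsto (fun m => η m j) atTop (nhds l) := fun j =>
    cauchySeq_tendsto_of_complete
      (cauchySeq_of_le_geometric (1 / 2) 1 (by norm_num) fun m => hstep m j)
  choose η' hη' using hlim
  have hcoef : ∀ j f, ⟪η' j, Φ f⟫_ℂ = (f [j] : ℂ) := fun j f => by
    refine tendsto_nhds_unique ((hη' j).inner tendsto_const_nhds) ?_
    simp only [hηin]
    exact (Complex.continuous_ofReal.tendsto _).comp (hφ2 j f)
  -- norms
  have hQΩ : ∀ j, Q j Ω = Φ (word [j]) := fun j => by
    rw [← hΦ0, ← hΦJ, vac_eq_word, modelOp_word]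
    simp [hc0]
  have hQQ : ∀ j, ‖Q j Ω‖ = 1 := fun j => by
    have h1 : ⟪Q j Ω, Q j Ω⟫_ℂ = ⟪Ω, Q j (Q j Ω)⟫_ℂ :=
      ((hQsa j).isSymmetric Ω (Q j Ω))
    rw [hQΩ, ← hΦJ, hΦinner, modelOp_word] at h1
    have h2 : ((‖Φ (word [j])‖ ^ 2 : ℝ) : ℂ) = 1 := by
      rw [inner_self_eq_norm_sq_to_K] at h1
      simp [Fin.sum_univ_succ, hc0, hc1, word_apply] at h1
      push_cast
      simpa using h1
    rw [hQΩ]
    have h3 : ‖Φ (word [j])‖ ^ 2 = 1 := by exact_mod_cast h2
    exact (pow_left_inj₀ (norm_nonneg _) zero_le_one two_ne_zero).mp (by simpa using h3)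
  have hdev : ∑ j, ‖η' j - Q j Ω‖ ^ 2 ≤ (1 / 64 : ℝ) ^ 2 := by
    refine le_of_tendsto (tendsto_finsetSum _ fun j _ =>
      (((hη' j).sub_const (Q j Ω)).norm.pow 2)) (Eventually.of_forall fun m => ?_)
    calc ∑ j, ‖η m j - Q j Ω‖ ^ 2 = ∑ j, ‖Φ (φ m j - word [j])‖ ^ 2 := by
          refine Finset.sum_congr rfl fun j _ => ?_
          congr 1
          simp only [hη]
          rw [← hdiff (φ m) (fun j => word [j]) j, hPVone, (hQsa j).star_eq]
      _ ≤ famNorm (fun j => φ m j - word [j]) ^ 2 := hnormΦ _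
      _ ≤ (1 / 64) ^ 2 := pow_le_pow_left₀ (hfam0 _) (hφ0 m) 2
  have hnorm : ∀ j, ‖η' j‖ ^ 2 = 1 + ‖η' j - Q j Ω‖ ^ 2 := fun j => by
    rw [norm_sub_sq (𝕜 := ℂ), hQQ, hQΩ, hcoef]
    simp [word_apply]
    ring
  -- monomials
  have hmono : ∀ u : List J, (u.map Z).prod Ω =
      (((u.map fun i => Real.sqrt (v i + t)).prod : ℝ) : ℂ) • Φ (opProd (modelOp c) u vac) := by
    intro u
    induction u with
    | nil => simp [opProd_nil, hΦ0]
    | cons i u ih =>
        have hs : Real.sqrt (v i + t) ≠ 0 := (Real.sqrt_pos.mpr (by linarith [hv i])).ne'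
        have hZQ : Z i = (Real.sqrt (v i + t) : ℂ) • Q i := by
          simp only [hQ, hr, smul_smul, ← Complex.ofReal_mul, mul_inv_cancel₀ hs,
            Complex.ofReal_one, one_smul]
        simp only [List.map_cons, List.prod_cons, ContinuousLinearMap.mul_apply, ih, map_smul,
          opProd_cons, Module.End.mul_apply, hΦJ]
        rw [hZQ, ContinuousLinearMap.smul_apply, smul_smul, Complex.ofReal_mul, mul_comm]
  set a : List J → ℝ := fun u => (opProd (modelOp c) u vac) [] with ha
  have htr : ∀ u : List J, trace Ω (u.map Z).prod =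
      (((u.map fun i => Real.sqrt (v i + t)).prod * a u : ℝ) : ℂ) := fun u => by
    rw [trace, hmono, inner_smul_right, hΦinner, Complex.ofReal_mul]
  refine ⟨fun j => (r j : ℂ) • η' j, fun j u => ?_, ?_⟩
  · rw [hmono, inner_smul_right, inner_smul_left, hcoef, Complex.conj_ofReal,
      ← apply_nil_annihilateRight,
      derivation_opProd _ (modelOp c) (fun i => if i = j then 1 else 0) (annihilateRight_vac j)
        (fun i f => annihilateRight_modelOp c hc0 j i f) u,
      Finsupp.finset_sum_apply, Complex.ofReal_sum, Finset.mul_sum, Finset.mul_sum]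
    refine Finset.sum_congr rfl fun l _ => ?_
    by_cases h : u.get l = j
    · rw [if_pos h, if_pos h, htr, htr]
      have hsplit : (u.map fun i => Real.sqrt (v i + t)).prod =
          ((u.take l).map fun i => Real.sqrt (v i + t)).prod * (Real.sqrt (v j + t) *
            ((u.drop (l + 1)).map fun i => Real.sqrt (v i + t)).prod) := by
        conv_lhs => rw [← List.take_append_drop l u, List.drop_eq_getElem_cons l.isLt]
        rw [List.map_append, List.prod_append, List.map_cons, List.prod_cons, ← h]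
        rfl
      have hs : Real.sqrt (v j + t) ≠ 0 := (Real.sqrt_pos.mpr (by linarith [hv j])).ne'
      rw [hsplit]
      simp only [Finsupp.smul_apply, smul_eq_mul, one_mul, hr, ha, Complex.ofReal_mul,
        Complex.ofReal_inv]
      have hs' : (Real.sqrt (v j + t) : ℂ) ≠ 0 := Complex.ofReal_ne_zero.mpr hs
      field_simp
    · rw [if_neg h, if_neg h]
      simp
  · have hbd : ∀ j, ‖(r j : ℂ) • η' j‖ ^ 2 ≤ 1 / (v j + t) + ‖η' j - Q j Ω‖ ^ 2 / t :=
      fun j => by
      have hvt : 0 < v j + t := by linarith [hv j]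
      rw [norm_smul, mul_pow, Complex.norm_real, Real.norm_eq_abs, sq_abs, hr, inv_pow,
        Real.sq_sqrt hvt.le, hnorm, mul_add, mul_one, one_div]
      gcongr
      rw [inv_mul_eq_div]
      gcongr
      linarith [hv j]
    calc ∑ j, ‖(r j : ℂ) • η' j‖ ^ 2
        ≤ ∑ j, (1 / (v j + t) + ‖η' j - Q j Ω‖ ^ 2 / t) := Finset.sum_le_sum fun j _ => hbd j
      _ = ∑ j, 1 / (v j + t) + (∑ j, ‖η' j - Q j Ω‖ ^ 2) / t := by
          rw [Finset.sum_add_distrib, Finset.sum_div]
      _ ≤ _ := by gcongr

end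

end Vale.Agent.P087
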