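import Vale.Agent.P087.Interfaces

/-!
# P087: module OpNorm — the `ℓ²` growth of the moments of the concrete tuple

`∑_w τ(X_w)²` is the vacuum coefficient of `O^k (vac ⊗ vac)`, with `O = ∑_j X_j ⊗ X_j` acting on
finitely supported vectors indexed by pairs of words.  Each `X_j` is a combination of partial maps
`v ++ r ↦ u ++ r`, so that each piece of `O` is bounded by Schur's test.
-/

namespace Vale.Agent.P087

noncomputable section

namespace OpNorm

open Finset

section Basic

variable {A : Type}

/-- Squared `ℓ²` norm. -/
def nsq (f : A →₀ ℝ) : ℝ := ∑ a ∈ f.support, f a ^ 2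

theorem nsq_eq_sum [DecidableEq A] (f : A →₀ ℝ) {s : Finset A} (h : f.support ⊆ s) :
    nsq f = ∑ a ∈ s, f a ^ 2 :=
  Finset.sum_subset h fun a _ ha => by simp [Finsupp.notMem_support_iff.1 ha]

theorem nsq_nonneg (f : A →₀ ℝ) : 0 ≤ nsq f := Finset.sum_nonneg fun _ _ => sq_nonneg _

theorem sq_le_nsq (f : A →₀ ℝ) (a : A) : f a ^ 2 ≤ nsq f := by
  classical
  by_cases ha : a ∈ f.support
  · exact Finset.single_le_sum (f := fun a => f a ^ 2) (fun _ _ => sq_nonneg _) ha
  · rw [Finsupp.notMem_support_iff.1 ha]
    simpa using nsq_nonneg f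

theorem nsq_smul_le (c : ℝ) (hc : |c| ≤ 1) (f : A →₀ ℝ) : nsq (c • f) ≤ nsq f := by
  classical
  rw [nsq_eq_sum (c • f) (Finsupp.support_smul (b := c) (g := f))]
  refine Finset.sum_le_sum fun a _ => ?_
  have h : c ^ 2 ≤ 1 := (sq_le_one_iff_abs_le_one c).2 hc
  have := mul_le_mul_of_nonneg_right h (sq_nonneg (f a))
  simpa [mul_pow] using this

/-- Triangle inequality for the square norm, in weighted form. -/
theorem nsq_sum_le {I : Type} (s : Finset I) (g : I → A →₀ ℝ) (b : I → ℝ) (N : ℝ)
    (hb : ∀ i ∈ s, 0 < b i) (hg : ∀ i ∈ s, nsq (g i) ≤ b i ^ 2 * N) :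
    nsq (∑ i ∈ s, g i) ≤ (∑ i ∈ s, b i) ^ 2 * N := by
  classical
  set S : Finset A := (∑ i ∈ s, g i).support ∪ s.biUnion fun i => (g i).support
  rw [nsq_eq_sum (s := S) _ Finset.subset_union_left]
  have key : ∀ a ∈ S, (∑ i ∈ s, g i) a ^ 2 ≤ (∑ i ∈ s, b i) * ∑ i ∈ s, g i a ^ 2 / b i := by
    intro a _
    rw [Finsupp.finsetSum_apply]
    refine Finset.sum_sq_le_sum_mul_sum_of_sq_le_mul s (fun i hi => (hb i hi).le)
      (fun i hi => div_nonneg (sq_nonneg _) (hb i hi).le) fun i hi => ?_
    rw [mul_div_cancel₀ _ (hb i hi).ne']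
  refine (Finset.sum_le_sum key).trans ?_
  rw [← Finset.mul_sum, Finset.sum_comm, sq, mul_assoc]
  refine mul_le_mul_of_nonneg_left ?_ (Finset.sum_nonneg fun i hi => (hb i hi).le)
  rw [Finset.sum_mul]
  refine Finset.sum_le_sum fun i hi => ?_
  rw [← Finset.sum_div, div_le_iff₀ (hb i hi)]
  have h := hg i hi
  rw [nsq_eq_sum (s := S) _ ((Finset.subset_biUnion_of_mem (fun i => (g i).support) hi).trans
    Finset.subset_union_right)] at h
  refine h.trans_eq (by ring)

/-- Linear operator of a partial map. -/
def pop (f : A → Option A) : Module.End ℝ (A →₀ ℝ) :=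
  Finsupp.linearCombination ℝ fun x => (f x).elim 0 fun y => Finsupp.single y 1

@[simp] theorem pop_single (f : A → Option A) (x : A) (c : ℝ) :
    pop f (Finsupp.single x c) = (f x).elim 0 fun y => Finsupp.single y c := by
  cases h : f x <;> simp [pop, h]

theorem pop_apply [DecidableEq A] (f : A → Option A) (v : A →₀ ℝ) (z : A) :
    pop f v z = ∑ x ∈ v.support.filter (fun x => f x = some z), v x := by
  rw [pop, Finsupp.linearCombination_apply, Finsupp.sum, Finsupp.finsetSum_apply,
    Finset.sum_filter]
  refine Finset.sum_congr rfl fun x _ => ?_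
  cases h : f x with
  | none => simp
  | some y =>
    by_cases hy : y = z <;> simp [hy]

/-- Schur test for a finite sum of partial maps. -/
theorem nsq_sum_pop_le {W : Type} [Fintype W] (g : W → A → Option A) (R C : ℕ)
    (hR : ∀ x, ∀ T : Finset W, (∀ w ∈ T, (g w x).isSome) → T.card ≤ R)
    (hC : ∀ z, ∀ T : Finset (W × A), (∀ p ∈ T, g p.1 p.2 = some z) → T.card ≤ C)
    (f : A →₀ ℝ) :
    nsq ((∑ w, pop (g w)) f) ≤ (R : ℝ) * C * nsq f := by
  classical
  set T := (∑ w, pop (g w)) f with hT
  set P : Finset (W × A) := (Finset.univ ×ˢ f.support).filter fun p => (g p.1 p.2).isSome with hP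
  have hval : ∀ z, T z =
      ∑ p ∈ (Finset.univ ×ˢ f.support).filter (fun p => g p.1 p.2 = some z), f p.2 := by
    intro z
    rw [hT, LinearMap.sum_apply, Finsupp.finsetSum_apply, Finset.sum_filter,
      Finset.sum_product]
    refine Finset.sum_congr rfl fun w _ => ?_
    rw [pop_apply, Finset.sum_filter]
  have hbd : ∀ z, T z ^ 2 ≤ (C : ℝ) * ∑ p ∈ (Finset.univ ×ˢ f.support).filter
      (fun p => g p.1 p.2 = some z), f p.2 ^ 2 := by
    intro z
    rw [hval z]
    refine sq_sum_le_card_mul_sum_sq.trans ?_
    refine mul_le_mul_of_nonneg_right ?_ (Finset.sum_nonneg fun _ _ => sq_nonneg _)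
    exact_mod_cast hC z _ fun p hp => (Finset.mem_filter.1 hp).2
  unfold nsq
  refine (Finset.sum_le_sum fun z _ => hbd z).trans ?_
  rw [← Finset.mul_sum, mul_comm (R : ℝ) (C : ℝ), mul_assoc]
  refine mul_le_mul_of_nonneg_left ?_ (Nat.cast_nonneg C)
  have hfib : ∑ z ∈ T.support, ∑ p ∈ (Finset.univ ×ˢ f.support).filter
      (fun p => g p.1 p.2 = some z), f p.2 ^ 2 ≤ ∑ p ∈ P, f p.2 ^ 2 := by
    rw [← Finset.sum_biUnion]
    · refine Finset.sum_le_sum_of_subset_of_nonneg ?_ fun _ _ _ => sq_nonneg _
      intro p hp
      simp only [Finset.mem_biUnion, Finset.mem_filter] at hp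
      obtain ⟨z, _, hp1, hp2⟩ := hp
      simp [hP, hp2, hp1]
    · intro z _ z' _ hne
      rw [Function.onFun, Finset.disjoint_left]
      intro p hp hp'
      exact hne (Option.some.inj
        ((Finset.mem_filter.1 hp).2.symm.trans (Finset.mem_filter.1 hp').2))
  refine hfib.trans ?_
  rw [hP, Finset.sum_filter, Finset.sum_product_right, Finset.mul_sum]
  refine Finset.sum_le_sum fun x _ => ?_
  rw [← Finset.sum_filter]
  simp only [Finset.sum_const, nsmul_eq_mul]
  refine mul_le_mul_of_nonneg_right ?_ (sq_nonneg _)
  exact_mod_cast hR x _ fun w hw => (Finset.mem_filter.1 hw).2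

end Basic

section Words

variable {ι : Type} [DecidableEq ι]

/-- The partial map `v ++ r ↦ u ++ r`. -/
def repMap (v u x : List ι) : Option (List ι) :=
  if v <+: x then some (u ++ x.drop v.length) else none

/-- The operator replacing the prefix `v` by `u`. -/
def rep (v u : List ι) : FckOp ι := pop (repMap v u)

theorem rep_word (v u x : List ι) :
    rep v u (word x) = if v <+: x then word (u ++ x.drop v.length) else 0 := by
  by_cases h : v <+: x <;> simp [rep, repMap, word, h]

omit [DecidableEq ι] in
theorem ext_word {E : Type} [AddCommGroup E] [Module ℝ E] {f g : Fck ι →ₗ[ℝ] E}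
    (h : ∀ x, f (word x) = g (word x)) : f = g :=
  Finsupp.basisSingleOne.ext fun x => by simpa [word] using h x

theorem create_eq (a : ι) : create a = rep [] [a] :=
  ext_word fun x => by simp [create, rep_word]

theorem annihilate_eq (a : ι) : annihilate a = rep [a] [] :=
  ext_word fun x => by
    rw [annihilate, onWords_word, rep_word]
    cases x with
    | nil => simp
    | cons b x => by_cases h : a = b <;> simp [h, List.cons_prefix_cons]

theorem rep_nil : rep ([] : List ι) [] = 1 :=
  ext_word fun x => by simp [rep_word]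

theorem create_mul_rep (a : ι) (v u : List ι) : create a * rep v u = rep v (a :: u) :=
  ext_word fun x => by
    rw [Module.End.mul_apply, rep_word, rep_word]
    by_cases h : v <+: x <;> simp [create, h]

theorem annihilate_mul_rep_cons (a b : ι) (v u : List ι) :
    annihilate a * rep v (b :: u) = if a = b then rep v u else 0 :=
  ext_word fun x => by
    rw [Module.End.mul_apply, rep_word]
    by_cases h : v <+: x <;> by_cases hab : a = b <;> simp [annihilate, h, hab, rep_word]

theorem annihilate_mul_rep_nil (a : ι) (v : List ι) :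
    annihilate a * rep v [] = rep (v ++ [a]) [] :=
  ext_word fun x => by
    rw [Module.End.mul_apply, annihilate_eq, rep_word, rep_word]
    by_cases h : v <+: x
    · obtain ⟨r, rfl⟩ := h
      simp [rep_word, List.prefix_append_right_inj, List.drop_append, List.drop_eq_nil_of_le]
    · have h2 : ¬ v ++ [a] <+: x := fun h2 => h ((List.prefix_append v [a]).trans h2)
      simp [h, h2]

/-- The expansion of a Wick word of semicirculars along its splittings. -/
theorem wickOf_semi {K : Type} [DecidableEq K] (e : K → ι) (he : Function.Injective e) :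
    ∀ q : List K, wickOf (fun i => semi (e i)) q =
      ∑ a ∈ Finset.range (q.length + 1),
        rep ((q.map e).drop a).reverse ((q.map e).take a)
  | [] => by simp [wickOf, rep_nil]
  | [a] => by
    simp [wickOf, semi, create_eq, annihilate_eq, Finset.sum_range_succ, add_comm]
  | a :: b :: w => by
    have ih := wickOf_semi e he (b :: w)
    have ih' := wickOf_semi e he w
    rw [show wickOf (fun i => semi (e i)) (a :: b :: w) = semi (e a) *
      wickOf (fun i => semi (e i)) (b :: w) -
        if a = b then wickOf (fun i => semi (e i)) w else 0 from rfl, ih, ih', semi, add_mul,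
      Finset.mul_sum, Finset.mul_sum]
    simp only [create_mul_rep]
    rw [Finset.sum_range_succ' (n := (b :: w).length) (f := fun i =>
      annihilate (e a) * rep ((List.map e (b :: w)).drop i).reverse
        ((List.map e (b :: w)).take i))]
    rw [show (a :: b :: w).length + 1 = (b :: w).length + 1 + 1 from rfl,
      Finset.sum_range_succ' (n := (b :: w).length + 1) (f := fun i =>
        rep ((List.map e (a :: b :: w)).drop i).reverse ((List.map e (a :: b :: w)).take i))]
    simp only [List.map_cons, List.take_succ_cons, List.drop_succ_cons, List.drop_zero,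
      List.take_zero, annihilate_mul_rep_cons, annihilate_mul_rep_nil, List.reverse_cons,
      List.length_cons]
    by_cases h : a = b
    · subst h
      simp only [if_true]
      abel
    · simp only [if_neg h, if_neg fun h' => h (he h')]
      simp only [Finset.sum_const_zero]
      abel

end Words

section Pairs

variable {A B : Type}

/-- The bilinear map `x, y ↦ x ⊗ y`. -/
def tens : (A →₀ ℝ) →ₗ[ℝ] (B →₀ ℝ) →ₗ[ℝ] (A × B →₀ ℝ) :=
  Finsupp.linearCombination ℝ fun a =>
    Finsupp.linearCombination ℝ fun b => Finsupp.single (a, b) (1 : ℝ)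

theorem tens_single (a : A) (b : B) (c d : ℝ) :
    tens (Finsupp.single a c) (Finsupp.single b d) = Finsupp.single (a, b) (c * d) := by
  simp [tens]

theorem tens_apply (x : A →₀ ℝ) (y : B →₀ ℝ) (a : A) (b : B) :
    tens x y (a, b) = x a * y b := by
  classical
  induction x using Finsupp.induction_linear with
  | zero => simp
  | add x x' h h' => simp [h, h', add_mul]
  | single a' c =>
    induction y using Finsupp.induction_linear with
    | zero => simp
    | add y y' h h' => simp [h, h', mul_add]
    | single b' d =>
      rw [tens_single]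
      simp only [Finsupp.single_apply, Prod.mk.injEq]
      by_cases h1 : a' = a <;> by_cases h2 : b' = b <;> simp [h1, h2]

/-- The product of two partial maps. -/
def both (f : A → Option A) (g : B → Option B) (p : A × B) : Option (A × B) :=
  (f p.1).bind fun a => (g p.2).map fun b => (a, b)

theorem pop_both (f : A → Option A) (g : B → Option B) (x : A →₀ ℝ) (y : B →₀ ℝ) :
    pop (both f g) (tens x y) = tens (pop f x) (pop g y) := by
  induction x using Finsupp.induction_linear with
  | zero => simp
  | add x x' h h' => simp [h, h']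
  | single a c =>
    induction y using Finsupp.induction_linear with
    | zero => simp
    | add y y' h h' => simp [h, h']
    | single b d =>
      rw [tens_single, pop_single, pop_single, pop_single]
      cases hf : f a <;> cases hg : g b <;> simp [both, hf, hg, tens_single]

end Pairs

section Tuple

variable {L : ℕ}

theorem palindrome_length (w : Code L) : (palindrome w).length = 2 * L + 1 := by
  simp [palindrome]; omega

theorem palindrome_reverse (w : Code L) : (palindrome w).reverse = palindrome w := by
  simp [palindrome, List.append_assoc]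

theorem take_palindrome_injective {n : ℕ} (hn : L ≤ n) :
    Function.Injective fun w : Code L => ((palindrome w).map (latent (L := L))).take n := by
  intro w w' h
  have h' := congrArg (List.take L) h
  simp only [List.take_take, min_eq_left hn, ← List.map_take] at h'
  have := (List.map_injective_iff.2 (fun x y hxy => Sum.inl.inj hxy)) h'
  simp only [palindrome, List.append_assoc] at this
  rw [List.take_left' (List.length_ofFn), List.take_left' (List.length_ofFn)] at this
  exact List.ofFn_injective this

/-- The terms of a code variable. -/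
abbrev Term (L : ℕ) := Fin (2 * L + 2) ⊕ Bool

/-- The removed prefix of a term. -/
def vOf (w : Code L) : Term L → List (Letter L)
  | Sum.inl a => ((palindrome w).map latent).take (2 * L + 1 - a)
  | Sum.inr true => [noise (Sum.inr w)]
  | Sum.inr false => []

/-- The added prefix of a term. -/
def uOf (w : Code L) : Term L → List (Letter L)
  | Sum.inl a => ((palindrome w).map latent).take a
  | Sum.inr true => []
  | Sum.inr false => [noise (Sum.inr w)]

theorem tuple_code (ε : ℝ) (w : Code L) :
    tuple (semi : Letter L → FckOp (Letter L)) ε (Sum.inr w) =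
      ∑ t : Term L, rep (vOf w t) (uOf w t) := by
  have hl : Function.Injective (latent : Fin 2 → Letter L) := fun x y h => Sum.inl.inj h
  rw [tuple, wickOf_semi latent hl, Fintype.sum_sum_type, Fintype.sum_bool, palindrome_length,
    Finset.sum_range]
  refine congrArg₂ (· + ·) (Finset.sum_congr rfl fun a _ => ?_) ?_
  · congr 1
    rw [List.reverse_drop, ← List.map_reverse, palindrome_reverse, List.length_map,
      palindrome_length]
    rfl
  · simp [semi, create_eq, annihilate_eq, vOf, uOf, add_comm]

/-- For each term, one of the two prefixes determines the code. -/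
theorem term_injective (t : Term L) :
    Function.Injective (fun w : Code L => uOf w t) ∨
      Function.Injective (fun w : Code L => vOf w t) := by
  rcases t with a | (_ | _)
  · by_cases h : L ≤ (a : ℕ)
    · exact Or.inl (take_palindrome_injective h)
    · exact Or.inr (take_palindrome_injective (by omega))
  · left; intro w w' h; simpa [uOf, noise] using h
  · right; intro w w' h; simpa [vOf, noise] using h

theorem length_uOf (w w' : Code L) (t : Term L) : (uOf w t).length = (uOf w' t).length := by
  rcases t with a | (_ | _) <;> simp [uOf, palindrome_length]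

theorem length_vOf (w w' : Code L) (t : Term L) : (vOf w t).length = (vOf w' t).length := by
  rcases t with a | (_ | _) <;> simp [vOf, palindrome_length]

/-- Bound of a piece of `O`. -/
theorem piece_le (t t' : Term L) (f : List (Letter L) × List (Letter L) →₀ ℝ) :
    nsq ((∑ w : Code L,
        pop (both (repMap (vOf w t) (uOf w t)) (repMap (vOf w t') (uOf w t')))) f) ≤
      (2 : ℝ) ^ L * nsq f := by
  classical
  have hcard : ∀ T : Finset (Code L), T.card ≤ 2 ^ L := fun T =>
    (Finset.card_le_univ T).trans_eq (by simp)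
  have hinj : ∀ (z : List (Letter L) × List (Letter L))
      (p q : Code L × (List (Letter L) × List (Letter L))),
      both (repMap (vOf p.1 t) (uOf p.1 t)) (repMap (vOf p.1 t') (uOf p.1 t')) p.2 = some z →
      both (repMap (vOf q.1 t) (uOf q.1 t)) (repMap (vOf q.1 t') (uOf q.1 t')) q.2 = some z →
      p.1 = q.1 → p = q := by
    rintro z ⟨w, x, y⟩ ⟨w', x', y'⟩ hp hq h
    simp only at h
    subst h
    simp only [both, repMap] at hp hq
    split_ifs at hp hq with h1 h2 h3 h4 <;> simp at hp hq
    have := hp.trans hq.symm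
    obtain ⟨r, rfl⟩ := h1
    obtain ⟨r', rfl⟩ := h2
    obtain ⟨s, rfl⟩ := h3
    obtain ⟨s', rfl⟩ := h4
    simp at this ⊢
    exact this
  have houtput : ∀ (z : List (Letter L) × List (Letter L))
      (p : Code L × (List (Letter L) × List (Letter L))),
      both (repMap (vOf p.1 t) (uOf p.1 t)) (repMap (vOf p.1 t') (uOf p.1 t')) p.2 = some z →
      uOf p.1 t <+: z.1 := by
    rintro z ⟨w, x, y⟩ hp
    simp only [both, repMap] at hp
    split_ifs at hp <;> simp at hp
    simp [← hp]
  have hinput : ∀ (x : List (Letter L) × List (Letter L)) (w : Code L),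
      (both (repMap (vOf w t) (uOf w t)) (repMap (vOf w t') (uOf w t')) x).isSome →
      vOf w t <+: x.1 := by
    intro x w hw
    simp only [both, repMap] at hw
    split_ifs at hw with h1 h2 <;> simp at hw
    exact h1
  rcases term_injective t with h | h
  · refine (nsq_sum_pop_le _ (2 ^ L) 1 (fun x T _ => hcard T) ?_ f).trans_eq (by simp)
    intro z T hT
    refine Finset.card_le_one.2 fun p hp q hq => hinj z p q (hT p hp) (hT q hq) (h ?_)
    exact ((List.prefix_of_prefix_length_le (houtput z p (hT p hp)) (houtput z q (hT q hq))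
      (length_uOf _ _ t).le).eq_of_length (length_uOf _ _ t))
  · refine (nsq_sum_pop_le _ 1 (2 ^ L) ?_ ?_ f).trans_eq (by simp)
    · intro x T hT
      refine Finset.card_le_one.2 fun w hw w' hw' => h ?_
      exact ((List.prefix_of_prefix_length_le (hinput x w (hT w hw)) (hinput x w' (hT w' hw'))
        (length_vOf _ _ t).le).eq_of_length (length_vOf _ _ t))
    · intro z T hT
      rw [← Finset.card_image_of_injOn (f := Prod.fst) (s := T)
        fun p hp q hq hpq => hinj z p q (hT p hp) (hT q hq) hpq]
      exact hcard _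

/-- The four terms of a latent variable. -/
def latCoef (ε : ℝ) : Fin 4 → ℝ := ![1, 1, ε, ε]

/-- The removed prefix of a latent term. -/
def latV (i : Fin 2) : Fin 4 → List (Letter L) :=
  ![[], [latent i], [], [noise (Sum.inl i)]]

/-- The added prefix of a latent term. -/
def latU (i : Fin 2) : Fin 4 → List (Letter L) :=
  ![[latent i], [], [noise (Sum.inl i)], []]

theorem tuple_latent (ε : ℝ) (i : Fin 2) :
    tuple (semi : Letter L → FckOp (Letter L)) ε (Sum.inl i) =
      ∑ c : Fin 4, latCoef ε c • rep (latV i c) (latU i c) := by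
  simp [tuple, Fin.sum_univ_four, latCoef, latV, latU, semi, create_eq, annihilate_eq]
  abel

/-- The operator `O = ∑_j X_j ⊗ X_j`, as a list of pieces. -/
def piece (ε : ℝ) : (Fin 2 × Fin 4 × Fin 4) ⊕ (Term L × Term L) →
    Module.End ℝ (List (Letter L) × List (Letter L) →₀ ℝ)
  | Sum.inl (i, c, c') =>
    (latCoef ε c * latCoef ε c') • pop (both (repMap (latV i c) (latU i c))
      (repMap (latV i c') (latU i c')))
  | Sum.inr (t, t') =>
    ∑ w : Code L, pop (both (repMap (vOf w t) (uOf w t)) (repMap (vOf w t') (uOf w t')))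

theorem sum_piece_tens (ε : ℝ) (x y : Fck (Letter L)) :
    (∑ p, piece ε p) (tens x y) =
      ∑ j : Idx L, tens (tuple (semi : Letter L → FckOp (Letter L)) ε j x)
        (tuple (semi : Letter L → FckOp (Letter L)) ε j y) := by
  rw [LinearMap.sum_apply, Fintype.sum_sum_type, Fintype.sum_sum_type (α₁ := Fin 2)]
  refine congrArg₂ (· + ·) ?_ ?_
  · rw [Fintype.sum_prod_type]
    refine Finset.sum_congr rfl fun i _ => ?_
    rw [tuple_latent, Fintype.sum_prod_type]
    simp only [LinearMap.sum_apply, LinearMap.smul_apply, map_sum, map_smul,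
      LinearMap.smul_apply, piece, pop_both, rep, Finset.smul_sum, smul_smul]
    rw [Finset.sum_comm]
    exact Finset.sum_congr rfl fun _ _ => Finset.sum_congr rfl fun _ _ => by rw [mul_comm]
  · rw [Fintype.sum_prod_type]
    simp only [tuple_code, LinearMap.sum_apply, map_sum, piece, pop_both, rep]
    calc _ = ∑ t : Term L, ∑ w : Code L, ∑ t' : Term L,
          tens (pop (repMap (vOf w t) (uOf w t)) x) (pop (repMap (vOf w t') (uOf w t')) y) :=
            Finset.sum_congr rfl fun _ _ => Finset.sum_comm
      _ = _ := by rw [Finset.sum_comm]; exact Finset.sum_congr rfl fun _ _ => Finset.sum_comm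

end Tuple

theorem piece_bound (M : ℕ) (ε : ℝ) (hε : |ε| ≤ 1)
    (f : List (Letter (2 * M)) × List (Letter (2 * M)) →₀ ℝ) :
    nsq ((∑ p, piece (L := 2 * M) ε p) f) ≤
      ((32 : ℝ) + (4 * (M : ℝ) + 4) ^ 2 * 2 ^ M) ^ 2 * nsq f := by
  classical
  rw [LinearMap.sum_apply]
  refine (nsq_sum_le Finset.univ _ (Sum.elim (fun _ => (1 : ℝ)) fun _ => (2 : ℝ) ^ M) (nsq f)
    ?_ ?_).trans_eq ?_
  · rintro (_ | _) _ <;> simp
  · rintro (⟨i, c, c'⟩ | ⟨t, t'⟩) _
    · simp only [piece, LinearMap.smul_apply, Sum.elim_inl, one_pow, one_mul]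
      have hc : ∀ c, |latCoef ε c| ≤ 1 := by intro c; fin_cases c <;> simp [latCoef, hε]
      refine (nsq_smul_le _ ?_ _).trans ?_
      · rw [abs_mul]; exact mul_le_one₀ (hc c) (abs_nonneg _) (hc c')
      · have h := nsq_sum_pop_le
          (fun _ : Unit => both (repMap (latV (L := 2 * M) i c) (latU i c))
            (repMap (latV i c') (latU i c'))) 1 1
          (fun _ T _ => (Finset.card_le_univ T).trans_eq (by simp)) ?_ f
        · simpa using h
        intro z T hT
        refine Finset.card_le_one.2 ?_
        rintro ⟨⟨⟩, x, y⟩ hp ⟨⟨⟩, x', y'⟩ hq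
        have h1 := hT _ hp
        have h2 := hT _ hq
        simp only [both, repMap] at h1 h2
        split_ifs at h1 h2 with e1 e2 e3 e4 <;> simp at h1 h2
        have := h1.trans h2.symm
        obtain ⟨r, rfl⟩ := e1
        obtain ⟨r', rfl⟩ := e2
        obtain ⟨s, rfl⟩ := e3
        obtain ⟨s', rfl⟩ := e4
        simp at this ⊢
        exact this
    · simp only [piece, Sum.elim_inr]
      refine (piece_le t t' f).trans_eq ?_
      rw [← pow_mul, mul_comm M 2]
  · simp only [Fintype.sum_sum_type, Sum.elim_inl, Sum.elim_inr, Finset.sum_const,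
      Finset.card_univ, Fintype.card_prod, Fintype.card_fin, Fintype.card_sum, Fintype.card_bool,
      nsmul_eq_mul]
    push_cast
    ring

end OpNorm

open OpNorm in
theorem momentStatement : MomentStatement := by
  classical
  intro M ε hε k
  set X : Idx (2 * M) → FckOp (Letter (2 * M)) := tuple semi ε with hX
  set C : ℝ := 32 + (4 * (M : ℝ) + 4) ^ 2 * 2 ^ M with hC
  set O := ∑ p, piece (L := 2 * M) ε p with hO
  let Φ : ℕ → List (Letter (2 * M)) × List (Letter (2 * M)) →₀ ℝ := fun k =>
    ∑ w : Fin k → Idx (2 * M), tens (opProd X (List.ofFn w) vac) (opProd X (List.ofFn w) vac)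
  have hstep : ∀ k, Φ (k + 1) = O (Φ k) := by
    intro k
    simp only [Φ, map_sum, hO, sum_piece_tens]
    rw [← (Fin.consEquiv fun _ : Fin (k + 1) => Idx (2 * M)).sum_comp, Fintype.sum_prod_type,
      Finset.sum_comm]
    refine Finset.sum_congr rfl fun w _ => Finset.sum_congr rfl fun j _ => ?_
    simp [opProd, List.ofFn_succ, hX, Function.comp_def]
  have hbound : ∀ k, nsq (Φ k) ≤ (C ^ k) ^ 2 := by
    intro k
    induction k with
    | zero => simp [Φ, opProd, vac, tens_single, nsq]
    | succ k ih =>
      rw [hstep, pow_succ' C k, mul_pow]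
      exact (piece_bound M ε hε (Φ k)).trans (mul_le_mul_of_nonneg_left ih (sq_nonneg C))
  have hval : ∑ w : Fin k → Idx (2 * M), (vacState (opProd X (List.ofFn w))) ^ 2 =
      Φ k ([], []) := by
    simp only [Φ, Finsupp.finsetSum_apply, tens_apply, sq]
    rfl
  rw [hval]
  have hCk : 0 ≤ C ^ k := by rw [hC]; positivity
  refine (abs_le_of_sq_le_sq' ?_ hCk).2
  exact (sq_le_nsq (Φ k) ([], [])).trans (hbound k)

end

end Vale.Agent.P087
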