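import Vale.Agent.P087.Interfaces

/-!
# P087, module Realisation: the free semicircular von Neumann algebra on full Fock space
-/

open scoped InnerProductSpace

namespace Vale.Agent.P087

noncomputable section

namespace Realisation

/-- Full Fock space. -/
abbrev Hil (ι : Type) := lp (fun _ : List ι => ℂ) 2

variable {ι : Type} [DecidableEq ι]

/-- Basis vector. -/
def bas (w : List ι) : Hil ι := lp.single 2 w (1 : ℂ)

lemma bas_apply (w u : List ι) : bas w u = if u = w then 1 else 0 := by
  simp [bas, lp.single_apply, Pi.single_apply]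

lemma inner_bas_left (w : List ι) (x : Hil ι) : ⟪bas w, x⟫_ℂ = x w := by
  rw [bas, lp.inner_single_left]; simp

lemma inner_bas_right (w : List ι) (x : Hil ι) : ⟪x, bas w⟫_ℂ = starRingEnd ℂ (x w) := by
  rw [← inner_bas_left w x, inner_conj_symm]

lemma bas_orthonormal : Orthonormal ℂ (bas : List ι → Hil ι) := by
  rw [orthonormal_iff_ite]
  intro u v
  rw [inner_bas_left, bas_apply]

lemma ext_bas {S T : Hil ι →L[ℂ] Hil ι} (h : ∀ w, S (bas w) = T (bas w)) : S = T := by
  refine lp.ext_continuousLinearMap (by simp) fun w => ?_
  refine ContinuousLinearMap.ext fun c => ?_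
  have hc : lp.single 2 w c = c • bas w := by
    rw [bas, ← lp.single_smul, smul_eq_mul, mul_one]
  simp only [ContinuousLinearMap.comp_apply, lp.singleContinuousLinearMap_apply, hc, map_smul, h]

lemma star_inner_left (A : Hil ι →L[ℂ] Hil ι) (x y : Hil ι) :
    ⟪(star A) x, y⟫_ℂ = ⟪x, A y⟫_ℂ := by
  rw [ContinuousLinearMap.star_eq_adjoint, ContinuousLinearMap.adjoint_inner_left]

section Push

variable (f : List ι → List ι) (hf : Function.Injective f)

/-- The isometry induced by an injective map of words. -/
def push : Hil ι →L[ℂ] Hil ι :=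
  ((bas_orthonormal.comp f hf).orthogonalFamily.linearIsometry).toContinuousLinearMap

lemma push_bas (w : List ι) : push f hf (bas w) = bas (f w) := by
  simp only [push, bas, LinearIsometry.coe_toContinuousLinearMap,
    OrthogonalFamily.linearIsometry_apply_single, LinearIsometry.toSpanSingleton_apply]
  simp [bas]

lemma star_push_apply (x : Hil ι) (w : List ι) : (star (push f hf) x) w = x (f w) := by
  rw [← inner_bas_left, ← inner_conj_symm, star_inner_left, push_bas, inner_conj_symm,
    inner_bas_left]

lemma star_push_bas (w : List ι) : star (push f hf) (bas (f w)) = bas w := by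
  refine lp.ext (funext fun u => ?_)
  rw [star_push_apply, bas_apply, bas_apply]
  simp [hf.eq_iff]

lemma star_push_bas_ne (u : List ι) (h : ∀ w, f w ≠ u) : star (push f hf) (bas u) = 0 := by
  refine lp.ext (funext fun w => ?_)
  rw [star_push_apply, bas_apply, if_neg (h w)]
  simp

lemma push_apply_ne (x : Hil ι) (u : List ι) (h : ∀ w, f w ≠ u) : push f hf x u = 0 := by
  rw [← inner_bas_left, ← star_inner_left, star_push_bas_ne f hf u h, inner_zero_left]

lemma push_apply_map (x : Hil ι) (w : List ι) : push f hf x (f w) = x w := by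
  rw [← inner_bas_left, ← star_inner_left, star_push_bas, inner_bas_left]

end Push

/-- Left creation. -/
def lc (a : ι) : Hil ι →L[ℂ] Hil ι := push (List.cons a) List.cons_injective

/-- Right creation by a word. -/
def app (q : List ι) : Hil ι →L[ℂ] Hil ι :=
  push (fun v => v ++ q) (fun _ _ h => List.append_cancel_right h)

/-- Left semicircular element. -/
def ls (a : ι) : Hil ι →L[ℂ] Hil ι := lc a + star (lc a)

/-- Right semicircular element. -/
def rs (a : ι) : Hil ι →L[ℂ] Hil ι := app [a] + star (app [a])

lemma app_bas (q v : List ι) : app q (bas v) = bas (v ++ q) := push_bas _ _ v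

lemma lc_bas (a : ι) (v : List ι) : lc a (bas v) = bas (a :: v) := push_bas _ _ v

lemma app_apply_map (q : List ι) (x : Hil ι) (v : List ι) : app q x (v ++ q) = x v :=
  push_apply_map _ _ x v

lemma app_apply_ne (q : List ι) (x : Hil ι) (u : List ι) (h : ∀ v, v ++ q ≠ u) : app q x u = 0 :=
  push_apply_ne _ _ x u h

lemma star_lc_nil (a : ι) : star (lc a) (bas ([] : List ι)) = 0 :=
  star_push_bas_ne _ _ _ fun _ h => by simp at h

lemma star_lc_cons (a b : ι) (u : List ι) :
    star (lc a) (bas (b :: u)) = if a = b then bas u else 0 := by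
  split_ifs with h
  · subst h; exact star_push_bas _ _ u
  · exact star_push_bas_ne _ _ _ fun _ e => h (by simp at e; exact e.1)

lemma star_app_snoc (a b : ι) (u : List ι) :
    star (app [a]) (bas (u ++ [b])) = if a = b then bas u else 0 := by
  split_ifs with h
  · subst h; exact star_push_bas _ _ u
  · exact star_push_bas_ne _ _ _ fun _ e => h (by simpa using (List.append_inj' e rfl).2)

lemma star_app_nil (a : ι) : star (app [a]) (bas ([] : List ι)) = 0 :=
  star_push_bas_ne _ _ _ fun _ h => by simp at h

lemma star_ls (a : ι) : star (ls a) = ls a := by rw [ls, star_add, star_star, add_comm]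

lemma star_rs (a : ι) : star (rs a) = rs a := by rw [rs, star_add, star_star, add_comm]

lemma ls_rs_comm (a b : ι) : ls a * rs b = rs b * ls a := by
  refine ext_bas fun w => ?_
  simp only [ls, rs, mul_apply_eq_comp, _root_.add_apply, map_add,
    app_bas, lc_bas]
  rcases w with _ | ⟨c, u⟩
  · have e1 : star (lc a) (bas ([] ++ [b])) = if a = b then bas [] else 0 := star_lc_cons a b []
    have e2 : star (app [b]) (bas [a]) = if b = a then bas [] else 0 := star_app_snoc b a []
    simp only [List.nil_append, star_app_nil, star_lc_nil, map_zero, add_zero] at *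
    rw [e1, e2]
    simp [eq_comm]
  · rcases List.eq_nil_or_concat u with rfl | ⟨u', e, rfl⟩
    · have e1 : star (app [b]) (bas [c]) = if b = c then bas [] else 0 := star_app_snoc b c []
      have e2 : star (app [b]) (bas [a, c]) = if b = c then bas [a] else 0 := star_app_snoc b c [a]
      simp only [List.cons_append, List.nil_append, star_lc_cons, e1, e2]
      by_cases h1 : a = c <;> by_cases h2 : b = c <;>
        simp [h1, h2, lc_bas, star_lc_nil, star_app_nil, app_bas]
    · simp only [List.concat_eq_append]
      have e1 : star (app [b]) (bas (c :: (u' ++ [e]))) = if b = e then bas (c :: u') else 0 :=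
        star_app_snoc b e (c :: u')
      have e2 : star (app [b]) (bas (a :: c :: (u' ++ [e])))
          = if b = e then bas (a :: c :: u') else 0 := star_app_snoc b e (a :: c :: u')
      simp only [List.cons_append, star_lc_cons, e1, e2]
      by_cases h1 : a = c <;> by_cases h2 : b = e <;>
        simp [h1, h2, lc_bas, star_lc_cons, star_app_snoc, app_bas] <;> abel

variable (ι) in
/-- The von Neumann algebra generated by the left semicircular elements. -/
def alg : VonNeumannAlgebra (Hil ι) where
  toStarSubalgebra := StarSubalgebra.centralizer ℂ (Set.range (rs : ι → Hil ι →L[ℂ] Hil ι))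
  centralizer_centralizer' := Set.centralizer_centralizer_centralizer _

lemma mem_alg_iff {x : Hil ι →L[ℂ] Hil ι} : x ∈ alg ι ↔ ∀ b, rs b * x = x * rs b := by
  show x ∈ StarSubalgebra.centralizer ℂ (Set.range (rs : ι → Hil ι →L[ℂ] Hil ι)) ↔ _
  rw [StarSubalgebra.mem_centralizer_iff]
  constructor
  · intro h b; exact (h _ ⟨b, rfl⟩).1
  · rintro h _ ⟨b, rfl⟩
    rw [star_rs]
    exact ⟨h b, h b⟩

lemma ls_mem (a : ι) : ls a ∈ alg ι := mem_alg_iff.2 fun b => (ls_rs_comm a b).symm

section Wick

variable {A : Type} [Ring A] (s : ι → A)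

/-- Contraction term at the head. -/
def hdTerm (a : ι) (w : List ι) : A := if w.head? = some a then wickOf s w.tail else 0

/-- Contraction term at the last letter. -/
def ltTerm (b : ι) (w : List ι) : A := if w.getLast? = some b then wickOf s w.dropLast else 0

lemma wick_cons (a : ι) (w : List ι) : wickOf s (a :: w) = s a * wickOf s w - hdTerm s a w := by
  rcases w with _ | ⟨b, w⟩
  · simp [wickOf, hdTerm]
  · simp [wickOf, hdTerm, eq_comm]

lemma wick_snoc (b : ι) :
    ∀ (n : ℕ) (w : List ι), w.length ≤ n → wickOf s (w ++ [b]) = wickOf s w * s b - ltTerm s b w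
  | _, [], _ => by simp [wickOf, ltTerm]
  | 0, _ :: _, h => by simp at h
  | n + 1, [a], _ => by simp [wickOf, ltTerm]
  | n + 1, a :: c :: u, h => by
      have h' : (c :: u).length ≤ n := by simpa using h
      have hu : u.length ≤ n := by simp at h'; omega
      have i1 := wick_snoc b n (c :: u) h'
      have i2 := wick_snoc b n u hu
      have key : ltTerm s b (a :: c :: u)
          = s a * ltTerm s b (c :: u) - if a = c then ltTerm s b u else 0 := by
        rcases List.eq_nil_or_concat u with rfl | ⟨u', e, rfl⟩
        · by_cases hc : c = b <;> simp [ltTerm, wickOf, hc]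
        · simp only [List.concat_eq_append]
          have g : (c :: (u' ++ [e])).getLast? = some e := by
            rw [← List.cons_append, List.getLast?_append]; simp
          have g' : (a :: c :: (u' ++ [e])).getLast? = some e := by
            rw [← List.cons_append, ← List.cons_append, List.getLast?_append]; simp
          have d : (c :: (u' ++ [e])).dropLast = c :: u' := by
            rw [← List.cons_append, List.dropLast_concat]
          have d' : (a :: c :: (u' ++ [e])).dropLast = a :: c :: u' := by
            rw [← List.cons_append, ← List.cons_append, List.dropLast_concat]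
          simp only [ltTerm, g, g', d, d', List.getLast?_concat, List.dropLast_concat,
            Option.some.injEq]
          by_cases heb : e = b <;> simp [heb, wickOf]
      simp only [List.cons_append] at i1 ⊢
      rw [wickOf, i1, i2, key, wickOf]
      split_ifs <;> noncomm_ring

lemma star_wick [StarRing A] (hs : ∀ a, star (s a) = s a) :
    ∀ (n : ℕ) (w : List ι), w.length ≤ n → star (wickOf s w) = wickOf s w.reverse
  | _, [], _ => by simp [wickOf]
  | 0, _ :: _, h => by simp at h
  | n + 1, a :: w, h => by
      have h' : w.length ≤ n := by simpa using h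
      have ht : (hdTerm s a w : A) = 0 ∨ w.tail.length ≤ n := Or.inr (by simp; omega)
      rw [wick_cons, star_sub, star_mul, hs, star_wick hs n w h', List.reverse_cons,
        wick_snoc s a _ w.reverse le_rfl]
      congr 1
      simp only [hdTerm, ltTerm, List.getLast?_reverse]
      split_ifs with h1
      · rw [star_wick hs n w.tail (by simp; omega), List.dropLast_reverse]
      · simp

end Wick

lemma rs_wick_bas : ∀ (n : ℕ) (w : List ι), w.length ≤ n →
    wickOf (rs : ι → Hil ι →L[ℂ] Hil ι) w (bas []) = bas w.reverse
  | _, [], _ => by simp [wickOf]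
  | 0, _ :: _, h => by simp at h
  | n + 1, a :: w, h => by
      have h' : w.length ≤ n := by simpa using h
      rw [wick_cons, _root_.sub_apply, mul_apply_eq_comp,
        rs_wick_bas n w h', rs, _root_.add_apply, app_bas, List.reverse_cons]
      rw [add_sub_assoc, add_eq_left]
      rcases w with _ | ⟨b, v⟩
      · simp [hdTerm, star_app_nil]
      · simp only [hdTerm, List.head?_cons, Option.some.injEq, List.tail_cons, List.reverse_cons,
          star_app_snoc]
        by_cases hab : a = b
        · subst hab
          rw [if_pos rfl, if_pos rfl, rs_wick_bas n v (by simp at h'; omega), sub_self]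
        · rw [if_neg hab, if_neg (Ne.symm hab)]
          simp

/-- An operator in the commutant sending the vacuum to `bas w`. -/
def rw' (w : List ι) : Hil ι →L[ℂ] Hil ι := wickOf rs w.reverse

lemma rw'_bas (w : List ι) : rw' w (bas []) = bas w := by
  rw [rw', rs_wick_bas _ _ le_rfl, List.reverse_reverse]

lemma star_rw'_bas (w : List ι) : star (rw' w) (bas []) = bas w.reverse := by
  rw [rw', star_wick rs star_rs _ _ le_rfl, List.reverse_reverse, rs_wick_bas _ _ le_rfl]

lemma rw'_comm {x : Hil ι →L[ℂ] Hil ι} (hx : x ∈ alg ι) (w : List ι) :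
    rw' w * x = x * rw' w := by
  have : ∀ (n : ℕ) (v : List ι), v.length ≤ n →
      wickOf (rs : ι → Hil ι →L[ℂ] Hil ι) v * x = x * wickOf rs v := by
    intro n
    induction n with
    | zero =>
      intro v hv
      rw [List.length_eq_zero_iff.1 (Nat.le_zero.1 hv)]
      simp [wickOf]
    | succ n ih =>
      intro v hv
      rcases v with _ | ⟨a, v⟩
      · simp [wickOf]
      · have hv' : v.length ≤ n := by simpa using hv
        rw [wick_cons, sub_mul, mul_sub, mul_assoc, ih v hv', ← mul_assoc, mem_alg_iff.1 hx a,
          mul_assoc]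
        congr 1
        unfold hdTerm
        split_ifs
        · exact ih _ (by simp; omega)
        · simp
  exact this _ _ le_rfl

lemma coord_star {x : Hil ι →L[ℂ] Hil ι} (hx : x ∈ alg ι) (w : List ι) :
    starRingEnd ℂ ((star x) (bas []) w) = x (bas []) w.reverse := by
  rw [← inner_bas_right w ((star x) (bas [])), star_inner_left]
  have : x (bas w) = rw' w (x (bas [])) := by
    rw [← rw'_bas w]
    exact (DFunLike.congr_fun (rw'_comm hx w) (bas [])).symm
  rw [this, ← star_inner_left, star_rw'_bas, inner_bas_left]

lemma trace_mul_eq {x : Hil ι →L[ℂ] Hil ι} (hx : x ∈ alg ι) (y : Hil ι →L[ℂ] Hil ι) :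
    trace (bas []) (x * y) = ∑' w, x (bas []) w.reverse * y (bas []) w := by
  rw [trace, mul_apply_eq_comp, ← star_inner_left, lp.inner_eq_tsum]
  refine tsum_congr fun w => ?_
  rw [RCLike.inner_apply', coord_star hx]

lemma trace_comm {x y : Hil ι →L[ℂ] Hil ι} (hx : x ∈ alg ι) (hy : y ∈ alg ι) :
    trace (bas []) (x * y) = trace (bas []) (y * x) := by
  rw [trace_mul_eq hx, trace_mul_eq hy,
    ← (Equiv.mk List.reverse List.reverse List.reverse_reverse List.reverse_reverse).tsum_eq
      fun w => y (bas []) w.reverse * x (bas []) w]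
  refine tsum_congr fun w => ?_
  simp [mul_comm]

lemma faithful {x : Hil ι →L[ℂ] Hil ι} (hx : x ∈ alg ι)
    (h : trace (bas []) (star x * x) = 0) : x = 0 := by
  rw [trace, mul_apply_eq_comp, ← star_inner_left, star_star, inner_self_eq_zero] at h
  refine ext_bas fun w => ?_
  rw [← rw'_bas w, ← mul_apply_eq_comp, ← rw'_comm hx w,
    mul_apply_eq_comp, h]
  simp

/-- The embedding of finitely supported vectors. -/
def emb (v : Fck ι) : Hil ι := v.sum fun w c => (c : ℂ) • bas w

lemma emb_add (v u : Fck ι) : emb (v + u) = emb v + emb u :=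
  Finsupp.sum_add_index' (fun _ => by simp) fun _ _ _ => by rw [Complex.ofReal_add, add_smul]

lemma emb_smul (c : ℝ) (v : Fck ι) : emb (c • v) = (c : ℂ) • emb v := by
  rw [emb, Finsupp.sum_smul_index' (fun _ => by simp), emb, Finsupp.smul_sum]
  exact Finsupp.sum_congr fun w _ => by
    rw [smul_smul, smul_eq_mul, Complex.ofReal_mul]

lemma emb_word (w : List ι) : emb (word w) = bas w := by
  rw [emb, word, Finsupp.sum_single_index] <;> simp

lemma emb_inner (v u : Fck ι) : ⟪emb v, emb u⟫_ℂ = (dot v u : ℂ) := by
  have he : ∀ w, emb u w = (u w : ℂ) := by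
    intro w
    rw [emb, ← inner_bas_left, Finsupp.inner_sum]
    simp only [Finsupp.sum, inner_smul_right, inner_bas_left, bas_apply, mul_ite, mul_one, mul_zero,
      Finset.sum_ite_eq, Finsupp.mem_support_iff]
    by_cases hw : u w = 0 <;> simp [hw]
  rw [emb, Finsupp.sum, sum_inner, dot, Finsupp.sum, Complex.ofReal_sum]
  refine Finset.sum_congr rfl fun w _ => ?_
  rw [inner_smul_left, inner_bas_left, he, Complex.conj_ofReal, Complex.ofReal_mul]

lemma ls_emb (a : ι) (v : Fck ι) : ls a (emb v) = emb (semi a v) := by
  induction v using Finsupp.induction_linear with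
  | zero => simp [emb]
  | add v u hv hu => rw [emb_add, map_add, map_add, emb_add, hv, hu]
  | single w c =>
    rw [show Finsupp.single w c = c • word w by simp [word], emb_smul, map_smul, map_smul, emb_smul,
      emb_word]
    congr 1
    simp only [ls, semi, _root_.add_apply, LinearMap.add_apply, create, annihilate,
      onWords_word, lc_bas, emb_add, emb_word]
    congr 1
    rcases w with _ | ⟨b, u⟩
    · simp [star_lc_nil, emb]
    · rw [star_lc_cons]
      show _ = emb (if a = b then word u else 0)
      by_cases h : a = b
      · rw [if_pos h, if_pos h, emb_word]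
      · rw [if_neg h, if_neg h]; simp [emb]

section Moments

variable (a : ι)

lemma ls_app_bas : ∀ n : ℕ, (ls a ^ n) (app [a] (bas [])) = app [a] ((ls a ^ n) (bas []))
    + ∑ i ∈ Finset.range n, trace (bas []) (ls a ^ (n - 1 - i)) • (ls a ^ i) (bas [])
  | 0 => by simp
  | n + 1 => by
      have hcomm : ∀ x : Hil ι, ls a (app [a] x) = app [a] (ls a x) + x [] • bas [] := by
        intro x
        have : ls a * app [a] = app [a] * ls a + (innerSL ℂ (bas ([] : List ι))).smulRight
            (bas ([] : List ι)) := by
          refine ext_bas fun w => ?_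
          simp only [ls, mul_apply_eq_comp, _root_.add_apply, app_bas,
            lc_bas, map_add, ContinuousLinearMap.smulRight_apply, innerSL_apply_apply,
            inner_bas_left, bas_apply]
          rcases w with _ | ⟨b, u⟩
          · simp [star_lc_cons, star_lc_nil]
          · simp only [List.cons_append, star_lc_cons]
            split_ifs <;> simp_all [app_bas]
        have h2 := DFunLike.congr_fun this x
        simpa only [mul_apply_eq_comp, _root_.add_apply,
          ContinuousLinearMap.smulRight_apply, innerSL_apply_apply, inner_bas_left] using h2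
      have hp : ∀ (k : ℕ) (y : Hil ι), (ls a ^ (k + 1)) y = ls a ((ls a ^ k) y) := fun k y => by
        rw [pow_succ', mul_apply_eq_comp]
      rw [hp, ls_app_bas n, map_add, hcomm, map_sum, Finset.sum_range_succ', add_assoc, hp]
      congr 1
      rw [add_comm]
      congr 1
      · refine Finset.sum_congr rfl fun i hi => ?_
        rw [map_smul, hp, show n + 1 - 1 - (i + 1) = n - 1 - i by omega]
      · rw [trace, pow_zero, one_apply_eq_self, inner_bas_left,
          show n + 1 - 1 - 0 = n by omega]

lemma moment_rec (p : ℕ) : trace (bas []) (ls a ^ (p + 2))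
    = ∑ i ∈ Finset.range (p + 1), trace (bas []) (ls a ^ i) * trace (bas []) (ls a ^ (p - i)) := by
  have h1 : ls a (bas []) = app [a] (bas []) := by
    simp [ls, lc_bas, app_bas, star_lc_nil]
  rw [trace, pow_succ, mul_apply_eq_comp, h1, ls_app_bas a, inner_add_right,
    inner_sum, inner_bas_left, app_apply_ne _ _ [] (fun w h => by simp at h), zero_add]
  refine Finset.sum_congr rfl fun i _ => ?_
  rw [inner_smul_right, show p + 1 - 1 - i = p - i by omega, mul_comm]
  rfl

lemma moment : ∀ p : ℕ,
    trace (bas []) (ls a ^ p) = if Even p then (catalan (p / 2) : ℂ) else 0 := by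
  intro p
  induction p using Nat.strong_induction_on with
  | _ p ih =>
    match p with
    | 0 => rw [pow_zero, trace, one_apply_eq_self, inner_bas_left, bas_apply]; simp
    | 1 => simp [trace, inner_bas_left, ls, lc_bas, star_lc_nil, bas_apply]
    | p + 2 =>
      rw [moment_rec, Finset.sum_congr rfl fun i hi => by
        rw [ih i (by simp at hi; omega), ih (p - i) (by omega)]]
      by_cases hp : Even p
      · obtain ⟨q, rfl⟩ := hp
        rw [if_pos ⟨q + 1, by ring⟩, show (q + q + 2) / 2 = q + 1 by omega, catalan_succ,
          Fin.sum_univ_eq_sum_range (fun i => catalan i * catalan (q - i)), Nat.cast_sum]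
        symm
        refine Finset.sum_of_injOn (fun j => j + j) (fun x _ y _ h => by
          simp only at h; omega) ?_ ?_ ?_
        · intro j hj
          simp only [Finset.coe_range, Set.mem_Iio] at hj ⊢
          omega
        · intro i hi hni
          by_cases hie : Even i
          · obtain ⟨j, rfl⟩ := hie
            exact absurd ⟨j, by simp only [Finset.mem_range] at hi ⊢; simp; omega, rfl⟩ hni
          · simp [hie]
        · intro j hj
          simp only [Finset.mem_range] at hj
          rw [if_pos ⟨j, rfl⟩, if_pos ⟨q - j, by omega⟩, show (j + j) / 2 = j by omega,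
            show (q + q - (j + j)) / 2 = q - j by omega]
          push_cast
          rfl
      · rw [if_neg (by intro h; exact hp (by simpa [Nat.even_add] using h))]
        refine Finset.sum_eq_zero fun i hi => ?_
        have hi' : i ≤ p := by simp at hi; omega
        by_cases hie : Even i
        · rw [if_neg (fun h : Even (p - i) => hp ?_), mul_zero] <;>
            have h2 : Even (p - i + i) := Even.add h hie
          rwa [Nat.sub_add_cancel hi'] at h2
        · simp [hie]

end Moments

section Free

variable (P : Set ι)

lemma ls_app_comm (a : ι) (ha : a ∈ P) (q : List ι) (hq : ∀ b, q.head? = some b → b ∉ P) :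
    ls a * app q = app q * ls a := by
  refine ext_bas fun w => ?_
  simp only [ls, mul_apply_eq_comp, _root_.add_apply, app_bas, lc_bas,
    map_add, List.cons_append]
  congr 1
  rcases w with _ | ⟨b, u⟩
  · rw [List.nil_append, star_lc_nil, map_zero]
    rcases q with _ | ⟨c, q⟩
    · exact star_lc_nil a
    · rw [star_lc_cons, if_neg]
      rintro rfl
      exact hq a rfl ha
  · rw [List.cons_append, star_lc_cons, star_lc_cons]
    split_ifs <;> simp [app_bas]

lemma adjoin_app_comm {x : Hil ι →L[ℂ] Hil ι}
    (hx : x ∈ Algebra.adjoin ℂ (ls '' P)) (q : List ι) (hq : ∀ b, q.head? = some b → b ∉ P) :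
    x * app q = app q * x := by
  induction hx using Algebra.adjoin_induction with
  | mem x hx =>
      obtain ⟨a, ha, rfl⟩ := hx
      exact ls_app_comm P a ha q hq
  | algebraMap c => exact Algebra.commutes c _
  | add x y _ _ h1 h2 => rw [add_mul, mul_add, h1, h2]
  | mul x y _ _ h1 h2 => rw [mul_assoc, h2, ← mul_assoc, h1, mul_assoc]

/-- Vectors carried by words in `P`. -/
def InP (y : Hil ι) : Prop := ∀ w, y w ≠ 0 → ∀ b ∈ w, b ∈ P

lemma adjoin_inP {x : Hil ι →L[ℂ] Hil ι} (hx : x ∈ Algebra.adjoin ℂ (ls '' P)) :
    ∀ y, InP P y → InP P (x y) := by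
  induction hx using Algebra.adjoin_induction with
  | mem x hx =>
      obtain ⟨a, ha, rfl⟩ := hx
      intro y hy w hw b hb
      simp only [ls, _root_.add_apply, lp.coeFn_add, Pi.add_apply] at hw
      by_cases h1 : lc a y w = 0
      · rw [h1, zero_add, lc, star_push_apply] at hw
        exact hy _ hw b (by simp [hb])
      · by_cases h2 : ∃ v, a :: v = w
        · obtain ⟨v, rfl⟩ := h2
          rw [lc, push_apply_map] at h1
          rcases List.mem_cons.1 hb with rfl | hb
          exacts [ha, hy _ h1 b hb]
        · exact absurd (push_apply_ne _ _ y w fun v hv => h2 ⟨v, hv⟩) h1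
  | algebraMap c =>
      intro y hy w hw b hb
      refine hy w ?_ b hb
      rw [Algebra.algebraMap_eq_smul_one] at hw
      intro h0
      simp [h0] at hw
  | add x y _ _ h1 h2 =>
      intro z hz w hw b hb
      simp only [_root_.add_apply, lp.coeFn_add, Pi.add_apply] at hw
      by_cases h : x z w = 0
      · rw [h, zero_add] at hw; exact h2 z hz w hw b hb
      · exact h1 z hz w h b hb
  | mul x y _ _ h1 h2 => intro z hz; exact h1 _ (h2 z hz)

lemma inP_vac : InP P (bas ([] : List ι)) := by
  intro w hw b hb
  rw [bas_apply] at hw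
  split_ifs at hw with h
  · subst h; simp at hb
  · simp at hw

lemma centred_step {x : Hil ι →L[ℂ] Hil ι} (hx : x ∈ Algebra.adjoin ℂ (ls '' P))
    (h0 : trace (bas []) x = 0) {y : Hil ι}
    (hy : ∀ q, y q ≠ 0 → ∀ b, q.head? = some b → b ∉ P) (w : List ι) (hw : x y w ≠ 0) :
    ∃ b, w.head? = some b ∧ b ∈ P := by
  by_contra hcon
  push Not at hcon
  apply hw
  have hs : HasSum (fun q => x (lp.single 2 q (y q)) w) (x y w) :=
    (lp.hasSum_single (by simp) y).map ((lp.evalCLM ℂ (fun _ : List ι => ℂ) 2 w).comp x)
      ((lp.evalCLM ℂ (fun _ : List ι => ℂ) 2 w).comp x).continuous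
  rw [← hs.tsum_eq]
  refine (tsum_congr fun q => ?_).trans tsum_zero
  by_cases hq : y q = 0
  · rw [hq, lp.single_zero, map_zero]; rfl
  have e : lp.single 2 q (y q) = y q • app q (bas []) := by
    rw [app_bas, List.nil_append, bas, ← lp.single_smul, smul_eq_mul, mul_one]
  have hc : x (app q (bas [])) = app q (x (bas [])) :=
    DFunLike.congr_fun (adjoin_app_comm P hx q (hy q hq)) (bas [])
  rw [e, map_smul, hc, lp.coeFn_smul, Pi.smul_apply]
  by_cases h : ∃ v, v ++ q = w
  · obtain ⟨v, rfl⟩ := h
    rw [app_apply_map]
    by_cases hv : x (bas []) v = 0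
    · rw [hv, smul_zero]
    rcases v with _ | ⟨b, v⟩
    · refine absurd ?_ hv
      rw [← inner_bas_left]
      exact h0
    · exact absurd (adjoin_inP P hx _ (inP_vac P) _ hv b (by simp)) (hcon b rfl)
  · rw [app_apply_ne _ _ _ fun v hv => h ⟨v, hv⟩, smul_zero]

end Free

lemma free (κ : Type) (P : κ → Set ι) (hP : Pairwise fun i j => Disjoint (P i) (P j)) :
    IsFreeFamily (bas []) fun i => (Algebra.adjoin ℂ (ls '' P i) : Set (Hil ι →L[ℂ] Hil ι)) := by
  intro p i a hp hmem h0 halt
  suffices H : ∀ (p : ℕ) (i : Fin p → κ) (a : Fin p → Hil ι →L[ℂ] Hil ι),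
      (∀ l, a l ∈ Algebra.adjoin ℂ (ls '' P (i l))) → (∀ l, trace (bas []) (a l) = 0) →
      (∀ l l' : Fin p, l.val + 1 = l'.val → i l ≠ i l') →
      ∀ w, (List.ofFn a).prod (bas []) w ≠ 0 →
        if h : 0 < p then ∃ b, w.head? = some b ∧ b ∈ P (i ⟨0, h⟩) else w = [] by
    have h := H p i a (fun l => hmem l) h0 halt []
    rw [dif_pos hp] at h
    rw [trace, inner_bas_left]
    by_contra hne
    obtain ⟨b, hb, -⟩ := h hne
    simp at hb
  intro p
  induction p with
  | zero =>
    intro i a _ _ _ w hw
    rw [dif_neg (lt_irrefl 0)]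
    simp only [List.ofFn_zero, List.prod_nil, one_apply_eq_self, bas_apply] at hw
    by_contra h
    simp [h] at hw
  | succ p ih =>
    intro i a hmem h0 halt w hw
    rw [dif_pos (Nat.succ_pos p)]
    rw [List.ofFn_succ, List.prod_cons, mul_apply_eq_comp] at hw
    refine centred_step (P (i 0)) (hmem 0) (h0 0) (fun q hq b hb hbP => ?_) w hw
    have := ih (fun l => i l.succ) (fun l => a l.succ) (fun l => hmem _) (fun l => h0 _)
      (fun l l' h => halt l.succ l'.succ (by simp [h])) q hq
    split_ifs at this with hp'
    · obtain ⟨b', hb', hb'P⟩ := this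
      rw [hb] at hb'
      obtain rfl := Option.some.inj hb'
      exact (Set.disjoint_left.1 (hP (halt 0 (Fin.succ ⟨0, hp'⟩) (by simp))) hbP) hb'P
    · subst this
      simp at hb

end Realisation

open Realisation in
/-- The module theorem. -/
theorem realisation : RealisationStatement := by
  intro ι _
  refine ⟨Hil ι, inferInstance, inferInstance, inferInstance, alg ι, bas [], ls, emb,
    ⟨?_, fun a ha b hb => trace_comm ha hb, fun a ha h => faithful ha h⟩,
    fun a => ⟨ls_mem a, star_ls a⟩, emb_word [], emb_add, emb_smul, emb_inner, ls_emb, moment,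
    free⟩
  exact bas_orthonormal.1 []

end

end Vale.Agent.P087
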