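import Vale.Agent.P087.Fisher

/-!
# P087: well-posedness of `chiStar`

The positive part of the integrand has finite integral, so `χ* < ⊤`; free Fisher information along
the perturbation is a measurable function of `t`.
-/

open scoped InnerProductSpace ENNReal
open MeasureTheory

namespace Vale.Agent.P087

noncomputable section

variable {H : Type} [NormedAddCommGroup H] [InnerProductSpace ℂ H] [CompleteSpace H]
variable {M : VonNeumannAlgebra H} {Ω : H} {n : ℕ} {X S : Fin n → H →L[ℂ] H}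

theorem norm_semicircular_sq (hSA : ∀ j, IsSelfAdjoint (S j)) (hS : IsFreeSemicircular Ω S)
    (j : Fin n) : ‖S j Ω‖ ^ 2 = 1 := by
  have h := hS.1 j 2
  rw [if_pos even_two, Nat.div_self (by norm_num), catalan_one, Nat.cast_one] at h
  simp only [trace, pow_two, mul_apply_eq_comp] at h
  have h2 : ⟪S j Ω, S j Ω⟫_ℂ = ⟪Ω, S j (S j Ω)⟫_ℂ := (hSA j).isSymmetric Ω (S j Ω)
  rw [← h2, inner_self_eq_norm_sq_to_K] at h
  simpa [pow_two] using congrArg Complex.re h

theorem inner_free_eq_zero (hXA : ∀ j, IsSelfAdjoint (X j)) (hS : IsFreeSemicircular Ω S)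
    (hf : IsFreeFrom Ω X S) (hΩ : ‖Ω‖ = 1) (j : Fin n) : ⟪X j Ω, S j Ω⟫_ℂ = 0 := by
  have hS0 : trace Ω (S j) = 0 := by
    have h := hS.1 j 1
    rw [pow_one, if_neg (by decide)] at h
    exact h
  set c := trace Ω (X j) with hc
  set a : H →L[ℂ] H := X j - c • 1 with ha
  have ha0 : trace Ω a = 0 := by
    simp [ha, hc, trace, inner_self_eq_norm_sq_to_K, hΩ]
  have ha1 : a ∈ Algebra.adjoin ℂ (Set.range X) :=
    Subalgebra.sub_mem _ (Algebra.subset_adjoin ⟨j, rfl⟩)
      (Subalgebra.smul_mem _ (Subalgebra.one_mem _) c)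
  have h := hf 2 ![true, false] ![a, S j] (by norm_num)
    (by intro l; fin_cases l
        · exact ha1
        · exact Algebra.subset_adjoin ⟨j, rfl⟩)
    (by intro l; fin_cases l
        · exact ha0
        · exact hS0)
    (by intro l l' e; fin_cases l <;> fin_cases l' <;> simp_all)
  simp only [List.ofFn_succ, List.ofFn_zero, List.prod_cons, List.prod_nil, mul_one,
    Matrix.cons_val_zero, Matrix.cons_val_succ, ha, sub_mul, smul_mul_assoc, one_mul] at h
  simp only [trace, sub_apply, smul_apply,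
    mul_apply_eq_comp, inner_sub_right, inner_smul_right] at h
  rw [show ⟪Ω, S j Ω⟫_ℂ = 0 from hS0, mul_zero, sub_zero] at h
  rw [← h]
  exact (hXA j).isSymmetric Ω (S j Ω)

/-- `‖(X_j + √t S_j) Ω‖² = ‖X_j Ω‖² + t`. -/
theorem norm_perturbed_sq (hXA : ∀ j, IsSelfAdjoint (X j)) (hSA : ∀ j, IsSelfAdjoint (S j))
    (hS : IsFreeSemicircular Ω S) (hf : IsFreeFrom Ω X S) (hΩ : ‖Ω‖ = 1) {t : ℝ} (ht : 0 ≤ t)
    (j : Fin n) : ‖perturbed X S t j Ω‖ ^ 2 = ‖X j Ω‖ ^ 2 + t := by
  rw [perturbed, add_apply, smul_apply,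
    norm_add_sq (𝕜 := ℂ), inner_smul_right, inner_free_eq_zero hXA hS hf hΩ, norm_smul, mul_pow,
    norm_semicircular_sq hSA hS, Complex.norm_real, Real.norm_eq_abs, sq_abs, Real.sq_sqrt ht]
  simp

/-- The positive part of the integrand of `χ*` has finite integral. -/
theorem lintegral_pos_part_lt_top (hM : IsFaithfulTracialState M Ω)
    (hX : ∀ j, X j ∈ M ∧ IsSelfAdjoint (X j)) (hSM : ∀ j, S j ∈ M ∧ IsSelfAdjoint (S j))
    (hS : IsFreeSemicircular Ω S) (hf : IsFreeFrom Ω X S) :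
    (∫⁻ t in Set.Ioi (0 : ℝ),
      (ENNReal.ofReal ((n : ℝ) / (1 + t)) - fisher Ω (perturbed X S t))) < ⊤ := by
  set C : ℝ := ∑ j, max (‖X j Ω‖ ^ 2 - 1) 0 with hC
  have hC0 : 0 ≤ C := Finset.sum_nonneg fun j _ => le_max_right _ _
  have hbound : ∀ t : ℝ, 0 < t → ENNReal.ofReal ((n : ℝ) / (1 + t)) -
      fisher Ω (perturbed X S t) ≤ ENNReal.ofReal (C * (1 + t ^ 2)⁻¹) := by
    intro t ht
    have hv : ∀ j, 0 < ‖X j Ω‖ ^ 2 + t := fun j => by positivity
    have hcr : ENNReal.ofReal (∑ j, 1 / (‖X j Ω‖ ^ 2 + t)) ≤ fisher Ω (perturbed X S t) :=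
      le_fisher hM.1 _ hv fun j =>
        norm_perturbed_sq (fun j => (hX j).2) (fun j => (hSM j).2) hS hf hM.1 ht.le j
    refine (tsub_le_tsub_left hcr _).trans ?_
    rw [← ENNReal.ofReal_sub _ (Finset.sum_nonneg fun j _ => (one_div_pos.mpr (hv j)).le)]
    refine ENNReal.ofReal_le_ofReal ?_
    have e : (n : ℝ) / (1 + t) = ∑ _j : Fin n, 1 / (1 + t) := by
      simp [div_eq_mul_inv]
    rw [e, ← Finset.sum_sub_distrib, hC, Finset.sum_mul]
    refine Finset.sum_le_sum fun j _ => ?_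
    set v := ‖X j Ω‖ ^ 2
    have hv0 : 0 < v + t := hv j
    rw [div_sub_div _ _ (by positivity) hv0.ne', ← div_eq_mul_inv,
      div_le_div_iff₀ (by positivity) (by positivity)]
    rcases le_total v 1 with h | h
    · rw [max_eq_right (by linarith)]
      nlinarith [mul_nonneg (sub_nonneg.mpr h) (sq_nonneg t)]
    · rw [max_eq_left (by linarith)]
      nlinarith [mul_nonneg (sub_nonneg.mpr h) ht.le, sq_nonneg t,
        mul_nonneg (mul_nonneg (sub_nonneg.mpr h) (sub_nonneg.mpr h)) ht.le]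
  refine lt_of_le_of_lt (setLIntegral_mono (by fun_prop) fun t ht => hbound t ht) ?_
  refine lt_of_le_of_lt (lintegral_mono' Measure.restrict_le_self le_rfl) ?_
  have hi : Integrable fun t : ℝ => C * (1 + t ^ 2)⁻¹ := integrable_inv_one_add_sq.const_mul C
  rw [← ofReal_integral_eq_lintegral_ofReal hi (ae_of_all _ fun t => by positivity)]
  exact ENNReal.ofReal_lt_top

/-- `χ* < ⊤`. -/
theorem chiStar_lt_top (hM : IsFaithfulTracialState M Ω)
    (hX : ∀ j, X j ∈ M ∧ IsSelfAdjoint (X j)) (hSM : ∀ j, S j ∈ M ∧ IsSelfAdjoint (S j))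
    (hS : IsFreeSemicircular Ω S) (hf : IsFreeFrom Ω X S) : chiStar Ω X S < ⊤ := by
  have h := lintegral_pos_part_lt_top hM hX hSM hS hf
  unfold chiStar
  generalize (∫⁻ t in Set.Ioi (0 : ℝ),
    (ENNReal.ofReal ((n : ℝ) / (1 + t)) - fisher Ω (perturbed X S t))) = a at h
  generalize (∫⁻ t in Set.Ioi (0 : ℝ),
    (fisher Ω (perturbed X S t) - ENNReal.ofReal ((n : ℝ) / (1 + t)))) = b
  refine EReal.add_lt_top ?_ (EReal.coe_ne_top _)
  lift a to NNReal using h.ne
  induction b using ENNReal.recTopCoe with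
  | top =>
    rw [EReal.coe_ennreal_top, EReal.sub_top, EReal.coe_mul_bot_of_pos (by norm_num)]
    exact bot_ne_top
  | coe b =>
    simp only [EReal.coe_nnreal_eq_coe_real, ← EReal.coe_sub, ← EReal.coe_mul]
    exact EReal.coe_ne_top _

/-! ### Measurability -/

/-- The vector of a polynomial. -/
def polyVec (Ω : H) (Y : Fin n → H →L[ℂ] H) : (List (Fin n) →₀ ℂ) →ₗ[ℂ] H :=
  Finsupp.linearCombination ℂ fun w => monomial Y w Ω

/-- `(τ ⊗ τ) ∂_j` of a polynomial. -/
def polyDiff (Ω : H) (Y : Fin n → H →L[ℂ] H) (j : Fin n) : (List (Fin n) →₀ ℂ) →ₗ[ℂ] ℂ :=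
  Finsupp.linearCombination ℂ fun w => diffQuotTrace Ω Y j w

/-- The dual formula `sup_P (2 Re (τ⊗τ)(∂_j P) - ‖P(Y)Ω‖²)` for one summand of `Φ*`. -/
def dualFisher (Ω : H) (Y : Fin n → H →L[ℂ] H) (j : Fin n) : ℝ≥0∞ :=
  ⨆ c : List (Fin n) →₀ ℂ, ENNReal.ofReal (2 * (polyDiff Ω Y j c).re - ‖polyVec Ω Y c‖ ^ 2)

theorem exists_of_dualFisher_le (Y : Fin n → H →L[ℂ] H) (j : Fin n) {B : ℝ} (hB : 0 ≤ B)
    (h : ∀ c, 2 * (polyDiff Ω Y j c).re - ‖polyVec Ω Y c‖ ^ 2 ≤ B) :
    ∃ η : H, (∀ w, ⟪η, monomial Y w Ω⟫_ℂ = diffQuotTrace Ω Y j w) ∧ ‖η‖ ^ 2 ≤ B := by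
  set T := polyVec Ω Y with hT
  set L := polyDiff Ω Y j with hL
  have key : ∀ c, ‖L c‖ ≤ Real.sqrt B * ‖T c‖ := by
    intro c
    have hs : ∀ s : ℝ, 2 * s * ‖L c‖ ^ 2 - s ^ 2 * ‖L c‖ ^ 2 * ‖T c‖ ^ 2 ≤ B := by
      intro s
      have := h (((s : ℂ) * (starRingEnd ℂ) (L c)) • c)
      rw [map_smul, map_smul, smul_eq_mul, norm_smul, norm_mul, RCLike.norm_conj,
        Complex.norm_real, Real.norm_eq_abs, mul_assoc, Complex.conj_mul', mul_pow, mul_pow,
        sq_abs, ← Complex.ofReal_pow, ← Complex.ofReal_mul, Complex.ofReal_re] at this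
      linarith
    by_cases h0 : ‖T c‖ = 0
    · have hz : ‖L c‖ = 0 := by
        by_contra hne
        have := hs ((B + 1) / ‖L c‖ ^ 2)
        have hp : 0 < ‖L c‖ ^ 2 := by positivity
        rw [h0] at this
        field_simp at this
        simp at this
        nlinarith [hp]
      simp [hz, h0]
    · have h1 := hs (1 / ‖T c‖ ^ 2)
      have h2 : ‖L c‖ ^ 2 ≤ (Real.sqrt B * ‖T c‖) ^ 2 := by
        rw [mul_pow, Real.sq_sqrt hB]
        field_simp at h1
        nlinarith
      exact le_of_pow_le_pow_left₀ two_ne_zero (mul_nonneg (Real.sqrt_nonneg _) (norm_nonneg _)) h2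
  have hker : LinearMap.ker T ≤ LinearMap.ker L := fun c hc => by
    rw [LinearMap.mem_ker] at hc ⊢
    simpa [hc] using key c
  let f : LinearMap.range T →ₗ[ℂ] ℂ :=
    (LinearMap.ker T).liftQ L hker ∘ₗ T.quotKerEquivRange.symm.toLinearMap
  have hf : ∀ c, f ⟨T c, LinearMap.mem_range_self T c⟩ = L c := fun c => by
    simp [f, LinearMap.quotKerEquivRange_symm_apply_image]
  have hfb : ∀ y, ‖f y‖ ≤ Real.sqrt B * ‖y‖ := by
    rintro ⟨y, c, rfl⟩
    rw [hf]
    exact key c
  obtain ⟨g, hg, hgn⟩ := exists_extension_norm_eq _ (f.mkContinuous _ hfb)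
  refine ⟨(InnerProductSpace.toDual ℂ H).symm g, fun w => ?_, ?_⟩
  · rw [InnerProductSpace.toDual_symm_apply]
    have hw : monomial Y w Ω = T (Finsupp.single w 1) := by simp [hT, polyVec]
    rw [hw, hg ⟨T _, LinearMap.mem_range_self T _⟩, LinearMap.mkContinuous_apply, hf]
    simp [hL, polyDiff]
  · rw [LinearIsometryEquiv.norm_map, hgn]
    calc _ ≤ Real.sqrt B ^ 2 := pow_le_pow_left₀ (norm_nonneg _)
          (f.mkContinuous_norm_le (Real.sqrt_nonneg B) hfb) 2
      _ = B := Real.sq_sqrt hB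

/-- Dual formula for free Fisher information. -/
theorem fisher_eq_dualFisher (Y : Fin n → H →L[ℂ] H) :
    fisher Ω Y = ∑ j, dualFisher Ω Y j := by
  refine le_antisymm ?_ (le_iInf₂ fun η hη => Finset.sum_le_sum fun j _ => iSup_le fun c => ?_)
  · by_cases htop : ∃ j, dualFisher Ω Y j = ⊤
    · obtain ⟨j, hj⟩ := htop
      rw [ENNReal.sum_eq_top.mpr ⟨j, Finset.mem_univ j, hj⟩]
      exact le_top
    simp only [not_exists] at htop
    have hB : ∀ j, ∃ η : H, (∀ w, ⟪η, monomial Y w Ω⟫_ℂ = diffQuotTrace Ω Y j w) ∧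
        ‖η‖ ^ 2 ≤ (dualFisher Ω Y j).toReal := fun j =>
      exists_of_dualFisher_le Y j ENNReal.toReal_nonneg fun c => by
        have h1 := ENNReal.toReal_mono (htop j) (le_iSup
          (fun c => ENNReal.ofReal (2 * (polyDiff Ω Y j c).re - ‖polyVec Ω Y c‖ ^ 2)) c)
        rw [ENNReal.toReal_ofReal'] at h1
        exact le_trans (le_max_left _ _) h1
    choose η hη hn using hB
    refine (fisher_le η hη).trans ?_
    rw [ENNReal.ofReal_sum_of_nonneg (fun _ _ => sq_nonneg _)]
    exact Finset.sum_le_sum fun j _ =>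
      (ENNReal.ofReal_le_ofReal (hn j)).trans ENNReal.ofReal_toReal_le
  · refine ENNReal.ofReal_le_ofReal ?_
    have hc : polyDiff Ω Y j c = ⟪η j, polyVec Ω Y c⟫_ℂ := by
      simp only [polyDiff, polyVec, Finsupp.linearCombination_apply, Finsupp.sum, inner_sum,
        inner_smul_right, (hη j).2, smul_eq_mul]
    rw [hc]
    have := norm_sub_sq (𝕜 := ℂ) (η j) (polyVec Ω Y c)
    simp only [RCLike.re_to_complex] at this
    nlinarith [sq_nonneg ‖η j - polyVec Ω Y c‖]

theorem continuous_monomial_perturbed (w : List (Fin n)) :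
    Continuous fun t : ℝ => monomial (perturbed X S t) w := by
  induction w with
  | nil => exact continuous_const
  | cons i w ih =>
    simp only [monomial, List.map_cons, List.prod_cons]
    have h : Continuous fun t : ℝ => perturbed X S t i := by
      unfold perturbed
      fun_prop
    exact h.mul ih

/-- `t ↦ Φ*(X + √t S)` is lower semicontinuous. -/
theorem lowerSemicontinuous_fisher :
    LowerSemicontinuous fun t : ℝ => fisher Ω (perturbed X S t) := by
  simp only [fisher_eq_dualFisher]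
  refine lowerSemicontinuous_sum fun j _ => lowerSemicontinuous_iSup fun c => ?_
  refine Continuous.lowerSemicontinuous (ENNReal.continuous_ofReal.comp ?_)
  have hm := fun w => (continuous_monomial_perturbed (X := X) (S := S) w)
  simp only [polyDiff, polyVec, Finsupp.linearCombination_apply, Finsupp.sum, diffQuotTrace, trace,
    smul_eq_mul]
  refine (continuous_const.mul (Complex.continuous_re.comp
    (continuous_finsetSum _ fun w _ => continuous_const.mul
      (continuous_finsetSum _ fun l _ => ?_)))).sub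
    ((continuous_finsetSum _ fun w _ => ?_).norm.pow 2)
  · split_ifs
    · exact ((continuous_const.inner ((hm _).clm_apply continuous_const)).mul
        (continuous_const.inner ((hm _).clm_apply continuous_const)))
    · exact continuous_const
  · exact ((hm w).clm_apply continuous_const).const_smul _

/-- `t ↦ Φ*(X + √t S)` is measurable. -/
theorem measurable_fisher_perturbed : Measurable fun t : ℝ => fisher Ω (perturbed X S t) :=
  lowerSemicontinuous_fisher.measurable

end

end Vale.Agent.P087
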