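import Vale.Agent.P087.Upper

/-!
# P087: faithfulness of the coordinates on self-adjoint matrices

`hermitian` is a linear isometry from `ℝ^(k×k)` onto the self-adjoint matrices with
`⟨A, B⟩ = Tr (A B)`, so Lebesgue measure on coordinates is the volume of `M_k^sa`.
-/

namespace Vale.Agent.P087

namespace Sanity2

variable {k : ℕ}

theorem hermitian_isHermitian (x : Fin k → Fin k → ℝ) : (hermitian x).IsHermitian :=
  Lower.hermitian_isHermitian x

theorem hermitian_surjective {P : Matrix (Fin k) (Fin k) ℂ} (hP : P.IsHermitian) :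
    ∃ x, hermitian x = P :=
  ⟨Lower.coords P, Lower.hermitian_coords hP⟩

theorem hermitian_add (x y : Fin k → Fin k → ℝ) :
    hermitian (fun a b => x a b + y a b) = hermitian x + hermitian y := by
  simpa using Lower.hermitian_add_smul x y 1

theorem trace_hermitian_mul (x y : Fin k → Fin k → ℝ) :
    (hermitian x * hermitian y).trace = ((∑ a, ∑ b, x a b * y a b : ℝ) : ℂ) := by
  have h := Upper.trace_hermitian_sq (fun a b => x a b + y a b)
  rw [hermitian_add, add_mul, mul_add, mul_add, Matrix.trace_add, Matrix.trace_add, Matrix.trace_add,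
    Upper.trace_hermitian_sq, Upper.trace_hermitian_sq, Matrix.trace_mul_comm (hermitian y)] at h
  have e : Upper.sqSum (fun a b => x a b + y a b) =
      Upper.sqSum x + Upper.sqSum y + 2 * ∑ a, ∑ b, x a b * y a b := by
    simp only [Upper.sqSum, add_sq, Finset.sum_add_distrib, Finset.mul_sum, mul_assoc]
    ring
  rw [e] at h
  push_cast at h ⊢
  linear_combination h / 2

theorem hermitian_injective (x y : Fin k → Fin k → ℝ) (h : hermitian x = hermitian y) : x = y := by
  have h0 : hermitian (fun a b => x a b + -1 * y a b) = 0 := by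
    rw [Lower.hermitian_add_smul, h]
    simp
  have h1 := Upper.trace_hermitian_sq (fun a b => x a b + -1 * y a b)
  rw [h0, mul_zero, Matrix.trace_zero] at h1
  have h2 : Upper.sqSum (fun a b => x a b + -1 * y a b) = 0 := by exact_mod_cast h1.symm
  funext a b
  have h3 := (Finset.sum_eq_zero_iff_of_nonneg
    (fun a _ => Finset.sum_nonneg fun b _ => sq_nonneg _)).1 h2 a (Finset.mem_univ a)
  have h4 := (Finset.sum_eq_zero_iff_of_nonneg (fun b _ => sq_nonneg _)).1 h3 b (Finset.mem_univ b)
  have h5 := pow_eq_zero_iff (n := 2) (by norm_num) |>.1 h4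
  linarith

end Sanity2

end Vale.Agent.P087
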